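import Vale.Agent.P093.N.PhiHur
import Vale.Agent.P251.M.ChainWt

/-!
# P093, part N, block N1-PHI: homogeneity of the coordinate-change maps
-/

namespace Vale.Agent.P093.N.Phi

open Vale.Agent.P251.F Vale.Agent.P217 TensorProduct MvPowerSeries Vale.Agent.P251.M
  Vale.Agent.P251.Q

section General

/-- Functions of weight `w` on a homogeneous chain starting at the additive law have degree `w`. -/
theorem ev_addChain_mem {B : Type} [CommRing B] {gB : ℤ → AddSubgroup B} (h1 : (1 : B) ∈ gB 0)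
    (hm : ∀ i j a b, a ∈ gB i → b ∈ gB j → a * b ∈ gB (i + j)) {n : ℕ}
    (g : Fin (n + 1) → InvSeries B) (hs : ∀ i, g i ∈ strict B) (h0 : g 0 = 1)
    (hg : ∀ i (m : ℕ), (g i).c m ∈ gB m) {w : ℤ} {x : Cob Laz n} (hx : Cob.IsWt w x) :
    Cob.ev (addChain g hs h0) x ∈ gB w := by
  have hA : IsMulGr (fun i => gB (-i)) :=
    { one_mem := by simpa using h1
      mul_mem := fun i j a b ha hb => by
        have := hm _ _ a b ha hb
        rwa [show -i + -j = -(i + j) by ring] at this }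
  have hc : ChainWt.IsHom (fun i => gB (-i)) (LChain.ofChain (addChain g hs h0)) := by
    constructor
    · intro m
      have h2 : (LChain.ofChain (addChain g hs h0)).law = addLaw B := by
        change LawRing.law.map (Laz.lift (addLaw B)) = addLaw B
        exact Laz.univ_map_lift _
      rw [h2, addLaw_ps, map_add, coeff_X, coeff_X]
      by_cases hm0 : m = Finsupp.single 0 1
      · rw [if_pos hm0, if_neg (by
          rw [hm0]
          intro h
          have h1 := DFunLike.congr_fun h 0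
          simp at h1), add_zero, hm0]
        simpa using h1
      · by_cases hm1 : m = Finsupp.single 1 1
        · rw [if_neg hm0, if_pos hm1, zero_add, hm1]
          simpa using h1
        · rw [if_neg hm0, if_neg hm1, add_zero]
          exact zero_mem _
    · intro i m
      change (g i).c m ∈ gB (- -(m : ℤ))
      rw [neg_neg]
      exact hg i m
  have h3 := ChainWt.ev_mem hA hc hx
  rw [LChain.ev_ofChain] at h3
  simpa using h3

end General

section

variable (p : ℕ) [hp : Fact p.Prime] {P : Type} [CommRing P] {t : ℕ → P}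

theorem addSer_c_mem {gB : ℤ → AddSubgroup P} (h1 : (1 : P) ∈ gB 0)
    (ht : ∀ k : ℕ, t k ∈ gB ((p ^ (k + 1) - 1 : ℕ) : ℤ)) (m : ℕ) :
    (addSer p t).c m ∈ gB m := by
  rcases m with _ | m
  · rw [mem_strict.1 (addSer_mem p t)]
    exact h1
  · by_cases h : ∃ k, p ^ k = m + 2
    · obtain ⟨k, hk⟩ := h
      rcases k with _ | k
      · rw [pow_zero] at hk
        omega
      · have h4 := addSer_c_pow p hp.out.one_lt t k
        have h5 : p ^ (k + 1) - 1 = m + 1 := by omega
        have h6 := ht k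
        rw [h5] at h4 h6
        rw [h4]
        exact h6
    · push Not at h
      rw [addSer_c_of_not p t m h]
      exact zero_mem _

theorem cons2_c_mem {B : Type} [CommRing B] {gB : ℤ → AddSubgroup B} (h1 : (1 : B) ∈ gB 0)
    {f : InvSeries B} (hf : ∀ m : ℕ, f.c m ∈ gB m) (i : Fin 2) (m : ℕ) :
    ((![1, f] : Fin 2 → InvSeries B) i).c m ∈ gB m := by
  fin_cases i
  · rcases m with _ | m
    · change (1 : InvSeries B).c 0 ∈ _
      rw [InvSeries.c_zero_one]
      exact h1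
    · change (1 : InvSeries B).c (m + 1) ∈ _
      rw [InvSeries.c_one_succ]
      exact zero_mem _
  · exact hf m

/-- **Homogeneity of `phiC`.** -/
theorem phiC_mem [Algebra (ZMod p) P] {gB : ℤ → AddSubgroup P} (h1 : (1 : P) ∈ gB 0)
    (hm : ∀ i j a b, a ∈ gB i → b ∈ gB j → a * b ∈ gB (i + j))
    (ht : ∀ k : ℕ, t k ∈ gB ((p ^ (k + 1) - 1 : ℕ) : ℤ)) {w : ℤ} {x : Cob Laz 1}
    (hx : Cob.IsWt w x) : phiC p t x ∈ gB w :=
  ev_addChain_mem h1 hm _ _ _ (cons2_c_mem h1 (addSer_c_mem p h1 ht)) hx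

/-- A family of submodules indexed by `ℕ`, extended by zero. -/
def zgr {k B : Type} [CommRing k] [CommRing B] [Algebra k B] (𝒜 : ℕ → Submodule k B) :
    ℤ → AddSubgroup B
  | Int.ofNat n => (𝒜 n).toAddSubgroup
  | Int.negSucc _ => ⊥

theorem mem_zgr_natCast {k B : Type} [CommRing k] [CommRing B] [Algebra k B]
    {𝒜 : ℕ → Submodule k B} {n : ℕ} {x : B} : x ∈ zgr 𝒜 (n : ℤ) ↔ x ∈ 𝒜 n := Iff.rfl

theorem mem_zgr_neg {k B : Type} [CommRing k] [CommRing B] [Algebra k B]
    {𝒜 : ℕ → Submodule k B} {n : ℤ} (hn : n < 0) {x : B} : x ∈ zgr 𝒜 n ↔ x = 0 := by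
  obtain ⟨m, rfl⟩ := Int.eq_negSucc_of_lt_zero hn
  exact Iff.rfl

theorem zgr_mul {k B : Type} [CommRing k] [CommRing B] [Algebra k B] {𝒜 : ℕ → Submodule k B}
    [SetLike.GradedMonoid 𝒜] (i j : ℤ) (a b : B) (ha : a ∈ zgr 𝒜 i) (hb : b ∈ zgr 𝒜 j) :
    a * b ∈ zgr 𝒜 (i + j) := by
  rcases i with i | i
  · rcases j with j | j
    · exact SetLike.mul_mem_graded (A := 𝒜) ha hb
    · have hb' : b = 0 := hb
      rw [hb', mul_zero]
      exact zero_mem _
  · have ha' : a = 0 := ha
    rw [ha', zero_mul]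
    exact zero_mem _

variable {k : Type} [CommRing k]

/-- Homogeneity of `phiC`, gradings indexed by `ℕ`. -/
theorem phiC_mem_nat [Algebra (ZMod p) P] {𝒜 : ℕ → Submodule (ZMod p) P} [SetLike.GradedMonoid 𝒜]
    (ht : ∀ k : ℕ, t k ∈ 𝒜 (p ^ (k + 1) - 1)) {w : ℕ} {x : Cob Laz 1}
    (hx : Cob.IsWt (w : ℤ) x) : phiC p t x ∈ 𝒜 w :=
  mem_zgr_natCast.1 (phiC_mem p (gB := zgr 𝒜) (SetLike.one_mem_graded (A := 𝒜))
    (fun i j a b ha hb => zgr_mul i j a b ha hb) ht hx)

theorem phiC_eq_zero_of_neg [Algebra (ZMod p) P] {𝒜 : ℕ → Submodule (ZMod p) P}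
    [SetLike.GradedMonoid 𝒜] (ht : ∀ k : ℕ, t k ∈ 𝒜 (p ^ (k + 1) - 1)) {w : ℤ} (hw : w < 0)
    {x : Cob Laz 1} (hx : Cob.IsWt w x) : phiC p t x = 0 :=
  (mem_zgr_neg hw).1 (phiC_mem p (gB := zgr 𝒜) (SetLike.one_mem_graded (A := 𝒜))
    (fun i j a b ha hb => zgr_mul i j a b ha hb) ht hx)

/-- The grading of `F_p[b]`: `b_m` has weight `m + 1`. -/
noncomputable def bgr (d : ℕ) : Submodule (ZMod p) (Fb p) :=
  MvPolynomial.weightedHomogeneousSubmodule (ZMod p) (fun m : ℕ => m + 1) d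

instance : SetLike.GradedMonoid (bgr p) :=
  MvPolynomial.WeightedHomogeneousSubmodule.gradedMonoid (R := ZMod p) (w := fun m : ℕ => m + 1)

theorem X_mem_bgr (m : ℕ) : (MvPolynomial.X m : Fb p) ∈ bgr p (m + 1) :=
  MvPolynomial.isWeightedHomogeneous_X (ZMod p) (fun m : ℕ => m + 1) m

theorem bser_c_mem (m : ℕ) : (bser p).c m ∈ zgr (bgr p) m := by
  rcases m with _ | m
  · rw [mem_strict.1 (bser_mem p)]
    exact SetLike.one_mem_graded (A := bgr p)
  · rw [bser, c_succ_strictMk]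
    exact X_mem_bgr p m

/-- **Homogeneity of `thC`.** -/
theorem thC_mem {w : ℤ} {x : Cob Laz 1} (hx : Cob.IsWt w x) : thC p x ∈ zgr (bgr p) w :=
  ev_addChain_mem (gB := zgr (bgr p)) (SetLike.one_mem_graded (A := bgr p))
    (fun i j a b ha hb => zgr_mul i j a b ha hb) _ _ _
    (cons2_c_mem (SetLike.one_mem_graded (A := bgr p)) (bser_c_mem p)) hx

theorem thC_mem_nat {w : ℕ} {x : Cob Laz 1} (hx : Cob.IsWt (w : ℤ) x) : thC p x ∈ bgr p w :=
  mem_zgr_natCast.1 (thC_mem p hx)

theorem thC_eq_zero_of_neg {w : ℤ} (hw : w < 0) {x : Cob Laz 1} (hx : Cob.IsWt w x) :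
    thC p x = 0 := (mem_zgr_neg hw).1 (thC_mem p hx)

/-- **Homogeneity of the Hurewicz map.** -/
theorem hC_mem {w : ℤ} {a : Laz} (ha : Cob.IsWt w (MvPolynomial.C a : Cob Laz 0)) :
    hC p a ∈ zgr (bgr p) w := by
  rw [← thC_map_one_C]
  exact thC_mem p (ha.map _)

/-- the augmentation of `Laz` vanishes in nonzero weights. -/
theorem epsC_eq_zero {w : ℤ} (hw : w ≠ 0) {x : Cob Laz 0} (hx : Cob.IsWt w x) :
    epsC p x = 0 := by
  have h := ev_addChain_mem (B := ZMod p) (gB := fun i => if i = 0 then ⊤ else ⊥)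
    (by rw [if_pos rfl]; exact AddSubgroup.mem_top _)
    (fun i j a b ha hb => by
      split_ifs at ha hb with h1 h2 h2
      · rw [if_pos (by omega)]
        exact AddSubgroup.mem_top _
      · rw [AddSubgroup.mem_bot.1 hb, mul_zero]
        exact zero_mem _
      · rw [AddSubgroup.mem_bot.1 ha, zero_mul]
        exact zero_mem _
      · rw [AddSubgroup.mem_bot.1 ha, zero_mul]
        exact zero_mem _)
    (fun _ => 1) (fun _ => one_mem _) rfl (fun i m => by
      rcases m with _ | m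
      · rw [InvSeries.c_zero_one, if_pos (by simp)]
        exact AddSubgroup.mem_top _
      · rw [InvSeries.c_one_succ]
        exact zero_mem _) hx
  rw [if_neg hw] at h
  exact h

end

end Vale.Agent.P093.N.Phi
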