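import Vale.Agent.P093.N.PLocMon
import Vale.Agent.P251.X.Split

/-!
# P093, part N: the `p`-localization `X ⟶ X ⊗ Sp p` (on the right)
-/

open CategoryTheory MonoidalCategory Limits Pretriangulated Preadditive MonObj

set_option linter.unusedSectionVars false

universe v u

namespace Vale.Agent.P093.PLoc

open Vale.Agent.P251.T Vale.Agent.P251.S

section right

variable {T : Type u} [Category.{v} T] [Preadditive T] [HasZeroObject T] [HasShift T ℤ]
  [∀ n : ℤ, (shiftFunctor T n).Additive] [Pretriangulated T]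
  [MonoidalCategory T] [SymmetricCategory T] [TensorTriangulated T] [MonoidalClosed T]
  [HasCoproducts.{0} T]

/-- the `p`-localization map, with the local sphere on the right -/
noncomputable def etaR (p : ℕ) (X : T) : X ⟶ X ⊗ Sp T p := (ρ_ X).inv ≫ X ◁ eta T p

@[reassoc]
theorem etaR_naturality (p : ℕ) {X Y : T} (f : X ⟶ Y) :
    f ≫ etaR p Y = etaR p X ≫ f ▷ Sp T p := by
  unfold etaR
  rw [Category.assoc, whisker_exchange, rightUnitor_inv_naturality_assoc]

@[reassoc]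
theorem etaX_braiding (p : ℕ) (X : T) : etaX p X ≫ (β_ (Sp T p) X).hom = etaR p X := by
  unfold etaX etaR
  rw [Category.assoc, BraidedCategory.braiding_naturality_left]
  simp

@[reassoc]
theorem etaR_braiding (p : ℕ) (X : T) : etaR p X ≫ (β_ X (Sp T p)).hom = etaX p X := by
  rw [← etaX_braiding, Category.assoc, SymmetricCategory.symmetry, Category.comp_id]

theorem etaR_eq_redC (p : ℕ) (X : T) : etaR p X = (redC (eta T p)).app X := rfl

variable {p : ℕ}

theorem isPLocal_tensor_Sp (hp : p ≠ 1) (X : T) : IsPLocal p (X ⊗ Sp T p) :=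
  (isPLocal_Sp hp).tensor_left X

theorem exists_lift_right {W X : T} (hW : IsCpt W) (f : W ⟶ X ⊗ Sp T p) :
    ∃ (q : ℕ) (g : W ⟶ X), q.Coprime p ∧ g ≫ etaR p X = (q : ℤ) • f := by
  obtain ⟨q, g, hq, hg⟩ := exists_lift_of_isCpt hW (f ≫ (β_ X (Sp T p)).hom)
  refine ⟨q, g, hq, ?_⟩
  rw [← etaX_braiding, reassoc_of% hg, zsmul_comp, Category.assoc, SymmetricCategory.symmetry,
    Category.comp_id]

theorem exists_zero_right {W X : T} (hW : IsCpt W) (g : W ⟶ X) (hg : g ≫ etaR p X = 0) :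
    ∃ q : ℕ, q.Coprime p ∧ (q : ℤ) • g = 0 := by
  refine exists_zero_of_isCpt hW g ?_
  rw [← etaR_braiding, ← Category.assoc, hg, zero_comp]

theorem IsPLocal.hom_ext_right {X Y : T} (hY : IsPLocal p Y) {f g : X ⊗ Sp T p ⟶ Y}
    (h : etaR p X ≫ f = etaR p X ≫ g) : f = g := by
  rw [← cancel_epi (β_ (Sp T p) X).hom]
  refine hY.hom_ext ?_
  rw [etaX_braiding_assoc, etaX_braiding_assoc, h]

theorem IsPLocal.exists_desc_right {X Y : T} (hY : IsPLocal p Y) (f : X ⟶ Y) :
    ∃ g : X ⊗ Sp T p ⟶ Y, etaR p X ≫ g = f :=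
  ⟨(β_ X (Sp T p)).hom ≫ hY.desc f, by rw [etaR_braiding_assoc, hY.etaX_desc]⟩

theorem isPLocal_iff_isIso_etaR (hp : p ≠ 1) {X : T} : IsPLocal p X ↔ IsIso (etaR p X) := by
  rw [isPLocal_iff_isIso_etaX hp, ← etaX_braiding]
  exact ⟨fun _ => inferInstance, fun _ => IsIso.of_isIso_comp_right _ (β_ (Sp T p) X).hom⟩

/-- `Sp p` is idempotent -/
theorem isIso_Sp_whiskerLeft_eta (hp : p ≠ 1) : IsIso (Sp T p ◁ eta T p) := by
  have h1 := mu_eta (T := T) hp
  have h2 := isIso_mu T hp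
  have h3 : IsIso (Sp T p ◁ eta T p ≫ mu T hp) := by rw [h1]; infer_instance
  exact IsIso.of_isIso_comp_right _ (mu T hp)

theorem isIso_eta_whiskerRight_Sp (hp : p ≠ 1) : IsIso (eta T p ▷ Sp T p) := by
  have h1 := eta_mu (T := T) hp
  have h2 := isIso_mu T hp
  have h3 : IsIso (eta T p ▷ Sp T p ≫ mu T hp) := by rw [h1]; infer_instance
  exact IsIso.of_isIso_comp_right _ (mu T hp)

/-! ### Idempotents of a `p`-local object -/

/-- a retract from an element `y` with `y ≫ y = n • y`, `n` prime to `p`, of a `p`-local object -/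
theorem exists_split_of_local {X : T} (hX : IsPLocal p X) (y : X ⟶ X) (n : ℤ)
    (hn : n.natAbs.Coprime p) (hy : y ≫ y = n • y) :
    ∃ (Y : T) (s : Y ⟶ X) (r : X ⟶ Y), s ≫ r = 𝟙 Y ∧ n • (r ≫ s) = y := by
  obtain ⟨e, he⟩ := hX.exists_div hn y
  have h1 : e ≫ e = e := by
    rw [← sub_eq_zero]
    refine hX.eq_zero hn (hX.eq_zero hn ?_)
    have h2 : n • n • (e ≫ e) = n • n • e := by
      rw [← zsmul_comp, ← comp_zsmul, he, hy]
    rw [smul_sub, smul_sub, h2, sub_self]
  obtain ⟨Y, s, r, h3, h4⟩ := Vale.Agent.P251.X.exists_split e h1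
  exact ⟨Y, s, r, h3, by rw [h4, he]⟩

end right

end Vale.Agent.P093.PLoc
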