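import Vale.Agent.P093.N2.HasChi
import Vale.Agent.P251.H.Dist

/-!
# P093, part N (block 3c, REAL): definitions

* `EvSp X n` : the space `X` is built from `n` cells, all of even dimension (spaces only);
* `Cells L X` : the object `X` of a pretriangulated category is built from finitely many even
  shifts of `L` (`L = S_(p)`).
-/

open CategoryTheory MonoidalCategory Limits Pretriangulated
open Vale.Agent.P251.G Vale.Agent.P251.G.LC Vale.Agent.P251.H

universe v u

namespace Vale.Agent.P093.N.Real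

open Vale.Agent.P093.N2

/-- `EvSp X n` : the space `X` is obtained from the empty space by `n` mapping cones
`X' ↦ cone (f : Sph (2 a + 1) ⟶ X')` (one new cell of dimension `2 a + 2`), and by products with
even dimensional vector spaces. -/
inductive EvSp : LC → ℕ → Prop
  | empty : EvSp (LC.of Empty) 0
  | susp {X : LC} {n : ℕ} (k : ℕ) (hX : EvSp X n) : EvSp (X ⊗ Sph (2 * k)) n
  | cone {X : LC} {n : ℕ} (a : ℕ) (f : Sph (2 * a + 1) ⟶ X) (hX : EvSp X n) :
      EvSp (LC.cone f) (n + 1)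

namespace EvSp

theorem hasChi {X : LC} {n : ℕ} (h : EvSp X n) : HasChi X (n : ℤ) := by
  induction h with
  | empty => exact HasChi.empty
  | susp k _ ih =>
    refine (ih.tensor_sph (2 * k)).cast ?_
    rw [pow_mul]
    simp
  | cone a f _ ih =>
    refine ((HasChi.sph (2 * a + 1)).cone ih f).cast ?_
    rw [pow_succ, pow_mul]
    push_cast
    simp

theorem fc {X : LC} {n : ℕ} (h : EvSp X n) : FC X := h.hasChi.fc

end EvSp

section

variable {T : Type u} [Category.{v} T] [Preadditive T] [HasZeroObject T]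
  [HasShift T ℤ] [∀ n : ℤ, (shiftFunctor T n).Additive] [Pretriangulated T]

/-- `Cells L X` : `X` has a finite filtration `0 = X_0 ⟶ X_1 ⟶ ⋯ ⟶ X_n = X` with distinguished
triangles `X_i ⟶ X_{i+1} ⟶ L⟦2 k_i⟧ ⟶ X_i⟦1⟧`. -/
inductive Cells (L : T) : T → Prop
  | zero (X : T) (hX : IsZero X) : Cells L X
  | attach {X Y : T} (k : ℤ) (g : X ⟶ Y) (q : Y ⟶ L⟦2 * k⟧) (h : L⟦2 * k⟧ ⟶ X⟦(1 : ℤ)⟧)
      (D : Dist g q h) (hX : Cells L X) : Cells L Y

/-- `Sums M B` : `B` is a finite direct sum of copies of `M`. -/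
inductive Sums (M : T) : T → Prop
  | zero (B : T) (hB : IsZero B) : Sums M B
  | cons (B Q : T) (e : B ≅ M ⊞ Q) (hQ : Sums M Q) : Sums M B

variable [MonoidalCategory T]

/-- `u : 𝟙 ⟶ L` is the `p`-localisation of the unit. -/
structure IsPLoc (p : ℕ) (L : T) (u : 𝟙_ T ⟶ L) : Prop where
  /-- `u` is idempotent -/
  idem : IsIso (L ◁ u)
  /-- integers prime to `p` are invertible on `L` -/
  inv : ∀ q : ℕ, q.Coprime p → IsIso ((q : ℤ) • 𝟙 L)
  /-- a map from a sphere to `X ⊗ L` comes from `X`, up to a factor prime to `p` -/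
  fac : ∀ (n : ℤ) (X : T) (f : (𝟙_ T)⟦n⟧ ⟶ X ⊗ L), ∃ q : ℕ, q.Coprime p ∧
    ∃ g : (𝟙_ T)⟦n⟧ ⟶ X, (q : ℤ) • f = g ≫ (ρ_ X).inv ≫ X ◁ u
  /-- a map from a sphere to `X` which vanishes in `X ⊗ L` is killed by an integer prime to `p` -/
  ker : ∀ (n : ℤ) (X : T) (g : (𝟙_ T)⟦n⟧ ⟶ X), g ≫ (ρ_ X).inv ≫ X ◁ u = 0 →
    ∃ q : ℕ, q.Coprime p ∧ (q : ℤ) • g = 0

end

end Vale.Agent.P093.N.Real
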