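import Mathlib.Tactic.Linarith
import Mathlib.Data.Nat.GCD.BigOperators
import Vale.Agent.P251.S.TelTens
import Vale.Agent.P251.S.Loc

/-!
# P093, part N: `p`-localization in a stable homotopy category

`Sp p` is the telescope of the multiplications by integers prime to `p` on the unit, `eta p` its
unit. `Sp p ⊗ X` is the `p`-localization of `X`, with `etaX p X : X ⟶ Sp p ⊗ X`.
-/

open CategoryTheory MonoidalCategory Limits Pretriangulated Preadditive

set_option linter.unusedSectionVars false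

universe v u

namespace Vale.Agent.P093.PLoc

open Vale.Agent.P251.T Vale.Agent.P251.S

/-! ### The sequence of integers prime to `p` -/

/-- `n + 1` if it is prime to `p`, else `1` -/
def qs (p n : ℕ) : ℕ := if (n + 1).Coprime p then n + 1 else 1

theorem qs_coprime (p n : ℕ) : (qs p n).Coprime p := by
  unfold qs
  split_ifs with h
  · exact h
  · exact Nat.coprime_one_left p

/-- the product of the integers `qs p (n + i)`, `i < k` -/
def qp (p n k : ℕ) : ℕ := ∏ i ∈ Finset.range k, qs p (n + i)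

@[simp] theorem qp_zero (p n : ℕ) : qp p n 0 = 1 := by simp [qp]

theorem qp_succ (p n k : ℕ) : qp p n (k + 1) = qp p n k * qs p (n + k) := by
  simp [qp, Finset.prod_range_succ]

theorem qp_coprime (p n k : ℕ) : (qp p n k).Coprime p :=
  Nat.Coprime.prod_left fun _ _ => qs_coprime _ _

theorem exists_dvd_qs {p m : ℕ} (hm : m.Coprime p) (hm0 : m ≠ 0) (N : ℕ) :
    ∃ k, m ∣ qs p (N + k) := by
  by_cases hp : p = 0
  · subst hp
    have : m = 1 := by simpa using hm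
    subst this
    exact ⟨0, one_dvd _⟩
  obtain ⟨k, hk⟩ : ∃ k, N + k + 1 = m * (1 + p * (N + 1)) := by
    have h1 : N + 1 ≤ m * (1 + p * (N + 1)) := by
      have h2 : 1 ≤ m := Nat.one_le_iff_ne_zero.2 hm0
      have h3 : 1 ≤ p := Nat.one_le_iff_ne_zero.2 hp
      calc N + 1 ≤ 1 + p * (N + 1) := by nlinarith
        _ = 1 * (1 + p * (N + 1)) := by ring
        _ ≤ m * (1 + p * (N + 1)) := Nat.mul_le_mul_right _ h2
    exact ⟨m * (1 + p * (N + 1)) - (N + 1), by omega⟩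
  refine ⟨k, ?_⟩
  unfold qs
  rw [hk, if_pos]
  · exact dvd_mul_right _ _
  · refine Nat.Coprime.mul_left hm ?_
    simp

theorem exists_sq_dvd_qp {p m : ℕ} (hm : m.Coprime p) (hm0 : m ≠ 0) (n : ℕ) :
    ∃ k, m * m ∣ qp p n k := by
  obtain ⟨a, ha⟩ := exists_dvd_qs hm hm0 n
  obtain ⟨b, hb⟩ := exists_dvd_qs hm hm0 (n + a + 1)
  refine ⟨a + 1 + b + 1, ?_⟩
  rw [qp_succ]
  refine mul_dvd_mul ?_ ?_
  · refine ha.trans ?_
    unfold qp
    exact Finset.dvd_prod_of_mem (fun i => qs p (n + i)) (by simp; omega)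
  · have : n + (a + 1 + b) = n + a + 1 + b := by ring
    rw [this]
    exact hb

section scalar

variable {C : Type u} [Category.{v} C] [Preadditive C]

theorem zsmul_id_comp {X Y : C} (a : ℤ) (f : X ⟶ Y) : (a • 𝟙 X) ≫ f = a • f := by
  rw [zsmul_comp, Category.id_comp]

theorem comp_zsmul_id {X Y : C} (a : ℤ) (f : X ⟶ Y) : f ≫ (a • 𝟙 Y) = a • f := by
  rw [comp_zsmul, Category.comp_id]

theorem trT_zsmul {X : C} (a : ℕ → ℕ) (n k : ℕ) :
    trT (X := fun _ => X) (fun n => (a n : ℤ) • 𝟙 X) n k =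
      ((∏ i ∈ Finset.range k, a (n + i) : ℕ) : ℤ) • 𝟙 X := by
  induction k with
  | zero => simp
  | succ k ih =>
    rw [trT_succ, ih, comp_zsmul_id, smul_smul, Finset.prod_range_succ]
    push_cast
    rw [mul_comm]

theorem trT_qs (p : ℕ) (X : C) (n k : ℕ) :
    trT (X := fun _ => X) (fun n => (qs p n : ℤ) • 𝟙 X) n k = (qp p n k : ℤ) • 𝟙 X :=
  trT_zsmul _ _ _

end scalar

/-! ### `p`-local objects -/

section plocal

variable {T : Type u} [Category.{v} T] [Preadditive T]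

/-- `X` is `p`-local: the integers prime to `p` act invertibly. -/
def IsPLocal (p : ℕ) (X : T) : Prop := ∀ q : ℕ, q.Coprime p → IsIso ((q : ℤ) • 𝟙 X)

variable {p : ℕ}

theorem IsPLocal.isIso {X : T} (h : IsPLocal p X) {q : ℤ} (hq : q.natAbs.Coprime p) :
    IsIso (q • 𝟙 X) := by
  have h1 := h _ hq
  rcases Int.natAbs_eq q with h2 | h2
  · rw [h2]
    exact h1
  · obtain ⟨w, hw1, hw2⟩ := h1
    rw [h2, neg_smul]
    exact ⟨-w, by rw [neg_comp, comp_neg, neg_neg, hw1], by rw [neg_comp, comp_neg, neg_neg, hw2]⟩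

theorem IsPLocal.eq_zero {X Y : T} (h : IsPLocal p Y) {q : ℤ} (hq : q.natAbs.Coprime p)
    {f : X ⟶ Y} (hf : q • f = 0) : f = 0 := by
  have h1 := h.isIso hq
  rw [← cancel_mono (q • 𝟙 Y), comp_zsmul_id, hf, zero_comp]

theorem IsPLocal.eq_zero' {X Y : T} (h : IsPLocal p X) {q : ℤ} (hq : q.natAbs.Coprime p)
    {f : X ⟶ Y} (hf : q • f = 0) : f = 0 := by
  have h1 := h.isIso hq
  rw [← cancel_epi (q • 𝟙 X), zsmul_id_comp, hf, comp_zero]

theorem IsPLocal.exists_div {X Y : T} (h : IsPLocal p Y) {q : ℤ} (hq : q.natAbs.Coprime p)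
    (f : X ⟶ Y) : ∃ g : X ⟶ Y, q • g = f := by
  have h1 := h.isIso hq
  exact ⟨f ≫ inv (q • 𝟙 Y), by rw [← comp_zsmul_id, Category.assoc, IsIso.inv_hom_id,
    Category.comp_id]⟩

theorem IsPLocal.of_iso {X Y : T} (h : IsPLocal p X) (e : X ≅ Y) : IsPLocal p Y := by
  intro q hq
  have h1 := h q hq
  have h2 : (q : ℤ) • 𝟙 Y = e.inv ≫ ((q : ℤ) • 𝟙 X) ≫ e.hom := by
    rw [zsmul_id_comp, comp_zsmul, Iso.inv_hom_id]
  rw [h2]
  infer_instance

theorem IsPLocal.retract {X Y : T} (h : IsPLocal p X) (a : Y ⟶ X) (b : X ⟶ Y)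
    (hab : a ≫ b = 𝟙 Y) : IsPLocal p Y := by
  intro q hq
  obtain ⟨w, hw1, hw2⟩ := h q hq
  rw [zsmul_id_comp] at hw1
  rw [comp_zsmul_id] at hw2
  refine ⟨a ≫ w ≫ b, ?_, ?_⟩
  · rw [zsmul_id_comp, ← comp_zsmul, ← zsmul_comp, hw1, Category.id_comp, hab]
  · rw [comp_zsmul_id, ← comp_zsmul, ← zsmul_comp, hw2, Category.id_comp, hab]

theorem IsPLocal.map {D : Type*} [Category* D] [Preadditive D] {X : T} (h : IsPLocal p X)
    (F : T ⥤ D) [F.Additive] : IsPLocal p (F.obj X) := by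
  intro q hq
  have h1 := h q hq
  have h2 : (q : ℤ) • 𝟙 (F.obj X) = F.map ((q : ℤ) • 𝟙 X) := by
    rw [F.map_zsmul, CategoryTheory.Functor.map_id]
  rw [h2]
  infer_instance

theorem isPLocal_of_isZero {X : T} (h : IsZero X) : IsPLocal p X := by
  intro q _
  refine ⟨0, ?_, ?_⟩
  · exact h.eq_of_src _ _
  · exact h.eq_of_src _ _

theorem IsPLocal.coprod {I : Type*} {X : I → T} [HasCoproduct X] (h : ∀ i, IsPLocal p (X i)) :
    IsPLocal p (∐ X) := by
  intro q hq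
  choose w hw1 hw2 using fun i => (h i q hq).out
  refine ⟨Limits.Sigma.map w, ?_, ?_⟩
  · apply Sigma.hom_ext
    intro i
    rw [zsmul_id_comp, comp_zsmul, Sigma.ι_map, ← zsmul_comp, ← zsmul_id_comp, hw1,
      Category.id_comp, Category.comp_id]
  · apply Sigma.hom_ext
    intro i
    rw [comp_zsmul_id, comp_zsmul, Sigma.ι_map, ← zsmul_comp, ← zsmul_id_comp, hw1,
      Category.id_comp, Category.comp_id]

theorem IsPLocal.prod {I : Type*} {X : I → T} [HasProduct X] (h : ∀ i, IsPLocal p (X i)) :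
    IsPLocal p (∏ᶜ X) := by
  intro q hq
  choose w hw1 hw2 using fun i => (h i q hq).out
  refine ⟨Limits.Pi.map w, ?_, ?_⟩
  · apply Pi.hom_ext
    intro i
    rw [zsmul_id_comp, zsmul_comp, Limits.Pi.map_π, ← comp_zsmul, ← zsmul_id_comp, hw1,
      Category.id_comp, Category.comp_id]
  · apply Pi.hom_ext
    intro i
    rw [comp_zsmul_id, zsmul_comp, Limits.Pi.map_π, ← comp_zsmul, ← zsmul_id_comp, hw1,
      Category.id_comp, Category.comp_id]

end plocal

section tri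

variable {T : Type u} [Category.{v} T] [Preadditive T] [HasZeroObject T] [HasShift T ℤ]
  [∀ n : ℤ, (shiftFunctor T n).Additive] [Pretriangulated T] {p : ℕ}

theorem IsPLocal.shift {X : T} (h : IsPLocal p X) (n : ℤ) : IsPLocal p (X⟦n⟧) :=
  h.map (shiftFunctor T n)

theorem IsPLocal.of_shift {X : T} (n : ℤ) (h : IsPLocal p (X⟦n⟧)) : IsPLocal p X :=
  (h.shift (-n)).of_iso ((shiftFunctorCompIsoId T n (-n) (by simp)).app X)

/-- multiplication by an integer on a triangle -/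
def triMul (Δ : Triangle T) (q : ℤ) : Δ ⟶ Δ where
  hom₁ := q • 𝟙 _
  hom₂ := q • 𝟙 _
  hom₃ := q • 𝟙 _
  comm₁ := by rw [zsmul_id_comp, comp_zsmul_id]
  comm₂ := by rw [zsmul_id_comp, comp_zsmul_id]
  comm₃ := by
    rw [zsmul_id_comp, Functor.map_zsmul, CategoryTheory.Functor.map_id, comp_zsmul_id]

theorem IsPLocal.ext₂ {Δ : Triangle T} (hΔ : Δ ∈ distTriang T) (h1 : IsPLocal p Δ.obj₁)
    (h3 : IsPLocal p Δ.obj₃) : IsPLocal p Δ.obj₂ := fun q hq =>
  isIso₂_of_isIso₁₃ (triMul Δ q) hΔ hΔ (h1 q hq) (h3 q hq)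

theorem IsPLocal.ext₃ {Δ : Triangle T} (hΔ : Δ ∈ distTriang T) (h1 : IsPLocal p Δ.obj₁)
    (h2 : IsPLocal p Δ.obj₂) : IsPLocal p Δ.obj₃ := fun q hq =>
  isIso₃_of_isIso₁₂ (triMul Δ q) hΔ hΔ (h1 q hq) (h2 q hq)

theorem IsPLocal.ext₁ {Δ : Triangle T} (hΔ : Δ ∈ distTriang T) (h2 : IsPLocal p Δ.obj₂)
    (h3 : IsPLocal p Δ.obj₃) : IsPLocal p Δ.obj₁ := fun q hq =>
  isIso₁_of_isIso₂₃ (triMul Δ q) hΔ hΔ (h2 q hq) (h3 q hq)

end tri

end Vale.Agent.P093.PLoc
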