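import Mathlib.GroupTheory.OrderOfElement
import Mathlib.Algebra.BigOperators.GroupWithZero.Action
import Vale.Agent.P093.N.PLoc

/-!
# P093, part N: `p`-localization in a stable homotopy category, the functor `Sp p ⊗ -`

* `Sp p`, `eta p`, `etaX p X : X ⟶ Sp p ⊗ X`;
* `isPLocal_Sp_tensor`;
* `exists_lift_of_isCpt`, `exists_zero_of_isCpt` : maps from compact objects;
* `bijective_etaX_comp` : the universal property;
* `PTors`, `pTors_iff_acyclic`, `isLocal_iff_isPLocal`.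
-/

open CategoryTheory MonoidalCategory Limits Pretriangulated Preadditive

set_option linter.unusedSectionVars false

universe v u

namespace Vale.Agent.P093.PLoc

open Vale.Agent.P251.T Vale.Agent.P251.S

section sp

variable {T : Type u} [Category.{v} T] [Preadditive T] [HasZeroObject T] [HasShift T ℤ]
  [∀ n : ℤ, (shiftFunctor T n).Additive] [Pretriangulated T]
  [MonoidalCategory T] [SymmetricCategory T] [TensorTriangulated T] [MonoidalClosed T]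
  [HasCoproducts.{0} T]

theorem whiskerLeft_zsmul (A : T) {X Y : T} (m : ℤ) (f : X ⟶ Y) :
    A ◁ (m • f) = m • A ◁ f := (tensorLeft A).map_zsmul (f := f) (r := m)

theorem whiskerRight_zsmul {X Y : T} (m : ℤ) (f : X ⟶ Y) (A : T) :
    (m • f) ▷ A = m • f ▷ A := (tensorRight A).map_zsmul (f := f) (r := m)

variable (T) in
/-- the telescope which defines `Sp p` -/
noncomputable def spTel (p : ℕ) : Tel (X := fun _ => 𝟙_ T) (fun n => (qs p n : ℤ) • 𝟙 (𝟙_ T)) :=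
  tel _

variable (T) in
/-- the `p`-local sphere -/
noncomputable def Sp (p : ℕ) : T := (spTel T p).obj

variable (T) in
/-- the unit -/
noncomputable def eta (p : ℕ) : 𝟙_ T ⟶ Sp T p := (spTel T p).ι 0

/-- the `p`-localization map -/
noncomputable def etaX (p : ℕ) (X : T) : X ⟶ Sp T p ⊗ X := (λ_ X).inv ≫ eta T p ▷ X

@[reassoc]
theorem etaX_naturality (p : ℕ) {X Y : T} (f : X ⟶ Y) :
    f ≫ etaX p Y = etaX p X ≫ Sp T p ◁ f := by
  unfold etaX
  rw [Category.assoc, ← whisker_exchange, leftUnitor_inv_naturality_assoc]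

/-- `Sp p ⊗ X` as the telescope of the multiplications on `X` -/
noncomputable def telX (p : ℕ) (X : T) :
    Tel (X := fun _ => X) (fun n => (qs p n : ℤ) • 𝟙 X) :=
  ((spTel T p).tensR X).congr (fun _ => (λ_ X).symm) (fun n => by
    change (λ_ X).inv ≫ ((qs p n : ℤ) • 𝟙 (𝟙_ T)) ▷ X = ((qs p n : ℤ) • 𝟙 X) ≫ (λ_ X).inv
    rw [whiskerRight_zsmul, id_whiskerRight, comp_zsmul_id, zsmul_id_comp])

/-- the maps to the telescope -/
noncomputable def etaN (p : ℕ) (X : T) (n : ℕ) : X ⟶ Sp T p ⊗ X := (telX p X).ι n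

theorem etaN_zero (p : ℕ) (X : T) : etaN p X 0 = etaX p X := rfl

theorem qp_etaN (p : ℕ) (X : T) (n k : ℕ) :
    (qp p n k : ℤ) • etaN p X (n + k) = etaN p X n := by
  rw [← zsmul_id_comp, ← trT_qs]
  exact (telX p X).trT_ι n k

theorem qp_zero_etaN (p : ℕ) (X : T) (n : ℕ) : (qp p 0 n : ℤ) • etaN p X n = etaX p X := by
  have h1 := qp_etaN p X 0 n
  rwa [zero_add, etaN_zero] at h1

theorem exists_etaN {p : ℕ} {W X : T} (hW : IsCpt W) (f : W ⟶ Sp T p ⊗ X) :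
    ∃ (n : ℕ) (g : W ⟶ X), g ≫ etaN p X n = f := (telX p X).exists_factor hW f

theorem exists_zero_etaN {p : ℕ} {W X : T} (hW : IsCpt W) {n : ℕ} (g : W ⟶ X)
    (hg : g ≫ etaN p X n = 0) : ∃ k, (qp p n k : ℤ) • g = 0 := by
  obtain ⟨k, hk⟩ := (telX p X).exists_eq_zero hW g hg
  refine ⟨k, ?_⟩
  rw [trT_qs, comp_zsmul_id] at hk
  exact hk

theorem exists_etaN_desc {p : ℕ} {X Z : T} (x : ℕ → (X ⟶ Z))
    (hx : ∀ n, (qs p n : ℤ) • x (n + 1) = x n) :
    ∃ l : Sp T p ⊗ X ⟶ Z, ∀ n, etaN p X n ≫ l = x n :=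
  (telX p X).exists_desc x fun n => by
    change ((qs p n : ℤ) • 𝟙 X) ≫ x (n + 1) = x n
    rw [zsmul_id_comp, hx]

theorem etaN_hom_ext {p : ℕ} {X Z : T}
    (h1 : CLim1 (X := fun _ => X) (fun n => (qs p n : ℤ) • 𝟙 X) (Z⟦(-1 : ℤ)⟧))
    {f g : Sp T p ⊗ X ⟶ Z} (h : ∀ n, etaN p X n ≫ f = etaN p X n ≫ g) : f = g :=
  (telX p X).hom_ext h1 f g h

/-- a telescope of objects on which `m ^ 2 = 0` -/
theorem isZero_Sp_tensor {p m : ℕ} (hm : m.Coprime p) (hm0 : m ≠ 0) {X : T}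
    (h : ((m * m : ℕ) : ℤ) • 𝟙 X = 0) : IsZero (Sp T p ⊗ X) := by
  refine (telX p X).isZero_of_proZero fun n => ?_
  obtain ⟨k, c, hc⟩ := exists_sq_dvd_qp hm hm0 n
  refine ⟨k, ?_⟩
  rw [trT_qs, hc, mul_comm, Nat.cast_mul, mul_smul, h, smul_zero]

end sp

section sq

variable {T : Type u} [Category.{v} T] [Preadditive T] [HasZeroObject T] [HasShift T ℤ]
  [∀ n : ℤ, (shiftFunctor T n).Additive] [Pretriangulated T]

/-- `m² = 0` on the cone of `m` -/
theorem sq_zero {X M : T} {i : X ⟶ M} {δ : M ⟶ X⟦(1 : ℤ)⟧} {m : ℤ}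
    (hM : Triangle.mk (m • 𝟙 X) i δ ∈ distTriang T) : (m * m) • 𝟙 M = 0 := by
  have h1 : (m • 𝟙 X) ≫ i = 0 := comp_distTriang_mor_zero₁₂ _ hM
  rw [zsmul_id_comp] at h1
  have h2 : i ≫ (m • 𝟙 M) = 0 := by rw [comp_zsmul_id, h1]
  obtain ⟨b, hb⟩ : ∃ b : X⟦(1 : ℤ)⟧ ⟶ M, m • 𝟙 M = δ ≫ b :=
    Triangle.yoneda_exact₃ _ hM (m • 𝟙 M) h2
  have h3 : δ ≫ (m • 𝟙 X)⟦(1 : ℤ)⟧' = 0 := comp_distTriang_mor_zero₃₁ _ hM
  rw [Functor.map_zsmul, CategoryTheory.Functor.map_id, comp_zsmul_id] at h3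
  rw [mul_smul, hb, ← zsmul_comp, h3, zero_comp]

end sq

section sp2

variable {T : Type u} [Category.{v} T] [Preadditive T] [HasZeroObject T] [HasShift T ℤ]
  [∀ n : ℤ, (shiftFunctor T n).Additive] [Pretriangulated T]
  [MonoidalCategory T] [SymmetricCategory T] [TensorTriangulated T] [MonoidalClosed T]
  [HasCoproducts.{0} T] {p : ℕ}

theorem IsPLocal.tensor_left {X : T} (h : IsPLocal p X) (Y : T) : IsPLocal p (Y ⊗ X) :=
  h.map (tensorLeft Y)

theorem IsPLocal.tensor_right {X : T} (h : IsPLocal p X) (Y : T) : IsPLocal p (X ⊗ Y) :=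
  h.map (tensorRight Y)

theorem isPLocal_Sp (hp : p ≠ 1) : IsPLocal p (Sp T p) := by
  intro m hm
  have hm0 : m ≠ 0 := by
    rintro rfl
    rw [Nat.coprime_zero_left] at hm
    exact hp hm
  obtain ⟨M, i, δ, hM⟩ := distinguished_cocone_triangle ((m : ℤ) • 𝟙 (𝟙_ T))
  have h1 : IsZero (Sp T p ⊗ M) := by
    refine isZero_Sp_tensor hm hm0 ?_
    rw [Nat.cast_mul]
    exact sq_zero hM
  have h2 := dist_whiskerLeft (Sp T p) hM
  have h3 : IsIso (Sp T p ◁ ((m : ℤ) • 𝟙 (𝟙_ T))) :=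
    (Triangle.isZero₃_iff_isIso₁ _ h2).1 h1
  rw [whiskerLeft_zsmul, MonoidalCategory.whiskerLeft_id] at h3
  have h4 : (m : ℤ) • 𝟙 (Sp T p) = (ρ_ (Sp T p)).inv ≫ ((m : ℤ) • 𝟙 (Sp T p ⊗ 𝟙_ T)) ≫
      (ρ_ (Sp T p)).hom := by
    rw [zsmul_id_comp, comp_zsmul, Iso.inv_hom_id]
  rw [h4]
  infer_instance

theorem isPLocal_Sp_tensor (hp : p ≠ 1) (X : T) : IsPLocal p (Sp T p ⊗ X) :=
  (isPLocal_Sp hp).tensor_right X

/-- A map from a compact object to the localization, up to an integer prime to `p`. -/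
theorem exists_lift_of_isCpt {W X : T} (hW : IsCpt W) (f : W ⟶ Sp T p ⊗ X) :
    ∃ (q : ℕ) (g : W ⟶ X), q.Coprime p ∧ g ≫ etaX p X = (q : ℤ) • f := by
  obtain ⟨n, g, hg⟩ := exists_etaN hW f
  exact ⟨qp p 0 n, g, qp_coprime _ _ _, by rw [← qp_zero_etaN p X n, comp_zsmul, hg]⟩

/-- A map from a compact object which becomes zero in the localization. -/
theorem exists_zero_of_isCpt {W X : T} (hW : IsCpt W) (g : W ⟶ X) (hg : g ≫ etaX p X = 0) :
    ∃ q : ℕ, q.Coprime p ∧ (q : ℤ) • g = 0 := by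
  rw [← etaN_zero] at hg
  obtain ⟨k, hk⟩ := exists_zero_etaN hW g hg
  exact ⟨qp p 0 k, qp_coprime _ _ _, hk⟩

/-- The universal property of the localization: uniqueness. -/
theorem IsPLocal.hom_ext {X Y : T} (hY : IsPLocal p Y) {f g : Sp T p ⊗ X ⟶ Y}
    (h : etaX p X ≫ f = etaX p X ≫ g) : f = g := by
  have hlim : CLim1 (X := fun _ => X) (fun n => (qs p n : ℤ) • 𝟙 X) (Y⟦(-1 : ℤ)⟧) := by
    refine lim1_of_surjective (A := fun _ => (X ⟶ Y⟦(-1 : ℤ)⟧)) ?_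
    intro n y
    obtain ⟨z, hz⟩ := (hY.shift (-1)).exists_div (q := (qs p n : ℤ)) (qs_coprime p n) y
    exact ⟨z, by rw [coTower_apply, zsmul_id_comp, hz]⟩
  refine etaN_hom_ext hlim fun n => ?_
  rw [← sub_eq_zero, ← comp_sub]
  refine hY.eq_zero (q := (qp p 0 n : ℤ)) (qp_coprime _ _ _) ?_
  rw [← zsmul_comp, qp_zero_etaN, comp_sub, sub_eq_zero]
  exact h

/-- The universal property of the localization: existence. -/
theorem IsPLocal.exists_desc {X Y : T} (hY : IsPLocal p Y) (f : X ⟶ Y) :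
    ∃ g : Sp T p ⊗ X ⟶ Y, etaX p X ≫ g = f := by
  have h : ∀ n : ℕ, ∃ x : X ⟶ Y, (qp p 0 n : ℤ) • x = f := fun n =>
    hY.exists_div (q := (qp p 0 n : ℤ)) (qp_coprime _ _ _) f
  choose x hx using h
  obtain ⟨l, hl⟩ := exists_etaN_desc x (by
    intro n
    rw [← sub_eq_zero]
    refine hY.eq_zero (q := (qp p 0 n : ℤ)) (qp_coprime _ _ _) ?_
    rw [smul_sub, hx, smul_smul]
    have h2 := hx (n + 1)
    rw [qp_succ, zero_add] at h2
    push_cast at h2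
    rw [h2, sub_self])
  refine ⟨l, ?_⟩
  have h3 := hl 0
  rw [etaN_zero] at h3
  rw [h3]
  have h4 := hx 0
  rw [qp_zero, Nat.cast_one, one_smul] at h4
  exact h4

theorem IsPLocal.bijective' {X Y : T} (hY : IsPLocal p Y) :
    Function.Bijective (fun g : Sp T p ⊗ X ⟶ Y => etaX p X ≫ g) :=
  ⟨fun _ _ h => hY.hom_ext h, hY.exists_desc⟩

/-- the extension to the localization -/
noncomputable def IsPLocal.desc {X Y : T} (hY : IsPLocal p Y) (f : X ⟶ Y) : Sp T p ⊗ X ⟶ Y :=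
  (hY.exists_desc f).choose

@[reassoc (attr := simp)]
theorem IsPLocal.etaX_desc {X Y : T} (hY : IsPLocal p Y) (f : X ⟶ Y) :
    etaX p X ≫ hY.desc f = f := (hY.exists_desc f).choose_spec

theorem IsPLocal.isIso_etaX (hp : p ≠ 1) {X : T} (hX : IsPLocal p X) : IsIso (etaX p X) := by
  refine ⟨hX.desc (𝟙 X), hX.etaX_desc _, ?_⟩
  refine (isPLocal_Sp_tensor hp X).hom_ext ?_
  rw [hX.etaX_desc_assoc, Category.id_comp, Category.comp_id]

theorem isPLocal_iff_isIso_etaX (hp : p ≠ 1) {X : T} : IsPLocal p X ↔ IsIso (etaX p X) :=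
  ⟨fun h => h.isIso_etaX hp, fun _ => (isPLocal_Sp_tensor hp X).of_iso (asIso (etaX p X)).symm⟩

/-! ### Torsion prime to `p` -/

/-- Maps from compact objects to `Z` are torsion of order prime to `p`. -/
def PTors (p : ℕ) (Z : T) : Prop :=
  ∀ ⦃W : T⦄, IsCpt W → ∀ f : W ⟶ Z, ∃ q : ℕ, q.Coprime p ∧ (q : ℤ) • f = 0

/-- The cone of the localization map. -/
theorem pTors_of_dist {X C : T} {g : Sp T p ⊗ X ⟶ C} {δ : C ⟶ X⟦(1 : ℤ)⟧}
    (h : Triangle.mk (etaX p X) g δ ∈ distTriang T) : PTors p C := by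
  intro W hW f
  have h1 : δ ≫ (etaX p X)⟦(1 : ℤ)⟧' = 0 := comp_distTriang_mor_zero₃₁ _ h
  -- `f ≫ δ` is torsion
  obtain ⟨a, ha, ha'⟩ : ∃ a : ℕ, a.Coprime p ∧ (a : ℤ) • (f ≫ δ) = 0 := by
    let e : (X⟦(1 : ℤ)⟧)⟦(-1 : ℤ)⟧ ≅ X := (shiftFunctorCompIsoId T (1 : ℤ) (-1) (by simp)).app X
    have h2 : ((f ≫ δ)⟦(-1 : ℤ)⟧' ≫ e.hom) ≫ etaX p X = 0 := by
      have h3 : e.hom ≫ etaX p X = ((etaX p X)⟦(1 : ℤ)⟧')⟦(-1 : ℤ)⟧' ≫
          ((shiftFunctorCompIsoId T (1 : ℤ) (-1) (by simp)).app (Sp T p ⊗ X)).hom := by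
        exact ((shiftFunctorCompIsoId T (1 : ℤ) (-1) (by simp)).hom.naturality (etaX p X)).symm
      rw [Category.assoc, h3, ← Category.assoc, ← Functor.map_comp, Category.assoc, h1, comp_zero,
        Functor.map_zero, zero_comp]
    obtain ⟨a, ha, ha'⟩ := exists_zero_of_isCpt (hW.shift (-1)) _ h2
    refine ⟨a, ha, ?_⟩
    rw [← zsmul_comp, ← cancel_mono e.inv, Category.assoc, Iso.hom_inv_id, Category.comp_id,
      zero_comp, ← Functor.map_zsmul] at ha'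
    exact (shiftFunctor T (-1 : ℤ)).map_injective (by rw [ha', Functor.map_zero])
  rw [← zsmul_comp] at ha'
  obtain ⟨b, hb⟩ : ∃ b : W ⟶ Sp T p ⊗ X, (a : ℤ) • f = b ≫ g :=
    Triangle.coyoneda_exact₃ _ h _ ha'
  obtain ⟨q, c, hq, hc⟩ := exists_lift_of_isCpt hW b
  refine ⟨q * a, Nat.Coprime.mul_left hq ha, ?_⟩
  have h4 : etaX p X ≫ g = 0 := comp_distTriang_mor_zero₁₂ _ h
  rw [Nat.cast_mul, mul_smul, hb, ← zsmul_comp, ← hc, Category.assoc, h4, comp_zero]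

end sp2

section gen

variable {T : Type u} [Category.{v} T] [Preadditive T] [HasZeroObject T] [HasShift T ℤ]
  [∀ n : ℤ, (shiftFunctor T n).Additive] [Pretriangulated T] [IsTriangulated T]
  [MonoidalCategory T] [SymmetricCategory T] [TensorTriangulated T] [MonoidalClosed T]
  [HasCoproducts.{0} T] [HasProducts.{0} T] [StableCat T] {p : ℕ}

theorem isCpt_sph (n : ℤ) : IsCpt ((𝟙_ T)⟦n⟧) := by
  intro I X f
  obtain ⟨s, g, hg⟩ := StableCat.compact n X f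
  obtain ⟨g', hg'⟩ := exists_sum_of_factor s g
  exact ⟨s, g', by rw [← hg, hg']⟩

theorem isCpt_unit : IsCpt (𝟙_ T) :=
  (isCpt_sph 0).of_iso ((shiftFunctorZero T ℤ).app _)

/-- a `p`-local object without homotopy up to torsion prime to `p` is zero -/
theorem PTors.isZero {Z : T} (h : PTors p Z) (h' : IsPLocal p Z) : IsZero Z := by
  refine StableCat.generator Z fun n f => ?_
  obtain ⟨q, hq, hqf⟩ := h (isCpt_sph n) f
  exact h'.eq_zero (q := (q : ℤ)) hq hqf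

theorem pTors_iff_acyclic (hp : p ≠ 1) {Z : T} : PTors p Z ↔ Acyclic (Sp T p) Z := by
  constructor
  · intro h
    refine StableCat.generator _ fun n f => ?_
    obtain ⟨q, g, hq, hg⟩ := exists_lift_of_isCpt (isCpt_sph n) f
    obtain ⟨a, ha, hag⟩ := h (isCpt_sph n) g
    refine (isPLocal_Sp_tensor hp Z).eq_zero (q := ((a * q : ℕ) : ℤ)) (Nat.Coprime.mul_left ha hq) ?_
    rw [Nat.cast_mul, mul_smul, ← hg, ← zsmul_comp, hag, zero_comp]
  · intro h W hW f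
    exact exists_zero_of_isCpt hW f (IsZero.eq_of_tgt h _ _)

theorem isIso_whiskerLeft_etaX (hp : p ≠ 1) (X : T) : IsIso (Sp T p ◁ etaX p X) := by
  obtain ⟨C, g, δ, h⟩ := distinguished_cocone_triangle (etaX p X)
  have h1 : IsZero (Sp T p ⊗ C) := (pTors_iff_acyclic hp).1 (pTors_of_dist h)
  exact (Triangle.isZero₃_iff_isIso₁ _ (dist_whiskerLeft (Sp T p) h)).1 h1

theorem isPLocal_iff_isLocal (hp : p ≠ 1) {Y : T} : IsPLocal p Y ↔ IsLocal (Sp T p) Y := by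
  constructor
  · intro h W hW f
    obtain ⟨g, hg⟩ := h.exists_desc f
    rw [← hg, IsZero.eq_of_src hW g 0, comp_zero]
  · intro h
    have h1 : ∀ {W : T}, IsPLocal p W → IsLocal (Sp T p) W := by
      intro W h W' hW' f
      obtain ⟨g, hg⟩ := h.exists_desc f
      rw [← hg, IsZero.eq_of_src hW' g 0, comp_zero]
    have h2 := isIso_whiskerLeft_etaX hp Y
    have h3 : IsIso (etaX p Y) := isIso_of_isLocal h (h1 (isPLocal_Sp_tensor hp Y)) _ h2
    exact (isPLocal_iff_isIso_etaX hp).2 h3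

/-- the Bousfield localization at `Sp p` -/
noncomputable def bLoc (hp : p ≠ 1) (X : T) : BLoc (Sp T p) X where
  obj := Sp T p ⊗ X
  toLoc := etaX p X
  isIso := isIso_whiskerLeft_etaX hp X
  isLocal := (isPLocal_iff_isLocal hp).1 (isPLocal_Sp_tensor hp X)

/-! closure properties of `PTors` -/

theorem PTors.of_iso {X Y : T} (h : PTors p X) (e : X ≅ Y) : PTors p Y := by
  intro W hW f
  obtain ⟨q, hq, hf⟩ := h hW (f ≫ e.inv)
  exact ⟨q, hq, by rw [← zsmul_comp, ← cancel_mono e.hom, Category.assoc, Iso.inv_hom_id,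
    Category.comp_id, zero_comp] at hf; exact hf⟩

theorem PTors.retract {X Y : T} (h : PTors p X) (a : Y ⟶ X) (b : X ⟶ Y) (hab : a ≫ b = 𝟙 Y) :
    PTors p Y := by
  intro W hW f
  obtain ⟨q, hq, hf⟩ := h hW (f ≫ a)
  refine ⟨q, hq, ?_⟩
  rw [← Category.comp_id ((q : ℤ) • f), ← hab, ← Category.assoc, zsmul_comp, hf, zero_comp]

theorem PTors.ext₂ {Δ : Triangle T} (hΔ : Δ ∈ distTriang T) (h1 : PTors p Δ.obj₁)
    (h3 : PTors p Δ.obj₃) : PTors p Δ.obj₂ := by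
  intro W hW f
  obtain ⟨a, ha, haf⟩ := h3 hW (f ≫ Δ.mor₂)
  rw [← zsmul_comp] at haf
  obtain ⟨g, hg⟩ := Triangle.coyoneda_exact₂ _ hΔ _ haf
  obtain ⟨b, hb, hbg⟩ := h1 hW g
  refine ⟨b * a, Nat.Coprime.mul_left hb ha, ?_⟩
  rw [Nat.cast_mul, mul_smul, hg, ← zsmul_comp, hbg, zero_comp]

theorem PTors.shift {X : T} (h : PTors p X) (n : ℤ) : PTors p (X⟦n⟧) := by
  intro W hW f
  let e : (X⟦n⟧)⟦-n⟧ ≅ X := (shiftFunctorCompIsoId T n (-n) (by simp)).app X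
  obtain ⟨q, hq, hf⟩ := h (hW.shift (-n)) (f⟦-n⟧' ≫ e.hom)
  refine ⟨q, hq, ?_⟩
  rw [← zsmul_comp, ← cancel_mono e.inv, Category.assoc, Iso.hom_inv_id, Category.comp_id,
      zero_comp, ← Functor.map_zsmul] at hf
  exact (shiftFunctor T (-n)).map_injective (by rw [hf, Functor.map_zero])

theorem PTors.ext₃ {Δ : Triangle T} (hΔ : Δ ∈ distTriang T) (h1 : PTors p Δ.obj₁)
    (h2 : PTors p Δ.obj₂) : PTors p Δ.obj₃ :=
  PTors.ext₂ (rot_of_distTriang _ hΔ) h2 (h1.shift 1)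

theorem PTors.ext₁ {Δ : Triangle T} (hΔ : Δ ∈ distTriang T) (h2 : PTors p Δ.obj₂)
    (h3 : PTors p Δ.obj₃) : PTors p Δ.obj₁ :=
  PTors.ext₂ (inv_rot_of_distTriang _ hΔ) (h3.shift (-1)) h2

theorem pTors_of_isZero {X : T} (h : IsZero X) : PTors p X := fun _ _ f =>
  ⟨1, Nat.coprime_one_left p, by rw [Nat.cast_one, one_smul]; exact h.eq_of_tgt _ _⟩

theorem PTors.tensor_left (hp : p ≠ 1) {X : T} (h : PTors p X) (Y : T) : PTors p (Y ⊗ X) :=
  (pTors_iff_acyclic hp).2 (((pTors_iff_acyclic hp).1 h).tensor_left Y)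

theorem PTors.tensor_right (hp : p ≠ 1) {X : T} (h : PTors p X) (Y : T) : PTors p (X ⊗ Y) :=
  (pTors_iff_acyclic hp).2 (((pTors_iff_acyclic hp).1 h).tensor_right Y)

theorem PTors.coprod {I : Type} {X : I → T} (h : ∀ i, PTors p (X i)) : PTors p (∐ X) := by
  classical
  intro W hW f
  obtain ⟨s, g, rfl⟩ := hW X f
  choose q hq hqg using fun i => h i hW (g i)
  refine ⟨∏ i ∈ s, q i, Nat.Coprime.prod_left fun i _ => hq i, ?_⟩
  rw [Finset.smul_sum]
  refine Finset.sum_eq_zero fun i hi => ?_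
  obtain ⟨c, hc⟩ := Finset.dvd_prod_of_mem q hi
  rw [hc, mul_comm, Nat.cast_mul, mul_smul, ← zsmul_comp, hqg, zero_comp, smul_zero]

/-- the cone of a map of `p`-local objects is `p`-local; a map is a `p`-localization iff its target
is `p`-local and its cone is torsion prime to `p`. -/
theorem isIso_desc_of_pTors (hp : p ≠ 1) {X L C : T} {f : X ⟶ L} {g : L ⟶ C} {δ : C ⟶ X⟦(1 : ℤ)⟧}
    (h : Triangle.mk f g δ ∈ distTriang T) (hL : IsPLocal p L) (hC : PTors p C) :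
    IsIso (hL.desc f) := by
  have h1 : IsIso (Sp T p ◁ f) :=
    (Triangle.isZero₃_iff_isIso₁ _ (dist_whiskerLeft (Sp T p) h)).1 ((pTors_iff_acyclic hp).1 hC)
  have h2 : IsIso (Sp T p ◁ etaX p X) := isIso_whiskerLeft_etaX hp X
  have h3 : Sp T p ◁ etaX p X ≫ Sp T p ◁ hL.desc f = Sp T p ◁ f := by
    rw [← MonoidalCategory.whiskerLeft_comp, hL.etaX_desc]
  have h4 : IsIso (Sp T p ◁ hL.desc f) := by
    rw [← h3] at h1
    exact IsIso.of_isIso_comp_left (Sp T p ◁ etaX p X) _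
  exact isIso_of_isLocal ((isPLocal_iff_isLocal hp).1 (isPLocal_Sp_tensor hp X))
    ((isPLocal_iff_isLocal hp).1 hL) _ h4

/-- **Local to global.** A map from a compact object which is zero in all `p`-localizations. -/
theorem eq_zero_of_forall_prime {W X : T} (hW : IsCpt W) (f : W ⟶ X)
    (h : ∀ p : ℕ, p.Prime → f ≫ etaX p X = 0) : f = 0 := by
  by_contra hf
  have h1 : addOrderOf f ≠ 1 := by rwa [Ne, AddMonoid.addOrderOf_eq_one_iff]
  obtain ⟨p, hp, hpf⟩ := Nat.exists_prime_and_dvd h1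
  obtain ⟨q, hq, hqf⟩ := exists_zero_of_isCpt hW f (h p hp)
  rw [natCast_zsmul] at hqf
  have h2 : p ∣ q := hpf.trans (addOrderOf_dvd_of_nsmul_eq_zero hqf)
  exact (Nat.Prime.coprime_iff_not_dvd hp).1 hq.symm h2

end gen

end Vale.Agent.P093.PLoc
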