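import Vale.Agent.P093.N4.LRCore
import Vale.Agent.P093.N4.Loc
import Vale.Agent.P093.N.RealDefs
import Vale.Agent.P093.N.PLocRight
import Vale.Agent.P093.N2.Asm
import Vale.Agent.P251.M.EvenCell

/-!
# P093, part N: assembly of the vanishing lines for the sphere

Inputs (each one is the output of a block of part N):

* `VlIn U p b` (Steps 1 and 3): a nonzero retract `Y` of `V ⊗ S_(p)`, `V` a finite even complex,
  with a vanishing line of slope `b`;
* `RealIn F p` (REAL): such a `Y` is, up to an even shift, `S X ⊗ S_(p)` for a space `X` with `n > 0`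
  even cells;
* `EctIn F p` (Step 2): in a thick class which contains `S X`, `X` with Euler characteristic
  `m ≠ 0`, there is `S X'` with Euler characteristic prime to `p`;
* `DualIn F` (2E): `X` with Euler characteristic `m`: if `y ⊗ S X = 0` then `m y = 0`;
* `BigIn U b`: vanishing lines for the sphere at all large primes.

Output: `avl : AVL U DimLE b` for every slope `b`.
-/

open CategoryTheory MonoidalCategory Limits Pretriangulated

set_option linter.unusedSectionVars false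

universe v u

namespace Vale.Agent.P093.N.Fin

open Vale.Agent.P251.T Vale.Agent.P251.S Vale.Agent.P251.M Vale.Agent.P251.I
open Vale.Agent.P251.G Vale.Agent.P251.G.LC
open Vale.Agent.P093.N.TT Vale.Agent.P093.N.TT.UTri Vale.Agent.P093.N.LR
open Vale.Agent.P093.N2 Vale.Agent.P093.N.Real
open Vale.Agent.P093.PLoc (Sp eta etaR)

variable {T : Type u} [Category.{v} T] [Preadditive T] [HasZeroObject T]
    [HasShift T ℤ] [∀ n : ℤ, (shiftFunctor T n).Additive] [Pretriangulated T] [IsTriangulated T]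
    [MonoidalCategory T] [SymmetricCategory T] [TensorTriangulated T] [MonoidalClosed T]
    [HasCoproducts.{0} T] [HasProducts.{0} T] [StableCat T]

/-! ### The inputs -/

/-- output of Steps 1 and 3 -/
def VlIn (U : UTri T) (p : ℕ) (b : ℤ) : Prop :=
  ∃ (d : ℤ) (V Y : T) (i : Y ⟶ V ⊗ Sp T p) (r : V ⊗ Sp T p ⟶ Y),
    EvenCell T d V ∧ i ≫ r = 𝟙 Y ∧ ¬ IsZero Y ∧ U.VL DimLE b Y

/-- output of REAL -/
def RealIn (F : SpaceFunctor T) (p : ℕ) : Prop :=
  ∀ (d : ℤ) (V Y : T) (i : Y ⟶ V ⊗ Sp T p) (r : V ⊗ Sp T p ⟶ Y),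
    EvenCell T d V → i ≫ r = 𝟙 Y → ¬ IsZero Y →
    ∃ (X : LC) (n : ℕ) (t : ℤ) (h : EvSp X n), 0 < n ∧
      Nonempty (F.S.obj ⟨X, h.fc⟩ ⊗ Sp T p ≅ Y⟦2 * t⟧)

/-- output of Step 2 -/
def EctIn (F : SpaceFunctor T) (p : ℕ) : Prop :=
  ∀ P : T → Prop, Cl P → ∀ (X : LC) (m : ℤ) (hX : HasChi X m), m ≠ 0 →
    P (F.S.obj ⟨X, hX.fc⟩) →
    ∃ (X' : LC) (m' : ℤ) (hX' : HasChi X' m'), ¬ (p : ℤ) ∣ m' ∧ P (F.S.obj ⟨X', hX'.fc⟩)

/-- output of 2E -/
def DualIn (F : SpaceFunctor T) : Prop :=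
  ∀ (X : LC) (m : ℤ) (hX : HasChi X m) (W Z : T) (y : W ⟶ Z),
    F.S.obj ⟨X, hX.fc⟩ ◁ y = 0 → m • y = 0

/-- vanishing lines at the large primes -/
def BigIn (U : UTri T) (b : ℤ) : Prop :=
  ∃ (p₀ r₀ : ℕ) (c₀ : ℤ), ∀ p : ℕ, p.Prime → p₀ ≤ p → U.VLrc DimLE b r₀ c₀ (Sp T p)

/-! ### Thick classes -/

theorem _root_.Vale.Agent.P093.N.TT.UTri.IsThickS.cl {S : Submonoid ℤ} {P : T → Prop}
    (h : IsThickS S P) : Cl P where
  zero := h.zero
  shift := h.shift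
  of_shift := h.of_shift
  ext := h.ext
  retract i p hip hX := h.retract i p 1 S.one_mem (by rw [hip, one_smul]) hX

theorem thickS_vls (U : UTri T) (S : Submonoid ℤ) {b : ℤ} (hb : 0 ≤ b) :
    IsThickS S (U.VLS S DimLE b) :=
  VLS.isThickS hb (fun _ _ h => h.shift 1) (fun _ _ h => by
    simpa [sub_eq_add_neg] using h.shift (-1))

/-! ### From `X ⊗ S_(p)` to `X` -/

theorem qm_etaR (U : UTri T) (p s : ℕ) (X : T) :
    U.Qm s (etaR p X) = etaR p (U.Q s X) ≫ (U.Qtensor s X (Sp T p)).hom := by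
  induction s with
  | zero =>
    change etaR p X = etaR p X ≫ 𝟙 _
    rw [Category.comp_id]
  | succ s ih =>
    change U.I ◁ U.Qm s (etaR p X) = etaR p (U.I ⊗ U.Q s X) ≫
      (α_ U.I (U.Q s X) (Sp T p)).hom ≫ U.I ◁ (U.Qtensor s X (Sp T p)).hom
    rw [ih, MonoidalCategory.whiskerLeft_comp, ← Category.assoc]
    congr 1
    unfold etaR
    simp

theorem vls_of_local {U : UTri T} {p : ℕ} {b : ℤ} {X : T}
    (h : U.VLS (cop p) DimLE b (X ⊗ Sp T p)) : U.VLS (cop p) DimLE b X := by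
  refine VLS.of_map (etaR p X) (fun s n W hW g hg => ?_) h
  obtain ⟨N, hN, h1⟩ := hg
  rw [qm_etaR, ← Category.assoc, ← Preadditive.zsmul_comp] at h1
  have h2 : (N • g) ≫ etaR p (U.Q s X) = 0 := by
    rw [Preadditive.zsmul_comp]
    have := congrArg (fun f => f ≫ (U.Qtensor s X (Sp T p)).inv) h1
    simpa using this
  obtain ⟨q, hq, h3⟩ := Vale.Agent.P093.PLoc.exists_zero_right
    (hW.isCpt Vale.Agent.P093.PLoc.isCpt_unit) _ h2
  refine Tors.of_zsmul hN ⟨(q : ℤ), ?_, h3⟩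
  exact mem_cop.2 (Int.isCoprime_iff_gcd_eq_one.2 (by simpa using hq))

/-! ### The vanishing line of the sphere at one prime -/

theorem dimLE_obj (F : SpaceFunctor T) {X : LC} (hX : FC X) :
    ∃ d : ℤ, DimLE d (F.S.obj ⟨X, hX⟩) := by
  have key : ∀ (X : LC) (_ : FC X) (h : FC X), ∃ d : ℤ, DimLE d (F.S.obj ⟨X, h⟩) := by
    intro X hX
    induction hX with
    | empty =>
      intro h
      exact ⟨0, DimLE.zero (F.isZero (inferInstanceAs (IsEmpty Empty)))⟩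
    | sph n =>
      intro h
      exact ⟨n, (DimLE.sphere (n : ℤ) le_rfl).of_iso (sphIso F n).symm⟩
    | @hequiv X Y hX e ih =>
      intro h
      obtain ⟨f, g, h1, h2⟩ := e
      have := F.isIso_map (FCat.hom f : (⟨X, hX⟩ : FCat) ⟶ ⟨Y, h⟩) ⟨g, h1, h2⟩
      obtain ⟨d, hd⟩ := ih hX
      exact ⟨d, hd.of_iso (asIso (F.S.map (FCat.hom f : (⟨X, hX⟩ : FCat) ⟶ ⟨Y, h⟩)))⟩
    | @ext A B i hi hA hC ihA ihC =>
      intro h
      obtain ⟨d, hd⟩ := ihA hA
      obtain ⟨d', hd'⟩ := ihC hC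
      exact ⟨max d d', DimLE.ext _
        (F.cof_distinguished (FCat.hom i : (⟨A, hA⟩ : FCat) ⟶ ⟨B, h⟩) hi)
        (hd.mono (le_max_left _ _)) (hd'.mono (le_max_right _ _))⟩
  exact key X hX hX

/-- **The vanishing line of the sphere** at the prime `p`. -/
theorem vls_one {F : SpaceFunctor T} {U : UTri T} {p : ℕ} (hp : p.Prime) {b : ℤ} (hb : 0 ≤ b)
    (hV : VlIn U p b) (hR : RealIn F p) (hE : EctIn F p) (hD : DualIn F) :
    U.VLS (cop p) DimLE b (𝟙_ T) := by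
  obtain ⟨d, V, Y, i, r, hVc, hir, hY0, hY⟩ := hV
  obtain ⟨X, n, t, hX, hn, ⟨e⟩⟩ := hR d V Y i r hVc hir hY0
  have hC := (thickS_vls U (cop p) hb).cl
  have h1 : U.VLS (cop p) DimLE b (F.S.obj ⟨X, hX.fc⟩) :=
    vls_of_local (hC.of_iso e.symm (hC.shift_int hY.vls _))
  obtain ⟨X', m', hX', hm', h2⟩ := hE _ hC X n hX.hasChi (by exact_mod_cast hn.ne') h1
  obtain ⟨d', hd'⟩ := dimLE_obj F hX'.fc
  refine VLS.one_of_tensor (K := F.S.obj ⟨X', hX'.fc⟩) (d := d')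
    (fun n W hW => hW.tensor hd' _ rfl) (fun W Z y hy => ⟨m', mem_cop_of_not_dvd hp hm', ?_⟩) h2
  refine hD X' m' hX' W Z y ?_
  rw [← cancel_epi (β_ W (F.S.obj ⟨X', hX'.fc⟩)).hom, comp_zero,
    ← BraidedCategory.braiding_naturality_left, hy, zero_comp]

theorem tors_of_eta {p : ℕ} {K : T} {d : ℤ} (hK : DimLE d K) (g : K ⟶ 𝟙_ T)
    (hg : g ≫ eta T p = 0) : Tors (cop p) g := by
  obtain ⟨q, hq, h⟩ := Vale.Agent.P093.PLoc.exists_zero_of_isCpt (p := p)
    (hK.isCpt Vale.Agent.P093.PLoc.isCpt_unit) g (by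
      unfold Vale.Agent.P093.PLoc.etaX
      rw [unitors_inv_equal, ← rightUnitor_inv_naturality, ← Category.assoc, hg, zero_comp])
  exact ⟨(q : ℤ), mem_cop.2 (Int.isCoprime_iff_gcd_eq_one.2 (by simpa using hq)), h⟩

/-- **The vanishing lines of the sphere.** -/
theorem avl {F : SpaceFunctor T} {U : UTri T} {b : ℤ} (hb : 0 ≤ b)
    (hV : ∀ p : ℕ, p.Prime → VlIn U p b) (hR : ∀ p : ℕ, p.Prime → RealIn F p)
    (hE : ∀ p : ℕ, p.Prime → EctIn F p) (hD : DualIn F) (hB : BigIn U b) :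
    AVL U DimLE b := by
  obtain ⟨p₀, r₀, c₀, h⟩ := hB
  exact AVL.of_loc p₀ r₀ c₀ (fun p hp _ => vls_one hp hb (hV p hp) (hR p hp) (hE p hp) hD)
    (fun p => eta T p) (fun p _ n K hK g hg => tors_of_eta hK g hg) h

end Vale.Agent.P093.N.Fin
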