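import Vale.Agent.P093.N4.LRCore
import Mathlib.CategoryTheory.Monoidal.Mon
import Mathlib.CategoryTheory.Monoidal.Closed.Basic
import Mathlib.CategoryTheory.Limits.Preserves.Shapes.Products

/-!
# P093, part N: complements to the vanishing line calculus

* `UTri.ofMon R` : the triangle of a monoid object `R`
* `null_of_mono` : `t` is null if `t ≫ q = 0` and `E ◁ q` is mono
* `Inj.coprod` : coproducts of injectives
* `VLrc` : vanishing lines with explicit constants, `VLrc.of_towers`, `VLrc.comp_eq_zero`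
* `AVL.of_loc` : absolute vanishing lines from vanishing lines at all primes and uniform vanishing
  lines of the local spheres at the large primes.
-/

open CategoryTheory MonoidalCategory Limits Pretriangulated

set_option linter.unusedSectionVars false

universe v u

namespace Vale.Agent.P093.N.TT

open Vale.Agent.P251.T Vale.Agent.P251.S

variable {T : Type u} [Category.{v} T] [Preadditive T] [HasZeroObject T]
    [HasShift T ℤ] [∀ n : ℤ, (shiftFunctor T n).Additive] [Pretriangulated T]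
    [MonoidalCategory T] [SymmetricCategory T] [TensorTriangulated T]

namespace UTri

/-- The triangle of a monoid object. -/
noncomputable def ofMon (R : T) [MonObj R] : UTri T where
  E := R
  I := (distinguished_cocone_triangle₁ (MonObj.one : 𝟙_ T ⟶ R)).choose
  u := MonObj.one
  j := (distinguished_cocone_triangle₁ (MonObj.one : 𝟙_ T ⟶ R)).choose_spec.choose
  δ := (distinguished_cocone_triangle₁ (MonObj.one : 𝟙_ T ⟶ R)).choose_spec.choose_spec.choose
  dist := (distinguished_cocone_triangle₁ (MonObj.one : 𝟙_ T ⟶ R)).choose_spec.choose_spec.choose_spec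
  m := MonObj.mul
  unit_left := MonObj.one_mul R

@[simp] lemma ofMon_E (R : T) [MonObj R] : (ofMon R).E = R := rfl

variable {U : UTri T}

lemma null_iff_whiskerLeft {X Y : T} {f : X ⟶ Y} (h : U.E ◁ f = 0) : U.Null f := by
  unfold Null
  rw [η_natural, h, comp_zero]

lemma null_of_mono {X Y Z : T} {t : X ⟶ Y} {q : Y ⟶ Z} (h : t ≫ q = 0) [Mono (U.E ◁ q)] :
    U.Null t := by
  apply null_iff_whiskerLeft
  rw [← cancel_mono (U.E ◁ q), ← whiskerLeft_comp, h, MonoidalPreadditive.whiskerLeft_zero,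
    zero_comp]

lemma null_of_splitMono {X Y Z : T} {t : X ⟶ Y} {q : Y ⟶ Z} (h : t ≫ q = 0)
    (r : U.E ⊗ Z ⟶ U.E ⊗ Y) (hr : U.E ◁ q ≫ r = 𝟙 _) : U.Null t := by
  have : Mono (U.E ◁ q) := ⟨fun a b hab => by
    rw [← Category.comp_id a, ← Category.comp_id b, ← hr, ← Category.assoc, ← Category.assoc,
      hab]⟩
  exact null_of_mono h

/-- It suffices that `t` becomes zero after composition with a map `q` through which the unit
map of `Y` factors. -/
lemma null_of_factor {X Y Z : T} {t : X ⟶ Y} {q : Y ⟶ Z} (h : t ≫ q = 0) (r : Z ⟶ U.E ⊗ Y)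
    (hr : q ≫ r = U.η Y) : U.Null t := by
  unfold Null
  rw [← hr, ← Category.assoc, h, zero_comp]

/-- A homotopy module (no associativity needed) is injective. -/
lemma inj_of_act {M : T} (a : U.E ⊗ M ⟶ M) (h : (λ_ M).inv ≫ U.u ▷ M ≫ a = 𝟙 M) : U.Inj M :=
  ⟨a, by unfold η; rw [Category.assoc, h]⟩

lemma Inj.coprod [HasCoproducts.{0} T] [MonoidalClosed T] {J : Type} (M : J → T)
    (h : ∀ j, U.Inj (M j)) : U.Inj (∐ M) := by
  choose r hr using h
  refine ⟨(PreservesCoproduct.iso (MonoidalCategory.tensorLeft U.E) M).hom ≫ Limits.Sigma.map r, ?_⟩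
  refine Sigma.hom_ext _ _ fun j => ?_
  rw [Category.comp_id]
  have h1 : U.E ◁ Sigma.ι M j ≫ (PreservesCoproduct.iso (MonoidalCategory.tensorLeft U.E) M).hom =
      Sigma.ι (fun j => U.E ⊗ M j) j := by
    rw [← cancel_mono (PreservesCoproduct.iso (MonoidalCategory.tensorLeft U.E) M).inv, Category.assoc,
      Iso.hom_inv_id, Category.comp_id]
    exact (ι_comp_sigmaComparison (MonoidalCategory.tensorLeft U.E) M j).symm
  rw [← Category.assoc, η_natural, Category.assoc, ← Category.assoc (U.E ◁ Sigma.ι M j), h1,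
    Sigma.ι_map, ← Category.assoc, hr, Category.id_comp]

/-! ### explicit constants -/

/-- A vanishing line with explicit constants. -/
def VLrc (U : UTri T) (D : ℤ → T → Prop) (b : ℤ) (r : ℕ) (c : ℤ) (X : T) : Prop :=
  ∀ (s : ℕ) (n : ℤ) (W : T), D n W → n + c < b * s → ∀ g : W ⟶ U.Q s X, U.AF r g → g = 0

variable {D : ℤ → T → Prop} {b : ℤ}

lemma VLrc.vl {r : ℕ} {c : ℤ} {X : T} (h : U.VLrc D b r c X) : U.VL D b X := ⟨r, c, h⟩

lemma VLrc.mono {r r' : ℕ} {c c' b' : ℤ} (hr : r ≤ r') (hc : c ≤ c') (hb : b' ≤ b) {X : T}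
    (h : U.VLrc D b r c X) : U.VLrc D b' r' c' X := by
  intro s n W hW hn g hg
  refine h s n W hW ?_ g (hg.of_le hr)
  have : b' * (s : ℤ) ≤ b * s := mul_le_mul_of_nonneg_right hb (Int.natCast_nonneg s)
  linarith

lemma VLrc.retract {r : ℕ} {c : ℤ} {X Y : T} (hX : U.VLrc D b r c X) (i : Y ⟶ X) (p : X ⟶ Y)
    (hip : i ≫ p = 𝟙 Y) : U.VLrc D b r c Y := by
  intro s n W hW hn g hg
  have h1 : g ≫ U.Qm s i = 0 := hX s n W hW hn _ (hg.comp_right _)
  rw [← Category.comp_id g, ← Qm_id, ← hip, Qm_comp, ← Category.assoc, h1, zero_comp]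

/-- A vanishing line from towers of finite length, with explicit constants. -/
theorem VLrc.of_towers {X : T} (c : ℤ)
    (H : ∀ s : ℕ, ∃ (F M : ℕ → T) (t : ∀ s, F (s + 1) ⟶ F s) (q : ∀ s, F s ⟶ M s)
      (d : ∀ s, M s ⟶ (F (s + 1))⟦(1 : ℤ)⟧) (i : X ⟶ F 0) (r : F 0 ⟶ X),
      (∀ i ≤ s, Triangle.mk (t i) (q i) (d i) ∈ distTriang T) ∧
      (∀ i ≤ s, U.Null (t i)) ∧ (∀ i ≤ s, U.Inj (M i)) ∧ i ≫ r = 𝟙 X ∧
      ∀ (n : ℤ) (W : T), D n W → n + c < b * s → ∀ f : W ⟶ F (s + 1), f = 0) :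
    U.VLrc D b 1 c X := by
  intro s n W hW hn g hg
  obtain ⟨F, M, t, q, d, i, r, hd, ht, hM, hir, hF⟩ := H s
  have h1 : g ≫ U.Qm s i = 0 := by
    obtain ⟨g', hg'⟩ := (AF_one_iff.1 (hg.comp_right (U.Qm s i))).lift
    obtain ⟨x, y, hxy⟩ := tower_le F M t q d s hd ht hM
    rw [← hg', ← hxy, ← Category.assoc, hF n W hW hn (g' ≫ x), zero_comp]
  rw [← Category.comp_id g, ← Qm_id, ← hir, Qm_comp, ← Category.assoc, h1, zero_comp]

theorem VLrc.comp_eq_zero {r : ℕ} {c : ℤ} {X : T} (hX : U.VLrc D b r c X) (s : ℕ) (n : ℤ)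
    (K Y : T) (hK : D n K) (hn : n + c < b * s) (g : K ⟶ Y) (hg : U.AF (s + r) g)
    (ι : Y ⟶ X) : g ≫ ι = 0 := by
  obtain ⟨a, ha, hab⟩ := AF.lift_split (s := 0) (hg.comp_right ι)
  have h1 : a = 0 := hX (0 + s) n K hK (by simpa using hn) a ha
  rw [h1, zero_comp] at hab
  exact hab.symm

end UTri

end Vale.Agent.P093.N.TT

namespace Vale.Agent.P093.N.LR

open Vale.Agent.P251.T Vale.Agent.P251.S Vale.Agent.P093.N.TT

variable {T : Type u} [Category.{v} T] [Preadditive T] [HasZeroObject T]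
    [HasShift T ℤ] [∀ n : ℤ, (shiftFunctor T n).Additive] [Pretriangulated T]
    [MonoidalCategory T] [SymmetricCategory T] [TensorTriangulated T]

variable {U : UTri T} {D : ℤ → T → Prop}

/-- **Local to global**, with the local spheres `ι p : 𝟙 ⟶ Sp p` at the large primes. -/
theorem AVL.of_loc {b : ℤ} (p₀ r₀ : ℕ) (c₀ : ℤ)
    (h : ∀ p : ℕ, p.Prime → p < p₀ → U.VLS (cop p) D b (𝟙_ T)) {Sp : ℕ → T}
    (ι : ∀ p, 𝟙_ T ⟶ Sp p)
    (hι : ∀ p : ℕ, p.Prime → ∀ (n : ℤ) (K : T), D n K → ∀ g : K ⟶ 𝟙_ T, g ≫ ι p = 0 →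
      UTri.Tors (cop p) g)
    (hbig : ∀ p : ℕ, p.Prime → p₀ ≤ p → U.VLrc D b r₀ c₀ (Sp p)) : AVL U D b :=
  AVL.of p₀ r₀ c₀ h fun s n K hK hn g hg p hp hpp =>
    hι p hp n K hK g ((hbig p hp hpp).comp_eq_zero s n K _ hK hn g hg (ι p))

end Vale.Agent.P093.N.LR
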