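import Vale.Agent.P093.N.Nak1
import Vale.Agent.P251.M.GPush
import Vale.Agent.P251.X.CrossM
import Vale.Agent.P251.X.Push

/-!
# P093, block N:H, products: push forward and external products of `R`-bases

* `MP.cross_push` : the external product commutes with the change of rings;
* `RBasis.push` : change of rings;
* `RBasis.tensor` : the external products of the elements of two bases form a basis.
-/

open CategoryTheory MonoidalCategory MonObj Limits Pretriangulated

set_option linter.unusedSectionVars false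

universe v u

noncomputable section

namespace Vale.Agent.P093.N.HH

open Vale.Agent.P251.S Vale.Agent.P251.T Vale.Agent.P251.M Vale.Agent.P251.M.EvenSpheres
  Vale.Agent.P251.X Vale.Agent.P093.Nak

section cross

variable {T : Type u} [Category.{v} T] [MonoidalCategory T] [SymmetricCategory T]
  {E : EvenSpheres T} {P P' : T} [MonObj P] [MonObj P'] (f : P ⟶ P') [IsMonHom f]

theorem crossG_push {X Y : T} {m n q : ℤ} (h : m + n = q) (a : E.S m ⟶ P ⊗ X)
    (b : E.S n ⟶ P ⊗ Y) :
    crossG h (a ≫ f ▷ X) (b ≫ f ▷ Y) = crossG h a b ≫ f ▷ (X ⊗ Y) := by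
  unfold crossG
  rw [ext_comp, Category.assoc, Category.assoc, FM.ten_push]

variable [Preadditive T] [MonoidalPreadditive T]

/-- The external product commutes with the change of rings. -/
theorem cross_push {X Y : T} (x : MP E P X) (y : MP E P Y) :
    MP.push E f (X ⊗ Y) (MP.cross E P X Y x y) =
      MP.cross E P' X Y (MP.push E f X x) (MP.push E f Y y) := by
  induction x, y using MP.ind₂ with
  | zl y => simp only [map_zero, AddMonoidHom.zero_apply]
  | zr x => simp only [map_zero]
  | oo m a n b =>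
    rw [MP.cross_of (q := m + n) rfl, MP.push_of, MP.push_of, MP.push_of,
      MP.cross_of (q := m + n) rfl, crossG_push]
  | al x x' y h h' =>
    simp only [_root_.map_add, AddMonoidHom.add_apply, h, h']
  | ar x y y' h h' => simp only [_root_.map_add, h, h']

end cross

section basis

variable {T : Type u} [Category.{v} T] [Preadditive T] [HasZeroObject T]
    [HasShift T ℤ] [∀ n : ℤ, (shiftFunctor T n).Additive] [Pretriangulated T] [IsTriangulated T]
    [MonoidalCategory T] [SymmetricCategory T] [TensorTriangulated T] [MonoidalClosed T]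
    [HasCoproducts.{0} T] [HasProducts.{0} T] [StableCat T] {E : EvenSpheres T}

/-- the linear extension is the linear extension -/
theorem lin_eq_bind {R Y Z : T} [MonObj R] (g : Y ⟶ R ⊗ Z) :
    lin (ModStr.free R Z) g = FM.bind g := rfl

/-- change of rings for bases -/
def _root_.Vale.Agent.P093.Nak.RBasis.push {R B X : T} [MonObj R] [MonObj B] {J : Type}
    (b : RBasis E R X J) (r : R ⟶ B) [IsMonHom r] : RBasis E B X J where
  k := b.k
  w j := b.w j ≫ r ▷ X
  isIso := isIso_desc_bind_push r b.w b.isIso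

@[simp] theorem push_k {R B X : T} [MonObj R] [MonObj B] {J : Type}
    (b : RBasis E R X J) (r : R ⟶ B) [IsMonHom r] : (b.push r).k = b.k := rfl

@[simp] theorem push_w {R B X : T} [MonObj R] [MonObj B] {J : Type}
    (b : RBasis E R X J) (r : R ⟶ B) [IsMonHom r] (j : J) : (b.push r).w j = b.w j ≫ r ▷ X := rfl

/-- `∐ (S j ⊗ S' l) ≅ ∐ S ⊗ ∐ S'` -/
theorem isIso_sigma_tensor {J K : Type} (S : J → T) (S' : K → T) :
    IsIso (Sigma.desc fun jl : J × K => (Sigma.ι S jl.1 ⊗ₘ Sigma.ι S' jl.2)) := by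
  have h1 : ∀ j, IsIso (Sigma.desc fun l => S j ◁ Sigma.ι S' l) := fun j => by
    have h2 : (Sigma.desc fun l => S j ◁ Sigma.ι S' l) =
        sigmaComparison (tensorLeft (S j)) S' := by
      refine Sigma.hom_ext _ _ fun l => ?_
      rw [Sigma.ι_desc]
      exact (ι_comp_sigmaComparison (tensorLeft (S j)) S' l).symm
    have : (tensorLeft (S j)).IsLeftAdjoint := ⟨_, ⟨ihom.adjunction (S j)⟩⟩
    rw [h2]
    infer_instance
  have h3 : IsIso (Sigma.desc fun j => Sigma.ι S j ▷ (∐ S')) := by
    have h4 : IsIso (Sigma.desc fun j => Sigma.ι S j) := by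
      have h5 : (Sigma.desc fun j => Sigma.ι S j) = 𝟙 (∐ S) := by
        refine Sigma.hom_ext _ _ fun j => ?_
        simp
      rw [h5]
      infer_instance
    exact isIso_desc_whiskerRight _ h4 _
  have h6 := isIso_desc_trans' (fun (j : J) (l : K) => S j ◁ Sigma.ι S' l)
    (fun j => Sigma.ι S j ▷ (∐ S')) h1 h3
  have h7 : (fun jk : J × K => S jk.1 ◁ Sigma.ι S' jk.2 ≫ Sigma.ι S jk.1 ▷ (∐ S')) =
      fun jl : J × K => (Sigma.ι S jl.1 ⊗ₘ Sigma.ι S' jl.2) := by
    funext jl
    rw [tensorHom_def', ]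
  rwa [h7] at h6

/-- The external product of two isomorphisms of free modules. -/
theorem isIso_bind_ten {R X Y X' Y' : T} [MonObj R] [IsCommMonObj R] (f : X ⟶ R ⊗ X')
    (g : Y ⟶ R ⊗ Y') [IsIso (FM.bind f)] [IsIso (FM.bind g)] :
    IsIso (FM.bind ((f ⊗ₘ g) ≫ FM.ten R X' Y')) := by
  have h1 := FM.isIso_of_bind f
  have h2 := FM.isIso_of_bind g
  have h3 : IsIso (FM.lin ((f ⊗ₘ g) ≫ FM.ten R X' Y')) :=
    inferInstanceAs (IsIso (FM.lin f ⊗ₘ FM.lin g))
  exact FM.isIso_bind _

/-- **External products of bases.** -/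
def _root_.Vale.Agent.P093.Nak.RBasis.tensor {R X Y : T} [MonObj R] [IsCommMonObj R] {J K : Type}
    (b : RBasis E R X J) (b' : RBasis E R Y K) : RBasis E R (X ⊗ Y) (J × K) where
  k jl := b.k jl.1 + b'.k jl.2
  w jl := crossG rfl (b.w jl.1) (b'.w jl.2)
  isIso := by
    rw [show (Sigma.desc fun jl : J × K => lin (ModStr.free R (X ⊗ Y))
        (crossG rfl (b.w jl.1) (b'.w jl.2))) = Sigma.desc fun jl : J × K =>
        FM.bind (crossG (P := R) rfl (b.w jl.1) (b'.w jl.2)) from rfl, isIso_desc_bind_iff]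
    have h1 : IsIso (FM.bind (Sigma.desc b.w)) := (isIso_desc_bind_iff _ _).1 b.isIso
    have h2 : IsIso (FM.bind (Sigma.desc b'.w)) := (isIso_desc_bind_iff _ _).1 b'.isIso
    have h3 := isIso_bind_ten (Sigma.desc b.w) (Sigma.desc b'.w)
    have h4 := isIso_desc_comp _ (fun jl : J × K =>
      (E.mu (b.k jl.1) (b'.k jl.2) _ rfl).inv)
      (isIso_sigma_tensor (fun j => E.S (b.k j)) (fun l => E.S (b'.k l)))
    have h5 : (Sigma.desc fun jl : J × K => crossG (P := R) rfl (b.w jl.1) (b'.w jl.2)) =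
        (Sigma.desc fun jl : J × K => (E.mu (b.k jl.1) (b'.k jl.2) _ rfl).inv ≫
          (Sigma.ι (fun j => E.S (b.k j)) jl.1 ⊗ₘ Sigma.ι (fun l => E.S (b'.k l)) jl.2)) ≫
        (Sigma.desc b.w ⊗ₘ Sigma.desc b'.w) ≫ FM.ten R X Y := by
      refine Sigma.hom_ext _ _ fun jl => ?_
      rw [Sigma.ι_desc, Sigma.ι_desc_assoc, Category.assoc, tensorHom_comp_tensorHom_assoc,
        Sigma.ι_desc, Sigma.ι_desc]
      unfold crossG EvenSpheres.ext
      rw [Category.assoc]
    rw [h5]
    have h6 : ∀ (A B C : T) (κ : A ⟶ B) (g : B ⟶ R ⊗ C), FM.bind (κ ≫ g) = R ◁ κ ≫ FM.bind g :=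
      fun A B C κ g => by
        unfold FM.bind
        rw [MonoidalCategory.whiskerLeft_comp, Category.assoc]
    rw [h6]
    have := h4
    infer_instance

@[simp] theorem tensor_k {R X Y : T} [MonObj R] [IsCommMonObj R] {J K : Type}
    (b : RBasis E R X J) (b' : RBasis E R Y K) (jl : J × K) :
    (b.tensor b').k jl = b.k jl.1 + b'.k jl.2 := rfl

@[simp] theorem tensor_w {R X Y : T} [MonObj R] [IsCommMonObj R] {J K : Type}
    (b : RBasis E R X J) (b' : RBasis E R Y K) (jl : J × K) :
    (b.tensor b').w jl = crossG rfl (b.w jl.1) (b'.w jl.2) := rfl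

theorem of_tensor_w {R X Y : T} [MonObj R] [IsCommMonObj R] {J K : Type}
    (b : RBasis E R X J) (b' : RBasis E R Y K) (jl : J × K) :
    MP.of E R (X ⊗ Y) ((b.tensor b').k jl) ((b.tensor b').w jl) =
      MP.cross E R X Y (MP.of E R X (b.k jl.1) (b.w jl.1)) (MP.of E R Y (b'.k jl.2) (b'.w jl.2)) :=
  (MP.cross_of rfl _ _).symm

end basis

end Vale.Agent.P093.N.HH
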