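import Vale.Agent.P093.N.Nak1
import Mathlib.LinearAlgebra.Basis.Basic

/-!
# P093, block N:NAK, part 2: `R`-bases and bases of `π_{2*}(R ⊗ X)`

* `RBasis.basis` : the classes `w_j` form a basis of `MP E R X = π_{2*}(R ⊗ X)` over `HRing E R`;
* `RBasis.ofBasis` : conversely, if `R ⊗ X` is `R`-free, every homogeneous basis of `MP E R X` is
  an `R`-basis of `X`;
* `isIso_of_bijective` : linear maps between `R`-free objects which are bijective on the even
  homotopy are isomorphisms.
-/

open CategoryTheory MonoidalCategory MonObj Limits Pretriangulated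

set_option linter.unusedSectionVars false

universe v u

noncomputable section

namespace Vale.Agent.P093.Nak

open Vale.Agent.P251.S Vale.Agent.P251.T Vale.Agent.P251.M Vale.Agent.P251.M.EvenSpheres
  Vale.Agent.P251.X

section Gon

variable {T : Type u} [Category.{v} T] [MonoidalCategory T] [SymmetricCategory T]
  {E : EvenSpheres T} {R : T} [MonObj R]

/-- `a : S^{2m} ⟶ R` gives `S^{2n} ⟶ R ⊗ S^{2k}`, `m + k = n`. -/
def gon {m k n : ℤ} (h : m + k = n) (a : E.S m ⟶ R) : E.S n ⟶ R ⊗ E.S k :=
  E.ext h a (𝟙 (E.S k))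

lemma gon_lin {N : T} (M : ModStr R N) {m k n : ℤ} (h : m + k = n) (a : E.S m ⟶ R)
    (w : E.S k ⟶ N) : gon h a ≫ lin M w = gsmul M h a w := by
  unfold gon lin gsmul
  rw [← Category.assoc, ← ext_comp_right, Category.id_comp]

end Gon

section Stable

variable {T : Type u} [Category.{v} T] [Preadditive T] [HasZeroObject T]
    [HasShift T ℤ] [∀ n : ℤ, (shiftFunctor T n).Additive] [Pretriangulated T] [IsTriangulated T]
    [MonoidalCategory T] [SymmetricCategory T] [TensorTriangulated T] [MonoidalClosed T]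
    [HasCoproducts.{0} T] [HasProducts.{0} T] [StableCat T] {E : EvenSpheres T}
    {R : T} [MonObj R]

lemma gon_bijective {m k n : ℤ} (h : m + k = n) :
    Function.Bijective (gon (E := E) (R := R) h) := by
  have key : ∀ x : E.S m ⟶ R, gon h x = (E.mu m k n h).inv ≫ (x ▷ E.S k) := by
    intro x
    unfold gon EvenSpheres.ext
    rw [tensorHom_id]
  constructor
  · intro x y hxy
    rw [key, key, cancel_epi] at hxy
    exact whiskerRight_inj _ hxy
  · intro g
    obtain ⟨x, hx⟩ := whiskerRight_surj (E.S k) ((E.mu m k n h).hom ≫ g)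
    exact ⟨x, by rw [key, hx]; simp⟩

/-- `gon` is additive -/
lemma gon_zero {m k n : ℤ} (h : m + k = n) : gon (E := E) (R := R) h 0 = 0 := by
  unfold gon
  rw [ext_zero_left]

lemma gsmul_zero_left' {N : T} (M : ModStr R N) {m k n : ℤ} (h : m + k = n)
    (w : E.S k ⟶ N) : gsmul M h (0 : E.S m ⟶ R) w = 0 := by
  unfold gsmul
  rw [ext_zero_left, zero_comp]

lemma gsmul_zero_right' {N : T} (M : ModStr R N) {m k n : ℤ} (h : m + k = n)
    (a : E.S m ⟶ R) : gsmul M h a (0 : E.S k ⟶ N) = 0 := by
  unfold gsmul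
  rw [ext_zero_right, zero_comp]

lemma gsmul_add_left' {N : T} (M : ModStr R N) {m k n : ℤ} (h : m + k = n)
    (a a' : E.S m ⟶ R) (w : E.S k ⟶ N) :
    gsmul M h (a + a') w = gsmul M h a w + gsmul M h a' w := by
  unfold gsmul
  rw [ext_add_left, Preadditive.add_comp]

/-- components of `a • x` -/
lemma comp_smul_of {X : T} {m k n : ℤ} (h : m + k = n) (a : HRing E R) (w : E.S k ⟶ R ⊗ X) :
    MP.comp E R X n (a • MP.of E R X k w) = gsmul (ModStr.free R X) h (a m) w := by
  induction a using DirectSum.induction_on with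
  | zero =>
    rw [zero_smul, map_zero]
    exact (gsmul_zero_left' _ h w).symm
  | of i a =>
    by_cases hi : i = m
    · subst hi
      subst h
      change MP.comp E R X (i + k) (HRing.of E R i a • MP.of E R X k w) = _
      rw [MP.smul_of (k := i + k) rfl, MP.comp_of_same]
      congr 1
      exact (DirectSum.of_eq_same (β := E.Gr R) i a).symm
    · change MP.comp E R X n (HRing.of E R i a • MP.of E R X k w) = _
      rw [MP.smul_of (k := i + k) rfl, MP.comp_of_ne (by omega)]
      have : (DirectSum.of (E.Gr R) i a) m = 0 :=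
        DirectSum.of_eq_of_ne (β := E.Gr R) i m a (fun h' => hi h'.symm)
      rw [this]
      exact (gsmul_zero_left' _ h w).symm
  | add a b ha hb =>
    rw [add_smul, map_add, ha, hb]
    exact (gsmul_add_left' _ h _ _ w).symm

/-- an element of `MP` is determined by its components -/
lemma MP_ext {X : T} {x y : MP E R X} (h : ∀ n, MP.comp E R X n x = MP.comp E R X n y) : x = y :=
  DFinsupp.ext h

lemma HRing_ext {a b : HRing E R} (h : ∀ n, a n = b n) : a = b := DFinsupp.ext h

namespace RBasis

variable {X Y : T} {J I : Type}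

/-- Homogeneous expansions. -/
theorem exists_expansion (b : RBasis E R X J) (hS : ∀ n, IsSphere (E.S n)) {n : ℤ}
    (f : E.S n ⟶ R ⊗ X) :
    ∃ (t : Finset J) (x : ∀ j, E.S (n - b.k j) ⟶ R),
      f = ∑ j ∈ t, gsmul (ModStr.free R X) (sub_add_cancel n (b.k j)) (x j) (b.w j) := by
  have := b.isIso
  obtain ⟨t, g, hg⟩ := compact_sum _ (hS n)
    (f ≫ inv (Sigma.desc fun j => lin (ModStr.free R X) (b.w j)))
  choose x hx using fun j => (gon_bijective (E := E) (R := R) (sub_add_cancel n (b.k j))).2 (g j)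
  refine ⟨t, x, ?_⟩
  rw [IsIso.comp_inv_eq] at hg
  rw [hg, Preadditive.sum_comp]
  refine Finset.sum_congr rfl fun j _ => ?_
  rw [Category.assoc, Sigma.ι_desc, ← hx, gon_lin]

/-- Uniqueness of homogeneous expansions. -/
theorem expansion_unique (b : RBasis E R X J) {n : ℤ} (t : Finset J)
    (x : ∀ j, E.S (n - b.k j) ⟶ R)
    (h : ∑ j ∈ t, gsmul (ModStr.free R X) (sub_add_cancel n (b.k j)) (x j) (b.w j) = 0) :
    ∀ j ∈ t, x j = 0 := by
  have := b.isIso
  have h1 : ∑ j ∈ t, gon (sub_add_cancel n (b.k j)) (x j) ≫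
      Sigma.ι (fun j => R ⊗ E.S (b.k j)) j = 0 := by
    rw [← cancel_mono (Sigma.desc fun j => lin (ModStr.free R X) (b.w j)),
      Preadditive.sum_comp, zero_comp, ← h]
    refine Finset.sum_congr rfl fun j _ => ?_
    rw [Category.assoc, Sigma.ι_desc, gon_lin]
  have h2 := sum_ι_eq_zero (fun j => R ⊗ E.S (b.k j)) t
    (fun j => gon (sub_add_cancel n (b.k j)) (x j)) h1
  intro j hj
  refine (gon_bijective (E := E) (R := R) (sub_add_cancel n (b.k j))).1 ?_
  rw [h2 j hj, gon_zero]

/-- the basis elements in `MP E R X` -/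
def el (b : RBasis E R X J) (j : J) : MP E R X := MP.of E R X (b.k j) (b.w j)

theorem linearIndependent (b : RBasis E R X J) : LinearIndependent (HRing E R) b.el := by
  rw [linearIndependent_iff']
  intro s g hg i hi
  refine HRing_ext fun m => ?_
  have h1 := congrArg (MP.comp E R X (m + b.k i)) hg
  rw [map_sum, map_zero] at h1
  have h2 : ∑ j ∈ s, gsmul (ModStr.free R X) (sub_add_cancel (m + b.k i) (b.k j))
      ((g j) (m + b.k i - b.k j)) (b.w j) = 0 := by
    rw [← h1]
    refine Finset.sum_congr rfl fun j _ => ?_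
    exact (comp_smul_of (sub_add_cancel (m + b.k i) (b.k j)) (g j) (b.w j)).symm
  have h3 := b.expansion_unique s (fun j => (g j) (m + b.k i - b.k j)) h2 i hi
  have h4 : m + b.k i - b.k i = m := by ring
  rw [h4] at h3
  exact h3

theorem span_eq_top (b : RBasis E R X J) (hS : ∀ n, IsSphere (E.S n)) :
    ⊤ ≤ Submodule.span (HRing E R) (Set.range b.el) := by
  rintro x -
  induction x using MP.ind with
  | zero => exact Submodule.zero_mem _
  | of n f =>
    obtain ⟨t, x, rfl⟩ := b.exists_expansion hS f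
    rw [map_sum]
    refine Submodule.sum_mem _ fun j _ => ?_
    rw [← MP.smul_of (sub_add_cancel n (b.k j))]
    exact Submodule.smul_mem _ _ (Submodule.subset_span ⟨j, rfl⟩)
  | add x y hx hy => exact Submodule.add_mem _ hx hy

/-- The basis of `π_{2*}(R ⊗ X)` over `π_{2*} R`. -/
def basis (b : RBasis E R X J) (hS : ∀ n, IsSphere (E.S n)) : Module.Basis J (HRing E R) (MP E R X) :=
  Module.Basis.mk b.linearIndependent (b.span_eq_top hS)

@[simp] lemma basis_apply (b : RBasis E R X J) (hS : ∀ n, IsSphere (E.S n)) (j : J) :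
    b.basis hS j = MP.of E R X (b.k j) (b.w j) := by
  unfold basis
  rw [Module.Basis.mk_apply]
  rfl

/-- the coefficients of a homogeneous element are homogeneous -/
theorem repr_of (b : RBasis E R X J) (hS : ∀ n, IsSphere (E.S n)) {n : ℤ} (f : E.S n ⟶ R ⊗ X)
    (j : J) : (b.basis hS).repr (MP.of E R X n f) j =
      HRing.of E R (n - b.k j) (((b.basis hS).repr (MP.of E R X n f) j) (n - b.k j)) := by
  classical
  obtain ⟨t, x, hx⟩ := b.exists_expansion hS f
  have h1 : MP.of E R X n f = ∑ j ∈ t, HRing.of E R (n - b.k j) (x j) • b.basis hS j := by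
    rw [hx, map_sum]
    refine Finset.sum_congr rfl fun j _ => ?_
    rw [basis_apply, MP.smul_of (sub_add_cancel n (b.k j))]
  have h2 : (b.basis hS).repr (MP.of E R X n f) j =
      if j ∈ t then HRing.of E R (n - b.k j) (x j) else 0 := by
    rw [h1, map_sum, Finsupp.finsetSum_apply]
    simp only [map_smul, Module.Basis.repr_self, Finsupp.smul_apply, smul_eq_mul]
    by_cases hj : j ∈ t
    · rw [Finset.sum_eq_single j, if_pos hj]
      · simp
      · intro i _ hij
        rw [Finsupp.single_eq_of_ne (by exact fun h => hij h.symm), mul_zero]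
      · exact fun h => absurd hj h
    · rw [if_neg hj]
      refine Finset.sum_eq_zero fun i hi => ?_
      rw [Finsupp.single_eq_of_ne (by rintro rfl; exact hj hi), mul_zero]
  rw [h2]
  split_ifs with hj
  · congr 1
    exact (DirectSum.of_eq_same (β := E.Gr R) _ _).symm
  · change _ = DirectSum.of (E.Gr R) _ ((0 : DirectSum ℤ (E.Gr R)) _)
    rw [DirectSum.zero_apply, map_zero]

end RBasis

/-- the tautological basis of a coproduct of spheres -/
def RBasis.taut (J : Type) (k : J → ℤ) : RBasis E R (∐ fun j => E.S (k j)) J where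
  k := k
  w j := Sigma.ι (fun j => E.S (k j)) j ≫ un R _
  isIso := by
    rw [isIso_desc_iff]
    have h1 : (Sigma.desc fun j => Sigma.ι (fun j => E.S (k j)) j ≫ un R _) =
        un R (∐ fun j => E.S (k j)) ≫ 𝟙 _ := by
      refine Sigma.hom_ext _ _ fun j => ?_
      rw [Sigma.ι_desc, Category.comp_id]
    rw [h1, lin_un (ModStr.free R (∐ fun j => E.S (k j))) (𝟙 _) (by
      change _ ≫ 𝟙 _ = (R ◁ 𝟙 _) ≫ _
      rw [Category.comp_id, whiskerLeft_id, Category.id_comp])]
    infer_instance

/-- A linear map between `R`-free objects which is bijective on the even homotopy is an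
isomorphism. -/
theorem isIso_of_bijective {X Y : T} {J I : Type} (b : RBasis E R X J) (c : RBasis E R Y I)
    (g : R ⊗ X ⟶ R ⊗ Y) (hg : (ModStr.free R X).IsLinear (ModStr.free R Y) g)
    (h : ∀ n, Function.Bijective fun f : E.S n ⟶ R ⊗ X => f ≫ g) : IsIso g := by
  choose u hu using fun i => (h (c.k i)).2 (c.w i)
  refine ⟨c.linMap (ModStr.free R X) u, ?_, ?_⟩
  · refine b.hom_ext (ModStr.free R X)
      (isLinear_comp _ _ hg (c.linMap_isLinear (ModStr.free R X) u)) ?_ fun j => ?_
    · change _ ≫ 𝟙 _ = (R ◁ 𝟙 _) ≫ _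
      rw [Category.comp_id, whiskerLeft_id, Category.id_comp]
    · apply (h (b.k j)).1
      have h1 : c.linMap (ModStr.free R X) u ≫ g = 𝟙 _ := by
        refine c.hom_ext (ModStr.free R Y)
          (isLinear_comp _ _ (c.linMap_isLinear (ModStr.free R X) u) hg) ?_ fun i => ?_
        · change _ ≫ 𝟙 _ = (R ◁ 𝟙 _) ≫ _
          rw [Category.comp_id, whiskerLeft_id, Category.id_comp]
        · rw [RBasis.w_linMap_assoc, Category.comp_id]
          exact hu i
      simp only [Category.assoc, h1, Category.comp_id]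
  · refine c.hom_ext (ModStr.free R Y)
      (isLinear_comp _ _ (c.linMap_isLinear (ModStr.free R X) u) hg) ?_ fun i => ?_
    · change _ ≫ 𝟙 _ = (R ◁ 𝟙 _) ≫ _
      rw [Category.comp_id, whiskerLeft_id, Category.id_comp]
    · rw [RBasis.w_linMap_assoc, Category.comp_id]
      exact hu i

lemma isLinear_id {N : T} (M : ModStr R N) : M.IsLinear M (𝟙 N) := by
  change _ ≫ 𝟙 _ = (R ◁ 𝟙 _) ≫ _
  rw [Category.comp_id, whiskerLeft_id, Category.id_comp]

/-- Homogeneous bases of the even homotopy of an `R`-free object are `R`-bases. -/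
def RBasis.ofBasis {Y : T} {I J : Type} (b : RBasis E R Y I) (hS : ∀ n, IsSphere (E.S n))
    (k : J → ℤ) (w : ∀ j, E.S (k j) ⟶ R ⊗ Y) (B : Module.Basis J (HRing E R) (MP E R Y))
    (hB : ∀ j, B j = MP.of E R Y (k j) (w j)) : RBasis E R Y J where
  k := k
  w := w
  isIso := by
    rw [isIso_desc_iff]
    let c : RBasis E R (∐ fun j => E.S (k j)) J := RBasis.taut J k
    let cw : ∀ j, E.S (k j) ⟶ R ⊗ (∐ fun j => E.S (k j)) := fun j =>
      Sigma.ι (fun j => E.S (k j)) j ≫ un R _
    have hcw : ∀ j, cw j ≫ lin (ModStr.free R Y) (Sigma.desc w) = w j := by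
      intro j
      rw [Category.assoc, un_lin, Sigma.ι_desc]
    have hgs : ∀ {n m : ℤ} {j : J} (h : m + k j = n) (a : E.S m ⟶ R),
        gsmul (ModStr.free R _) h a (cw j) ≫ lin (ModStr.free R Y) (Sigma.desc w) =
          gsmul (ModStr.free R Y) h a (w j) := by
      intro n m j h a
      rw [← gsmul_comp _ (ModStr.free R Y) (lin_isLinear (ModStr.free R Y) (Sigma.desc w)), hcw]
    have hex : ∀ {n : ℤ} (f : E.S n ⟶ R ⊗ (∐ fun j => E.S (k j))),
        ∃ (t : Finset J) (x : ∀ j, E.S (n - k j) ⟶ R),
          f = ∑ j ∈ t, gsmul (ModStr.free R _) (sub_add_cancel n (k j)) (x j) (cw j) :=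
      fun f => c.exists_expansion hS f
    refine isIso_of_bijective c b _ (lin_isLinear _ _) fun n => ⟨?_, ?_⟩
    · have key : ∀ f : E.S n ⟶ R ⊗ (∐ fun j => E.S (k j)),
          f ≫ lin (ModStr.free R Y) (Sigma.desc w) = 0 → f = 0 := by
        intro f hf
        obtain ⟨t, x, rfl⟩ := hex f
        have h1 : ∑ j ∈ t, HRing.of E R (n - k j) (x j) • B j = 0 := by
          have h2 := congrArg (MP.of E R Y n) hf
          rw [Preadditive.sum_comp, map_sum, map_zero] at h2
          rw [← h2]
          refine Finset.sum_congr rfl fun j _ => ?_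
          rw [hB, MP.smul_of (sub_add_cancel n (k j)), hgs]
        have h3 := linearIndependent_iff'.1 B.linearIndependent t _ h1
        refine Finset.sum_eq_zero fun j hj => ?_
        have h4 : x j = 0 := DirectSum.of_injective (β := E.Gr R) _
          ((h3 j hj).trans (map_zero (DirectSum.of (E.Gr R) _)).symm)
        rw [h4]
        exact gsmul_zero_left' _ _ _
      intro f f' hff'
      rw [← sub_eq_zero]
      apply key
      rw [Preadditive.sub_comp, sub_eq_zero]
      exact hff'
    · intro f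
      let r := B.repr (MP.of E R Y n f)
      refine ⟨∑ j ∈ r.support, gsmul (ModStr.free R _) (sub_add_cancel n (k j))
        ((r j) (n - k j)) (cw j), ?_⟩
      change (∑ j ∈ r.support, gsmul (ModStr.free R _) (sub_add_cancel n (k j))
        ((r j) (n - k j)) (cw j)) ≫ _ = f
      rw [Preadditive.sum_comp]
      have h1 : MP.comp E R Y n (MP.of E R Y n f) = f := MP.comp_of_same n f
      rw [← B.linearCombination_repr (MP.of E R Y n f), Finsupp.linearCombination_apply,
        Finsupp.sum, map_sum] at h1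
      rw [← h1]
      refine Finset.sum_congr rfl fun j _ => ?_
      rw [hgs, hB, comp_smul_of (sub_add_cancel n (k j))]

end Stable

end Vale.Agent.P093.Nak
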