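import Vale.Agent.P093.N.HTheta
import Vale.Agent.P093.N.HExt
import Vale.Agent.P093.N.Nak2
import Vale.Agent.P093.N.Co.Basic
import Mathlib.RingTheory.Bialgebra.Basic
import Mathlib.RingTheory.Bialgebra.TensorProduct

/-!
# P093, block N:H, part 2: the coaction on `H X`

`CoDat E R p P` : ring homomorphisms `χ : π_{2*} R ⟶ 𝔽_p`, `φ : π_{2*}(R ⊗ R) ⟶ P`,
`φ₂ : π_{2*}(R ⊗ R ⊗ R) ⟶ P ⊗ P`, compatible with the cosimplicial structure.

`psi D X : H X ⟶ P ⊗ H X` is natural, coassociative and counital for good `X`.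
-/

open CategoryTheory MonoidalCategory Limits Pretriangulated MonObj TensorProduct

set_option linter.unusedSectionVars false

universe v u w

noncomputable section

namespace Vale.Agent.P093.N.HH

open Vale.Agent.P251.T Vale.Agent.P251.M Vale.Agent.P251.M.EvenSpheres Vale.Agent.P251.S
  Vale.Agent.P251.X Vale.Agent.P093.Nak

section data

variable {T : Type u} [Category.{v} T] [Preadditive T] [MonoidalCategory T]
  [MonoidalPreadditive T] [SymmetricCategory T]

/-- The data which define the coaction. -/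
structure CoDat (E : EvenSpheres T) (R : T) [MonObj R] [IsCommMonObj R] (p : ℕ) [Fact p.Prime]
    (P : Type w) [CommRing P] [Bialgebra (ZMod p) P] where
  /-- the homomorphism `π_{2*} R ⟶ 𝔽_p` -/
  c : Pt E R p 0
  /-- the homomorphism `π_{2*}(R ⊗ R) ⟶ P` -/
  φ : HRing E (Am R 2) →+* P
  /-- the homomorphism `π_{2*}(R ⊗ R ⊗ R) ⟶ P ⊗ P` -/
  φ₂ : HRing E (Am R 3) →+* P ⊗[ZMod p] P
  φ_v₀ (a : HRing E R) : φ (HRing.map (Am.v R (0 : Fin 2)) a) = algebraMap (ZMod p) P (c.χ a)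
  φ_v₁ (a : HRing E R) : φ (HRing.map (Am.v R (1 : Fin 2)) a) = algebraMap (ZMod p) P (c.χ a)
  counit (z : HRing E (Am R 2)) :
    Coalgebra.counit (R := ZMod p) (φ z) = c.χ (HRing.map (Am.lift fun _ : Fin 2 => 𝟙 R) z)
  φ₂_01 (z : HRing E (Am R 2)) : φ₂ (HRing.map (Am.map R ![0, 1]) z) = φ z ⊗ₜ 1
  φ₂_12 (z : HRing E (Am R 2)) : φ₂ (HRing.map (Am.map R ![1, 2]) z) = 1 ⊗ₜ φ z
  φ₂_02 (z : HRing E (Am R 2)) : φ₂ (HRing.map (Am.map R ![0, 2]) z) =
    Coalgebra.comul (R := ZMod p) (φ z)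

end data

section coact

variable {T : Type u} [Category.{v} T] [Preadditive T] [HasZeroObject T]
    [HasShift T ℤ] [∀ n : ℤ, (shiftFunctor T n).Additive] [Pretriangulated T] [IsTriangulated T]
    [MonoidalCategory T] [SymmetricCategory T] [TensorTriangulated T] [MonoidalClosed T]
    [HasCoproducts.{0} T] [HasProducts.{0} T] [StableCat T] {E : EvenSpheres T}

/-- `R ⊗ X` has an even `R`-basis. -/
def Good (E : EvenSpheres T) (R X : T) [MonObj R] : Prop := ∃ J : Type, Nonempty (RBasis E R X J)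

theorem Good.along {R B X : T} [MonObj R] [MonObj B] (h : Good E R X)
    (hS : ∀ n, IsSphere (E.S n)) (r : R ⟶ B) [IsMonHom r] : Along E r X := by
  obtain ⟨J, ⟨b⟩⟩ := h
  refine ⟨J, b.basis hS, (b.push r).basis hS, fun j => ?_⟩
  rw [RBasis.basis_apply, RBasis.basis_apply]
  exact MP.push_of r _ _

variable {R : T} [MonObj R] [IsCommMonObj R] {p : ℕ} [Fact p.Prime] {P : Type w} [CommRing P]
  [Bialgebra (ZMod p) P] (D : CoDat E R p P) (X Y : T)

namespace CoDat

/-- the homology theory -/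
abbrev H (X : T) : Type v := Vtot D.c X

theorem over₁ : Over D.c (Am.v R (1 : Fin 2)) D.φ := D.φ_v₁

theorem v_one_12 : Am.v R (1 : Fin 2) ≫ Am.map R ![(1 : Fin 3), 2] = Am.v R 2 := by
  rw [Am.v_map]; rfl

theorem v_one_02 : Am.v R (1 : Fin 2) ≫ Am.map R ![(0 : Fin 3), 2] = Am.v R 2 := by
  rw [Am.v_map]; rfl

theorem v_one_01 : Am.v R (1 : Fin 2) ≫ Am.map R ![(0 : Fin 3), 1] = Am.v R 1 := by
  rw [Am.v_map]; rfl

theorem v_zero_01 : Am.v R (0 : Fin 2) ≫ Am.map R ![(0 : Fin 3), 1] = Am.v R 0 := by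
  rw [Am.v_map]; rfl

theorem v_zero_02 : Am.v R (0 : Fin 2) ≫ Am.map R ![(0 : Fin 3), 2] = Am.v R 0 := by
  rw [Am.v_map]; rfl

theorem v_zero_12 : Am.v R (0 : Fin 2) ≫ Am.map R ![(1 : Fin 3), 2] = Am.v R 1 := by
  rw [Am.v_map]; rfl

theorem HRing_map_map {A B C : T} [MonObj A] [MonObj B] [MonObj C] (f : A ⟶ B) [IsMonHom f]
    (g : B ⟶ C) [IsMonHom g] (h : A ⟶ C) [IsMonHom h] (e : f ≫ g = h) (a : HRing E A) :
    HRing.map g (HRing.map f a) = HRing.map h a := by
  subst e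
  rw [HRing.map_comp]
  rfl

theorem over₂ : Over D.c (Am.v R (2 : Fin 3)) D.φ₂ := by
  intro a
  rw [← HRing_map_map (Am.v R (1 : Fin 2)) (Am.map R ![(1 : Fin 3), 2]) (Am.v R 2) v_one_12,
    D.φ₂_12, D.φ_v₁]
  exact (Algebra.TensorProduct.includeRight (R := ZMod p) (A := P) (B := P)).commutes _

/-- the map `π_{2*}(R ⊗ R ⊗ X) ⟶ P ⊗ H X` -/
def theta₂ : MP E (Am R 2) X →+ P ⊗[ZMod p] D.H X := theta D.c (Am.v R (1 : Fin 2)) D.φ X

/-- the map `π_{2*}(R ⊗ R ⊗ R ⊗ X) ⟶ (P ⊗ P) ⊗ H X` -/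
def theta₃ : MP E (Am R 3) X →+ (P ⊗[ZMod p] P) ⊗[ZMod p] D.H X :=
  theta D.c (Am.v R (2 : Fin 3)) D.φ₂ X

open Classical in
/-- the coaction -/
def psi : D.H X →ₗ[ZMod p] P ⊗[ZMod p] D.H X :=
  if h : ∀ x ∈ D.c.I • (⊤ : Submodule (HRing E R) (MP E R X)),
      D.theta₂ X (MP.push E (Am.v R (0 : Fin 2)) X x) = 0 then
    (Vtot.desc ((D.theta₂ X).comp (MP.push E (Am.v R (0 : Fin 2)) X)) h).toZModLinearMap p
  else 0

variable {X Y} (hS : ∀ n, IsSphere (E.S n)) (hX : Good E R X) (hY : Good E R Y)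

include hS hX

theorem psi_mk (x : MP E R X) :
    D.psi X (Vtot.mk D.c X x) = D.theta₂ X (MP.push E (Am.v R (0 : Fin 2)) X x) := by
  have h : ∀ x ∈ D.c.I • (⊤ : Submodule (HRing E R) (MP E R X)),
      D.theta₂ X (MP.push E (Am.v R (0 : Fin 2)) X x) = 0 := by
    intro x hx
    refine Submodule.smul_induction_on
      (p := fun x => D.theta₂ X (MP.push E (Am.v R (0 : Fin 2)) X x) = 0) hx ?_ ?_
    · intro a ha y _
      unfold theta₂
      rw [MP.push_smul, theta_smul D.c (hX.along hS _) D.over₁, D.φ_v₀, D.c.mem_I.1 ha, map_zero,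
        zero_smul]
    · intro x y hx hy
      rw [map_add, map_add, hx, hy, add_zero]
  unfold psi
  rw [dif_pos h]
  rfl

include hY in
/-- naturality of the coaction -/
theorem psi_map (f : X ⟶ Y) :
    Vale.Agent.P093.N.Co.Colin (D.psi X) (D.psi Y) (Vtot.map D.c f) := by
  apply LinearMap.ext
  intro x
  induction x using Vtot.ind with
  | h x =>
    change D.psi Y (Vtot.map D.c f (Vtot.mk D.c X x)) =
      (Vtot.map D.c f).lTensor P (D.psi X (Vtot.mk D.c X x))
    rw [Vtot.map_mk, D.psi_mk hS hY, D.psi_mk hS hX, ← MP.map_push]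
    exact theta_map D.c (hX.along hS _) (hY.along hS _) D.over₁ f _

theorem theta₃_push02 (y : MP E (Am R 2) X) :
    D.theta₃ X (MP.push E (Am.map R ![(0 : Fin 3), 2]) X y) =
      (Coalgebra.comul (R := ZMod p) (A := P)).rTensor (D.H X) (D.theta₂ X y) :=
  theta_change D.c (Am.map R ![(0 : Fin 3), 2]) v_one_02 (Bialgebra.comulAlgHom (ZMod p) P)
    (fun z => D.φ₂_02 z) (hX.along hS _) (hX.along hS _) D.over₁ D.over₂ y

theorem theta₃_push12 (y : MP E (Am R 2) X) :
    D.theta₃ X (MP.push E (Am.map R ![(1 : Fin 3), 2]) X y) =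
      (Algebra.TensorProduct.includeRight (R := ZMod p) (A := P) (B := P)).toLinearMap.rTensor
        (D.H X) (D.theta₂ X y) :=
  theta_change D.c (Am.map R ![(1 : Fin 3), 2]) v_one_12
    (Algebra.TensorProduct.includeRight (R := ZMod p) (A := P) (B := P))
    (fun z => D.φ₂_12 z) (hX.along hS _) (hX.along hS _) D.over₁ D.over₂ y

theorem theta₃_push01 (y : MP E (Am R 2) X) :
    TensorProduct.assoc (ZMod p) P P (D.H X)
      (D.theta₃ X (MP.push E (Am.map R ![(0 : Fin 3), 1]) X y)) =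
      (D.psi X).lTensor P (D.theta₂ X y) := by
  have key : ∀ t : P ⊗[ZMod p] D.H X, ∀ a : P,
      TensorProduct.assoc (ZMod p) P P (D.H X) ((a ⊗ₜ[ZMod p] (1 : P)) •
        (Algebra.TensorProduct.includeRight (R := ZMod p) (A := P) (B := P)).toLinearMap.rTensor
        (D.H X) t) = a ⊗ₜ t := by
    intro t a
    induction t with
    | zero => rw [map_zero, smul_zero, map_zero, tmul_zero]
    | add x y hx hy => rw [map_add, smul_add, map_add, hx, hy, tmul_add]
    | tmul b m =>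
      rw [LinearMap.rTensor_tmul, TensorProduct.smul_tmul']
      change TensorProduct.assoc (ZMod p) P P (D.H X)
        (((a ⊗ₜ[ZMod p] (1 : P)) * (1 ⊗ₜ[ZMod p] b)) ⊗ₜ m) = _
      rw [Algebra.TensorProduct.tmul_mul_tmul, _root_.mul_one, _root_.one_mul,
        TensorProduct.assoc_tmul]
  have h1 : ((TensorProduct.assoc (ZMod p) P P (D.H X)).toLinearMap.toAddMonoidHom.comp
      (D.theta₃ X)).comp (MP.push E (Am.map R ![(0 : Fin 3), 1]) X) =
      ((D.psi X).lTensor P).toAddMonoidHom.comp (D.theta₂ X) := by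
    refine (hX.along hS (Am.v R (1 : Fin 2))).ext fun z x => ?_
    change TensorProduct.assoc (ZMod p) P P (D.H X) (D.theta₃ X
      (MP.push E (Am.map R ![(0 : Fin 3), 1]) X (z • MP.push E (Am.v R (1 : Fin 2)) X x))) =
      (D.psi X).lTensor P (D.theta₂ X (z • MP.push E (Am.v R (1 : Fin 2)) X x))
    have h2 : D.theta₂ X (z • MP.push E (Am.v R (1 : Fin 2)) X x) = D.φ z ⊗ₜ Vtot.mk D.c X x :=
      theta_smul_push D.c (hX.along hS _) D.over₁ z x
    have h3 : ∀ (z : HRing E (Am R 3)) (y : MP E (Am R 3) X),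
        D.theta₃ X (z • y) = D.φ₂ z • D.theta₃ X y :=
      theta_smul D.c (hX.along hS _) D.over₂
    rw [h2, LinearMap.lTensor_tmul, MP.push_smul, h3, D.φ₂_01, MP.push_push,
      v_one_01, ← v_zero_12, ← MP.push_push, D.theta₃_push12 hS hX, ← D.psi_mk hS hX, key]
  exact DFunLike.congr_fun h1 y

/-- **`psi` is a coaction.** -/
theorem isCoact_psi : Vale.Agent.P093.N.Co.IsCoact (D.psi X) where
  coassoc := by
    apply LinearMap.ext
    intro x
    induction x using Vtot.ind with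
    | h x =>
      change TensorProduct.assoc (ZMod p) P P (D.H X)
        ((Coalgebra.comul (R := ZMod p) (A := P)).rTensor (D.H X)
          (D.psi X (Vtot.mk D.c X x))) =
        (D.psi X).lTensor P (D.psi X (Vtot.mk D.c X x))
      rw [D.psi_mk hS hX, ← D.theta₃_push02 hS hX, ← D.theta₃_push01 hS hX, MP.push_push,
        MP.push_push, v_zero_02, v_zero_01]
  counital := by
    apply LinearMap.ext
    intro x
    induction x using Vtot.ind with
    | h x =>
      change TensorProduct.lid (ZMod p) (D.H X)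
        ((Coalgebra.counit (R := ZMod p) (A := P)).rTensor (D.H X)
          (D.psi X (Vtot.mk D.c X x))) = Vtot.mk D.c X x
      rw [D.psi_mk hS hX]
      have hov : Over D.c (𝟙 R) D.c.χ := by
        intro a
        rw [HRing.map_id]
        rfl
      have h1 : Am.v R (1 : Fin 2) ≫ Am.lift (fun _ : Fin 2 => 𝟙 R) = 𝟙 R := by
        rw [Am.v_lift]
      have h2 := theta_change D.c (Am.lift fun _ : Fin 2 => 𝟙 R) h1
        (Bialgebra.counitAlgHom (ZMod p) P) (fun z => (D.counit z).symm) (hX.along hS _)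
        (hX.along hS _) D.over₁ hov (MP.push E (Am.v R (0 : Fin 2)) X x)
      rw [MP.push_push, Am.v_lift] at h2
      have h3 := theta_push D.c (hX.along hS (𝟙 R)) hov x
      rw [h3] at h2
      have h4 := congrArg (TensorProduct.lid (ZMod p) (D.H X)) h2
      rw [TensorProduct.lid_tmul, one_smul] at h4
      exact h4.symm

end CoDat

end coact

end Vale.Agent.P093.N.HH
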