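import Vale.Agent.P093.N.PhiSer
import Vale.Agent.P251.F.Cob
import Mathlib.RingTheory.Bialgebra.Basic

/-!
# P093, part N, block N1-PHI: the coordinate-change ring maps

`k = ZMod p`, `Fb p = F_p[b_0,b_1,…]` (`b_m` = coefficient of `x^(m+2)`), `P` a commutative
`k`-algebra with a sequence `t : ℕ → P` (`t k` = the usual `t_{k+1}`).

* `epsC : Cob Laz 0 →+* ZMod p` (law ↦ additive law),
* `phiC t : Cob Laz 1 →+* P` (law 0 ↦ additive law, change of coordinate ↦ `addSer p t`),
* `thC : Cob Laz 1 →+* Fb p` (law 0 ↦ additive law, change of coordinate ↦ generic series),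
* `phi2C t : Cob Laz 2 →+* P ⊗ P`, `th2C t : Cob Laz 2 →+* P ⊗ Fb p`,
* `psiC t : Fb p →+* P ⊗ Fb p`, `qC t : Fb p →+* P`.
-/

namespace Vale.Agent.P093.N.Phi

open Vale.Agent.P251.F Vale.Agent.P217 TensorProduct

/-- A chain whose first law is additive. -/
noncomputable def addChain {B : Type} [CommRing B] {n : ℕ} (g : Fin (n + 1) → InvSeries B)
    (hg : ∀ i, g i ∈ strict B) (h0 : g 0 = 1) : Chain Laz n B where
  pt := Laz.lift (addLaw B)
  g := g
  strict := hg
  zero := h0

section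

variable {B C : Type} [CommRing B] [CommRing C] {n m : ℕ}

@[simp] theorem addChain_pt (g : Fin (n + 1) → InvSeries B) (hg : ∀ i, g i ∈ strict B)
    (h0 : g 0 = 1) : (addChain g hg h0).pt = Laz.lift (addLaw B) := rfl

@[simp] theorem addChain_g (g : Fin (n + 1) → InvSeries B) (hg : ∀ i, g i ∈ strict B)
    (h0 : g 0 = 1) : (addChain g hg h0).g = g := rfl

theorem act_addLaw (f : InvSeries B) (hf : f • addLaw B = addLaw B) :
    LawRing.act f (Laz.lift (addLaw B)) = Laz.lift (addLaw B) := by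
  rw [Laz.act_eq, Laz.univ_map_lift, hf]

theorem comp_lift_addLaw (φ : B →+* C) :
    φ.comp (Laz.lift (addLaw B)) = Laz.lift (addLaw C) := by
  rw [Laz.comp_lift, map_addLaw]

/-- chains are determined by the point and the series -/
theorem chain_ext {c c' : Chain Laz n B} (h1 : c.pt = c'.pt) (h2 : ∀ i, c.g i = c'.g i) :
    c = c' := Chain.ext h1 (funext h2)

end

section Maps

variable (p : ℕ) [hp : Fact p.Prime]

/-- `F_p[b_0, b_1, …]`; `b_m` stands for the coefficient of `x^(m+2)`. -/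
abbrev Fb : Type := MvPolynomial ℕ (ZMod p)

/-- The generic strict series. -/
noncomputable def bser : InvSeries (Fb p) := strictMk MvPolynomial.X

theorem bser_mem : bser p ∈ strict (Fb p) := strictMk_mem _

variable {P : Type} [CommRing P] [Algebra (ZMod p) P] (t : ℕ → P)

include hp in
theorem natCast_zero (P : Type) [CommRing P] [Algebra (ZMod p) P] : (p : P) = 0 := by
  rw [← map_natCast (algebraMap (ZMod p) P), ZMod.natCast_self, map_zero]

/-- the series `T ⊗ 1` over `P ⊗ Q` -/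
noncomputable def tL (Q : Type) [CommRing Q] [Algebra (ZMod p) Q] : InvSeries (P ⊗[ZMod p] Q) :=
  addSer p fun n => t n ⊗ₜ[ZMod p] (1 : Q)

theorem tL_mem (Q : Type) [CommRing Q] [Algebra (ZMod p) Q] : tL p t Q ∈ strict _ :=
  addSer_mem _ _

/-- the series `1 ⊗ f` over `P ⊗ Q` -/
noncomputable def sR (P : Type) [CommRing P] [Algebra (ZMod p) P] {Q : Type} [CommRing Q]
    [Algebra (ZMod p) Q] (f : InvSeries Q) : InvSeries (P ⊗[ZMod p] Q) :=
  InvSeries.map (Algebra.TensorProduct.includeRight : Q →ₐ[ZMod p] P ⊗[ZMod p] Q).toRingHom f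

theorem sR_mem {Q : Type} [CommRing Q] [Algebra (ZMod p) Q] {f : InvSeries Q}
    (hf : f ∈ strict Q) : sR p P f ∈ strict _ := map_mem_strict _ hf

theorem cons2_mem {B : Type} [CommRing B] {f : InvSeries B} (hf : f ∈ strict B) :
    ∀ i, (![1, f] : Fin 2 → InvSeries B) i ∈ strict B := by
  intro i
  fin_cases i
  · exact one_mem _
  · exact hf

theorem cons3_mem {B : Type} [CommRing B] {f g : InvSeries B} (hf : f ∈ strict B)
    (hg : g ∈ strict B) : ∀ i, (![1, f, g] : Fin 3 → InvSeries B) i ∈ strict B := by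
  intro i
  fin_cases i
  · exact one_mem _
  · exact hf
  · exact hg

/-- chain of length one starting at the additive law -/
noncomputable def ch1 {B : Type} [CommRing B] (f : InvSeries B) (hf : f ∈ strict B) :
    Chain Laz 1 B := addChain ![1, f] (cons2_mem hf) rfl

/-- chain of length two starting at the additive law -/
noncomputable def ch2 {B : Type} [CommRing B] (f g : InvSeries B) (hf : f ∈ strict B)
    (hg : g ∈ strict B) : Chain Laz 2 B := addChain ![1, f, g] (cons3_mem hf hg) rfl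

/-- law ↦ additive law over `B` -/
noncomputable def ch0 (B : Type) [CommRing B] : Chain Laz 0 B :=
  addChain (fun _ => 1) (fun _ => one_mem _) rfl

/-- `Cob Laz 0 → F_p`. -/
noncomputable def epsC : Cob Laz 0 →+* ZMod p := Cob.ev (ch0 (ZMod p))

/-- `Cob Laz 1 → P`. -/
noncomputable def phiC : Cob Laz 1 →+* P := Cob.ev (ch1 (addSer p t) (addSer_mem p t))

/-- `Cob Laz 1 → F_p[b]`. -/
noncomputable def thC : Cob Laz 1 →+* Fb p := Cob.ev (ch1 (bser p) (bser_mem p))

/-- `Cob Laz 2 → P ⊗ P`. -/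
noncomputable def phi2C : Cob Laz 2 →+* P ⊗[ZMod p] P :=
  Cob.ev (ch2 (tL p t P) (sR p P (addSer p t) * tL p t P) (tL_mem p t P)
    (mul_mem (sR_mem p (addSer_mem p t)) (tL_mem p t P)))

/-- `Cob Laz 2 → P ⊗ F_p[b]`. -/
noncomputable def th2C : Cob Laz 2 →+* P ⊗[ZMod p] Fb p :=
  Cob.ev (ch2 (tL p t (Fb p)) (sR p P (bser p) * tL p t (Fb p)) (tL_mem p t (Fb p))
    (mul_mem (sR_mem p (bser_mem p)) (tL_mem p t (Fb p))))

/-- `F_p[b] → P`, `b ↦ t`. -/
noncomputable def qC : Fb p →ₐ[ZMod p] P := MvPolynomial.aeval fun m => (addSer p t).c (m + 1)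

/-- the coaction `F_p[b] → P ⊗ F_p[b]`, `B ↦ (1 ⊗ B) ∘ (T ⊗ 1)`. -/
noncomputable def psiC : Fb p →ₐ[ZMod p] P ⊗[ZMod p] Fb p :=
  MvPolynomial.aeval fun m => (sR p P (bser p) * tL p t (Fb p)).c (m + 1)

end Maps

section Res

variable {B C : Type} [CommRing B] [CommRing C]

theorem ch0_res (α : Fin 1 → Fin 1) : (ch0 B).res α = ch0 B := by
  refine chain_ext ?_ fun i => ?_
  · change LawRing.act 1 _ = _
    exact LawRing.act_one _
  · change (1 : InvSeries B) * 1⁻¹ = 1
    group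

theorem ch0_map (φ : B →+* C) : (ch0 B).map φ = ch0 C := by
  refine chain_ext ?_ fun i => ?_
  · exact comp_lift_addLaw φ
  · exact map_one _

theorem ch1_map (φ : B →+* C) {f : InvSeries B} (hf : f ∈ strict B) :
    (ch1 f hf).map φ = ch1 (InvSeries.map φ f) (map_mem_strict φ hf) := by
  refine chain_ext ?_ fun i => ?_
  · exact comp_lift_addLaw φ
  · fin_cases i
    · exact map_one _
    · rfl

theorem ch1_res_zero {f : InvSeries B} (hf : f ∈ strict B) : (ch1 f hf).res ![0] = ch0 B := by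
  refine chain_ext ?_ fun i => ?_
  · change LawRing.act 1 _ = _
    exact LawRing.act_one _
  · fin_cases i
    change (1 : InvSeries B) * 1⁻¹ = 1
    group

theorem ch1_res_one {f : InvSeries B} (hf : f ∈ strict B) (ha : f • addLaw B = addLaw B) :
    (ch1 f hf).res ![1] = ch0 B := by
  refine chain_ext ?_ fun i => ?_
  · exact act_addLaw f ha
  · fin_cases i
    change f * f⁻¹ = 1
    group

theorem ch2_res_01 {f g : InvSeries B} (hf : f ∈ strict B) (hg : g ∈ strict B) :
    (ch2 f g hf hg).res ![0, 1] = ch1 f hf := by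
  refine chain_ext ?_ fun i => ?_
  · change LawRing.act 1 _ = _
    exact LawRing.act_one _
  · fin_cases i
    · change (1 : InvSeries B) * 1⁻¹ = 1
      group
    · change f * 1⁻¹ = f
      group

theorem ch2_res_02 {f g : InvSeries B} (hf : f ∈ strict B) (hg : g ∈ strict B) :
    (ch2 f g hf hg).res ![0, 2] = ch1 g hg := by
  refine chain_ext ?_ fun i => ?_
  · change LawRing.act 1 _ = _
    exact LawRing.act_one _
  · fin_cases i
    · change (1 : InvSeries B) * 1⁻¹ = 1
      group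
    · change g * 1⁻¹ = g
      group

theorem ch2_res_12 {f g : InvSeries B} (hf : f ∈ strict B) (hg : g ∈ strict B)
    (hfg : g * f ∈ strict B) (ha : f • addLaw B = addLaw B) :
    (ch2 f (g * f) hf hfg).res ![1, 2] = ch1 g hg := by
  refine chain_ext ?_ fun i => ?_
  · exact act_addLaw f ha
  · fin_cases i
    · change f * f⁻¹ = 1
      group
    · change g * f * f⁻¹ = g
      group

end Res

section Identities

variable (p : ℕ) [hp : Fact p.Prime] {P : Type} [CommRing P] [Algebra (ZMod p) P] (t : ℕ → P)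

theorem ch0_eq_map (B : Type) [CommRing B] [Algebra (ZMod p) B] :
    ch0 B = (ch0 (ZMod p)).map (algebraMap (ZMod p) B) := (ch0_map _).symm

theorem epsC_map (α : Fin 1 → Fin 1) (z : Cob Laz 0) : epsC p (Cob.map α z) = epsC p z := by
  rw [epsC, Cob.ev_map_res, ch0_res]

theorem ev_ch0 (B : Type) [CommRing B] [Algebra (ZMod p) B] (z : Cob Laz 0) :
    Cob.ev (ch0 B) z = algebraMap (ZMod p) B (epsC p z) := by
  rw [ch0_eq_map p, Cob.ev_map]
  rfl

theorem phiC_map_zero (z : Cob Laz 0) :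
    phiC p t (Cob.map ![0] z) = algebraMap (ZMod p) P (epsC p z) := by
  rw [phiC, Cob.ev_map_res, ch1_res_zero, ev_ch0 p]

theorem phiC_map_one (z : Cob Laz 0) :
    phiC p t (Cob.map ![1] z) = algebraMap (ZMod p) P (epsC p z) := by
  rw [phiC, Cob.ev_map_res, ch1_res_one _ (addSer_smul_addLaw' p (natCast_zero p P) t),
    ev_ch0 p]

theorem thC_map_zero (z : Cob Laz 0) :
    thC p (Cob.map ![0] z) = algebraMap (ZMod p) (Fb p) (epsC p z) := by
  rw [thC, Cob.ev_map_res, ch1_res_zero, ev_ch0 p]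

/-- `includeLeft` and `includeRight` as ring homomorphisms. -/
noncomputable abbrev iL (P Q : Type) [CommRing P] [Algebra (ZMod p) P] [CommRing Q]
    [Algebra (ZMod p) Q] : P →+* P ⊗[ZMod p] Q :=
  (Algebra.TensorProduct.includeLeft : P →ₐ[ZMod p] P ⊗[ZMod p] Q).toRingHom

/-- `includeRight` as a ring homomorphism. -/
noncomputable abbrev iR (P Q : Type) [CommRing P] [Algebra (ZMod p) P] [CommRing Q]
    [Algebra (ZMod p) Q] : Q →+* P ⊗[ZMod p] Q :=
  (Algebra.TensorProduct.includeRight : Q →ₐ[ZMod p] P ⊗[ZMod p] Q).toRingHom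

theorem tL_eq (Q : Type) [CommRing Q] [Algebra (ZMod p) Q] :
    tL p t Q = InvSeries.map (iL p P Q) (addSer p t) := by
  rw [map_addSer]
  rfl

theorem tL_smul (Q : Type) [CommRing Q] [Algebra (ZMod p) Q] :
    tL p t Q • addLaw (P ⊗[ZMod p] Q) = addLaw (P ⊗[ZMod p] Q) :=
  addSer_smul_addLaw' p (natCast_zero p (P ⊗[ZMod p] Q)) _

theorem phi2C_map_01 (z : Cob Laz 1) :
    phi2C p t (Cob.map ![0, 1] z) = phiC p t z ⊗ₜ[ZMod p] (1 : P) := by
  rw [phi2C, Cob.ev_map_res, ch2_res_01]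
  have h : ch1 (tL p t P) (tL_mem p t P) =
      (ch1 (addSer p t) (addSer_mem p t)).map (iL p P P) := by
    rw [ch1_map]
    congr 1
    exact tL_eq p t P
  rw [h, Cob.ev_map]
  rfl

theorem phi2C_map_12 (z : Cob Laz 1) :
    phi2C p t (Cob.map ![1, 2] z) = (1 : P) ⊗ₜ[ZMod p] phiC p t z := by
  rw [phi2C, Cob.ev_map_res, ch2_res_12 _ (sR_mem p (addSer_mem p t)) _ (tL_smul p t P)]
  have h : ch1 (sR p P (addSer p t)) (sR_mem p (addSer_mem p t)) =
      (ch1 (addSer p t) (addSer_mem p t)).map (iR p P P) := by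
    rw [ch1_map]
    rfl
  rw [h, Cob.ev_map]
  rfl

/-- The comultiplication is composition of additive series. -/
theorem phi2C_map_02 (Δ : P →+* P ⊗[ZMod p] P)
    (hΔ : ∀ n, Δ (t n) = ∑ j ∈ Finset.range (n + 2),
      (ext1 t (n + 1 - j) ^ p ^ j) ⊗ₜ[ZMod p] ext1 t j) (z : Cob Laz 1) :
    phi2C p t (Cob.map ![0, 2] z) = Δ (phiC p t z) := by
  rw [phi2C, Cob.ev_map_res, ch2_res_02]
  have h : ch1 (sR p P (addSer p t) * tL p t P) (mul_mem (sR_mem p (addSer_mem p t))
      (tL_mem p t P)) = (ch1 (addSer p t) (addSer_mem p t)).map Δ := by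
    rw [ch1_map]
    congr 1
    have h1 : sR p P (addSer p t) = addSer p fun n => (1 : P) ⊗ₜ[ZMod p] t n := by
      rw [sR, map_addSer]
      rfl
    rw [h1, tL, addSer_mul' p (natCast_zero p (P ⊗[ZMod p] P)), map_addSer]
    congr 1
    funext n
    rw [hΔ]
    refine Finset.sum_congr rfl fun j _ => ?_
    have h2 : ∀ k, ext1 (fun n => (1 : P) ⊗ₜ[ZMod p] t n) k = (1 : P) ⊗ₜ[ZMod p] ext1 t k := by
      intro k
      rcases k with _ | k <;> rfl
    have h3 : ∀ k, ext1 (fun n => t n ⊗ₜ[ZMod p] (1 : P)) k = ext1 t k ⊗ₜ[ZMod p] (1 : P) := by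
      intro k
      rcases k with _ | k <;> rfl
    rw [h2, h3, Algebra.TensorProduct.tmul_pow, Algebra.TensorProduct.tmul_mul_tmul, one_pow,
      one_mul, mul_one]
  rw [h, Cob.ev_map]
  rfl

theorem th2C_map_01 (z : Cob Laz 1) :
    th2C p t (Cob.map ![0, 1] z) = phiC p t z ⊗ₜ[ZMod p] (1 : Fb p) := by
  rw [th2C, Cob.ev_map_res, ch2_res_01]
  have h : ch1 (tL p t (Fb p)) (tL_mem p t (Fb p)) =
      (ch1 (addSer p t) (addSer_mem p t)).map (iL p P (Fb p)) := by
    rw [ch1_map]
    congr 1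
    exact tL_eq p t (Fb p)
  rw [h, Cob.ev_map]
  rfl

theorem th2C_map_12 (z : Cob Laz 1) :
    th2C p t (Cob.map ![1, 2] z) = (1 : P) ⊗ₜ[ZMod p] thC p z := by
  rw [th2C, Cob.ev_map_res, ch2_res_12 _ (sR_mem p (bser_mem p)) _ (tL_smul p t (Fb p))]
  have h : ch1 (sR p P (bser p)) (sR_mem p (bser_mem p)) =
      (ch1 (bser p) (bser_mem p)).map (iR p P (Fb p)) := by
    rw [ch1_map]
    rfl
  rw [h, Cob.ev_map]
  rfl

theorem th2C_map_02 (z : Cob Laz 1) :
    th2C p t (Cob.map ![0, 2] z) = psiC p t (thC p z) := by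
  rw [th2C, Cob.ev_map_res, ch2_res_02]
  have h : ch1 (sR p P (bser p) * tL p t (Fb p)) (mul_mem (sR_mem p (bser_mem p))
      (tL_mem p t (Fb p))) = (ch1 (bser p) (bser_mem p)).map (psiC p t).toRingHom := by
    rw [ch1_map]
    congr 1
    have h1 : sR p P (bser p) * tL p t (Fb p) ∈ strict _ :=
      mul_mem (sR_mem p (bser_mem p)) (tL_mem p t (Fb p))
    have h2 := strictMk_c h1
    rw [← h2, bser, map_strictMk]
    congr 1
    funext n
    change _ = psiC p t (MvPolynomial.X n)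
    rw [psiC, MvPolynomial.aeval_X]
    rfl
  rw [h, Cob.ev_map]
  rfl

end Identities

end Vale.Agent.P093.N.Phi
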