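import Vale.Agent.P093.N.PhiT
import Vale.Agent.P093.N.PhiAlg
import Vale.Agent.P093.N.HCoact
import Vale.Agent.P093.N.HopfQuot

/-!
# P093, part N (N1-PHI): the data of the coaction for `MU` localized at `p`

`h : IsMULoc D u p` (`u : MU ⟶ R'` the localization at `p`), `P` a bialgebra over `𝔽_p` with a sequence
`t : ℕ → P` (`t k` = the usual `t_{k+1}`) such that `ε (t k) = 0`, `Δ t_n = ∑ t_i^(p^j) ⊗ t_j`:

* `pt h : Pt (stdEven T) R' p 0`;
* `phiT h t : π_{2*}(R' ⊗ R') → P`, `phi2T h t`, `thT h : π_{2*}(R' ⊗ R') → 𝔽_p[b]`, `th2T h t`;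
* `coDat h t hε hΔ : CoDat (stdEven T) R' p P`.
-/

open CategoryTheory MonoidalCategory Limits Pretriangulated MonObj Preadditive TensorProduct
open Vale.Agent.P251.I Vale.Agent.P251.T Vale.Agent.P251.F Vale.Agent.P251.S Vale.Agent.P251.M
open Vale.Agent.P251.M.EvenSpheres Vale.Agent.P093.PLoc Vale.Agent.P093.N0
open Vale.Agent.P093.N.Phi Vale.Agent.P093.N.HH Vale.Agent.P251.X

universe v u

set_option linter.unusedSectionVars false

noncomputable section

namespace Vale.Agent.P093.N.PhiT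

/-! ### Homogeneity of `epsC` -/

section wt

open Vale.Agent.P217

/-- `u x` is an automorphism of the additive law. -/
theorem lin_smul_addLaw {B : Type} [CommRing B] (u : Bˣ) :
    InvSeries.lin u • addLaw B = addLaw B := by
  rw [InvSeries.smul_eq_iff_isHom]
  refine ⟨(InvSeries.lin u).cc, ?_⟩
  have hX : ∀ i : Fin 2, PowerSeries.HasSubst (MvPowerSeries.X i : MvPowerSeries (Fin 2) B) :=
    fun i => hasSubst_of_cc (by simp)
  have hS : PowerSeries.HasSubst (MvPowerSeries.X 0 + MvPowerSeries.X 1 :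
      MvPowerSeries (Fin 2) B) := hasSubst_of_cc (by simp)
  have key : ∀ y : MvPowerSeries (Fin 2) B, PowerSeries.HasSubst y →
      PowerSeries.subst y (InvSeries.lin u).val = (u : B) • y := by
    intro y hy
    rw [InvSeries.lin_val, ← PowerSeries.smul_eq_C_mul, PowerSeries.subst_smul hy,
      PowerSeries.subst_X hy]
  have h2 : (MvPowerSeries.subst
        ![(PowerSeries.subst (MvPowerSeries.X 0 : MvPowerSeries (Fin 2) B)
            (InvSeries.lin u).val : MvPowerSeries (Fin 2) B),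
          (PowerSeries.subst (MvPowerSeries.X 1 : MvPowerSeries (Fin 2) B)
            (InvSeries.lin u).val : MvPowerSeries (Fin 2) B)]
        (MvPowerSeries.X 0 + MvPowerSeries.X 1 : MvPowerSeries (Fin 2) B) :
          MvPowerSeries (Fin 2) B) =
      PowerSeries.subst (MvPowerSeries.X 0 : MvPowerSeries (Fin 2) B) (InvSeries.lin u).val +
        PowerSeries.subst (MvPowerSeries.X 1 : MvPowerSeries (Fin 2) B)
          (InvSeries.lin u).val := by
    have hs : ∀ i : Fin 2, PowerSeries.HasSubst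
        (PowerSeries.subst (MvPowerSeries.X i : MvPowerSeries (Fin 2) B)
          (InvSeries.lin u).val : MvPowerSeries (Fin 2) B) :=
      fun i => hasSubst_of_cc (cc_subst_X0 (InvSeries.lin u).cc i)
    rw [← MvPowerSeries.coe_substAlgHom (hasSubst_pair (hs 0) (hs 1)), _root_.map_add,
      MvPowerSeries.substAlgHom_X, MvPowerSeries.substAlgHom_X]
    rfl
  change (PowerSeries.subst (MvPowerSeries.X 0 + MvPowerSeries.X 1 : MvPowerSeries (Fin 2) B)
    (InvSeries.lin u).val : MvPowerSeries (Fin 2) B) = _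
  rw [key _ hS, smul_add, ← key _ (hX 0), ← key _ (hX 1)]
  exact h2.symm

theorem ch0_scale {B : Type} [CommRing B] (u : Bˣ) : (ch0 B).scale u = ch0 B := by
  have h1 : (InvSeries.lin u)⁻¹ • addLaw B = addLaw B := by
    conv_lhs => rw [← lin_smul_addLaw u]
    rw [smul_smul, inv_mul_cancel, one_smul]
  refine chain_ext ?_ fun i => ?_
  · exact act_addLaw _ h1
  · change (InvSeries.lin u)⁻¹ * 1 * InvSeries.lin u = 1
    rw [_root_.mul_one, inv_mul_cancel]

variable (p : ℕ) [Fact p.Prime]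

/-- `epsC` vanishes in non zero degrees. -/
theorem epsC_of_isWt {w : ℤ} (hw : w ≠ 0) {z : Cob Laz 0} (hz : Cob.IsWt w z) :
    epsC p z = 0 := by
  have h1 := hz _ (ch0 (LaurentPolynomial (ZMod p))) (unitT (ZMod p))
  rw [ch0_scale, unitT_zpow, ev_ch0 p] at h1
  have h2 := congrArg (fun f : LaurentPolynomial (ZMod p) => f.coeff 0) h1
  have h3 : (algebraMap (ZMod p) (LaurentPolynomial (ZMod p)) (epsC p z)) =
      LaurentPolynomial.C (epsC p z) * LaurentPolynomial.T 0 := by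
    rw [LaurentPolynomial.T_zero, _root_.mul_one]
    rfl
  have h4 : LaurentPolynomial.T w *
      algebraMap (ZMod p) (LaurentPolynomial (ZMod p)) (epsC p z) =
        LaurentPolynomial.C (epsC p z) * LaurentPolynomial.T w := by
    rw [mul_comm]
    rfl
  beta_reduce at h2
  rw [h4, h3, coeff_C_mul_T, coeff_C_mul_T, if_pos rfl, if_neg hw] at h2
  exact h2

end wt

variable {T : Type u} [Category.{v} T] [Preadditive T] [HasZeroObject T]
    [HasShift T ℤ] [∀ n : ℤ, (shiftFunctor T n).Additive] [Pretriangulated T] [IsTriangulated T]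
    [MonoidalCategory T] [SymmetricCategory T] [TensorTriangulated T] [MonoidalClosed T]
    [HasCoproducts.{0} T] [HasProducts.{0} T] [StableCat T]

variable {D : MUData T} {R' : T} [MonObj R'] [IsCommMonObj R'] {u : D.R ⟶ R'} [IsMonHom u]
  {p : ℕ} [hpf : Fact p.Prime] (h : IsMULoc D u p)

/-- The homomorphism `π_{2*} R' → 𝔽_p`. -/
def chi : HRing (stdEven T) R' →+* ZMod p :=
  (extP h (epsC p) (natCast_zero p (ZMod p))).comp
    (HRing.map (E := stdEven T) (Am.v R' (0 : Fin 1)))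

theorem chi_apply (a : HRing (stdEven T) R') : chi h a =
    extP h (epsC p) (natCast_zero p (ZMod p))
      (HRing.map (E := stdEven T) (Am.v R' (0 : Fin 1)) a) := rfl

/-- The point `π_{2*} R' → 𝔽_p`, in the format of `Vtot`. -/
def pt : Pt (stdEven T) R' p 0 where
  χ := chi h
  χ_of j hj a := by
    obtain ⟨z, hz, hz'⟩ := exists_extP_of h 0 j (a ≫ Am.v R' (0 : Fin 1))
    rw [chi_apply, HRing.map_of, hz' (epsC p) (natCast_zero p (ZMod p))]
    refine epsC_of_isWt p ?_ hz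
    intro h0
    apply hj
    rw [h0]
    exact dvd_zero _
  v := (stdEven T).zero.inv ≫ η[R']
  χ_v := _root_.map_one (chi h)

@[simp] theorem pt_χ : (pt h).χ = chi h := rfl

section maps

variable {A : Type} [CommRing A] [Algebra (ZMod p) A] {n : ℕ} (g : Cob Laz n →+* A)

/-- Restriction of an extension to a vertex. -/
theorem extP_v (i : Fin (n + 1)) (hg : ∀ z : Cob Laz 0,
    g (Cob.map (fun _ => i) z) = algebraMap (ZMod p) A (epsC p z)) (a : HRing (stdEven T) R') :
    extP h g (natCast_zero p A) (HRing.map (E := stdEven T) (Am.v R' i) a) =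
      algebraMap (ZMod p) A ((pt h).χ a) := by
  have h1 : HRing.map (E := stdEven T) (Am.v R' i) a =
      HRing.map (E := stdEven T) (Am.map R' fun _ : Fin 1 => i)
        (HRing.map (E := stdEven T) (Am.v R' (0 : Fin 1)) a) :=
    (CoDat.HRing_map_map _ _ _ (Am.v_map R' (fun _ : Fin 1 => i) 0) a).symm
  rw [h1, extP_map h (epsC p) (natCast_zero p (ZMod p)) (fun _ : Fin 1 => i) g
    (natCast_zero p A) (algebraMap (ZMod p) A) hg]
  rfl

end maps

section P

variable {P : Type} [CommRing P] [Algebra (ZMod p) P] (t : ℕ → P)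

/-- `π_{2*}(R' ⊗ R') → P`. -/
def phiT : HRing (stdEven T) (Am R' 2) →+* P := extP h (phiC p t) (natCast_zero p P)

/-- `π_{2*}(R' ⊗ R' ⊗ R') → P ⊗ P`. -/
def phi2T : HRing (stdEven T) (Am R' 3) →+* P ⊗[ZMod p] P :=
  extP h (phi2C p t) (natCast_zero p (P ⊗[ZMod p] P))

/-- `π_{2*}(R' ⊗ R') → 𝔽_p[b]`. -/
def thT : HRing (stdEven T) (Am R' 2) →+* Fb p := extP h (thC p) (natCast_zero p (Fb p))

/-- `π_{2*}(R' ⊗ R' ⊗ R') → P ⊗ 𝔽_p[b]`. -/
def th2T : HRing (stdEven T) (Am R' 3) →+* P ⊗[ZMod p] Fb p :=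
  extP h (th2C p t) (natCast_zero p (P ⊗[ZMod p] Fb p))

theorem cons_zero_eq (i : Fin 2) : (![i] : Fin 1 → Fin 2) = fun _ => i := by
  funext j
  rw [Subsingleton.elim j 0]
  rfl

theorem phiT_v₀ (a : HRing (stdEven T) R') :
    phiT h t (HRing.map (E := stdEven T) (Am.v R' (0 : Fin 2)) a) =
      algebraMap (ZMod p) P ((pt h).χ a) :=
  extP_v h (phiC p t) 0 (fun z => by rw [← cons_zero_eq]; exact phiC_map_zero p t z) a

theorem phiT_v₁ (a : HRing (stdEven T) R') :
    phiT h t (HRing.map (E := stdEven T) (Am.v R' (1 : Fin 2)) a) =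
      algebraMap (ZMod p) P ((pt h).χ a) :=
  extP_v h (phiC p t) 1 (fun z => by rw [← cons_zero_eq]; exact phiC_map_one p t z) a

theorem thT_v₀ (a : HRing (stdEven T) R') :
    thT h (HRing.map (E := stdEven T) (Am.v R' (0 : Fin 2)) a) =
      algebraMap (ZMod p) (Fb p) ((pt h).χ a) :=
  extP_v h (thC p) 0 (fun z => by rw [← cons_zero_eq]; exact thC_map_zero p z) a

theorem phi2T_01 (z : HRing (stdEven T) (Am R' 2)) :
    phi2T h t (HRing.map (E := stdEven T) (Am.map R' ![0, 1]) z) = phiT h t z ⊗ₜ 1 :=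
  extP_map h (phiC p t) (natCast_zero p P) ![0, 1] (phi2C p t) _ (iL p P P)
    (phi2C_map_01 p t) z

theorem phi2T_12 (z : HRing (stdEven T) (Am R' 2)) :
    phi2T h t (HRing.map (E := stdEven T) (Am.map R' ![1, 2]) z) = 1 ⊗ₜ phiT h t z :=
  extP_map h (phiC p t) (natCast_zero p P) ![1, 2] (phi2C p t) _ (iR p P P)
    (phi2C_map_12 p t) z

theorem th2T_01 (z : HRing (stdEven T) (Am R' 2)) :
    th2T h t (HRing.map (E := stdEven T) (Am.map R' ![0, 1]) z) = phiT h t z ⊗ₜ 1 :=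
  extP_map h (phiC p t) (natCast_zero p P) ![0, 1] (th2C p t) _ (iL p P (Fb p))
    (th2C_map_01 p t) z

theorem th2T_12 (z : HRing (stdEven T) (Am R' 2)) :
    th2T h t (HRing.map (E := stdEven T) (Am.map R' ![1, 2]) z) = 1 ⊗ₜ thT h z :=
  extP_map h (thC p) (natCast_zero p (Fb p)) ![1, 2] (th2C p t) _ (iR p P (Fb p))
    (th2C_map_12 p t) z

theorem th2T_02 (z : HRing (stdEven T) (Am R' 2)) :
    th2T h t (HRing.map (E := stdEven T) (Am.map R' ![0, 2]) z) = psiC p t (thT h z) :=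
  extP_map h (thC p) (natCast_zero p (Fb p)) ![0, 2] (th2C p t) _ (psiC p t).toRingHom
    (th2C_map_02 p t) z

theorem phi2T_02 (Δ : P →+* P ⊗[ZMod p] P)
    (hΔ : ∀ n, Δ (t n) = ∑ j ∈ Finset.range (n + 2),
      (ext1 t (n + 1 - j) ^ p ^ j) ⊗ₜ[ZMod p] ext1 t j) (z : HRing (stdEven T) (Am R' 2)) :
    phi2T h t (HRing.map (E := stdEven T) (Am.map R' ![0, 2]) z) = Δ (phiT h t z) :=
  extP_map h (phiC p t) (natCast_zero p P) ![0, 2] (phi2C p t) _ Δ
    (phi2C_map_02 p t Δ hΔ) z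

theorem addSer_zero {B : Type} [CommRing B] : addSer p (fun _ : ℕ => (0 : B)) = 1 := by
  have h1 : (1 : InvSeries B) ∈ strict B := one_mem _
  have h2 := strictMk_c h1
  rw [← h2]
  unfold addSer
  congr 1
  funext m
  have h3 : (1 : InvSeries B).c (m + 1) = 0 := by
    change PowerSeries.coeff (m + 1 + 1) (PowerSeries.X : PowerSeries B) = 0
    rw [PowerSeries.coeff_X, if_neg (by omega)]
  rw [h3]
  split_ifs <;> rfl

/-- The counit. -/
theorem phiC_counit (ε : P →+* ZMod p) (hε : ∀ n, ε (t n) = 0) (z : Cob Laz 1) :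
    epsC p (Cob.map (fun _ : Fin 2 => (0 : Fin 1)) z) = ε (phiC p t z) := by
  have h1 : (ch1 (addSer p t) (addSer_mem p t)).map ε =
      (ch0 (ZMod p)).res fun _ : Fin 2 => (0 : Fin 1) := by
    rw [ch1_map]
    have h2 : InvSeries.map ε (addSer p t) = 1 := by
      rw [map_addSer]
      have h3 : (fun n => ε (t n)) = fun _ : ℕ => (0 : ZMod p) := funext hε
      exact (congrArg (addSer p) h3).trans addSer_zero
    refine chain_ext ?_ fun i => ?_
    · change _ = LawRing.act 1 _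
      exact (LawRing.act_one _).symm
    · fin_cases i
      · change (1 : InvSeries (ZMod p)) = 1 * 1⁻¹
        group
      · change InvSeries.map ε (addSer p t) = 1 * 1⁻¹
        rw [h2]
        group
  rw [epsC, Cob.ev_map_res, ← h1, Cob.ev_map]
  rfl

theorem phiT_counit (ε : P →+* ZMod p) (hε : ∀ n, ε (t n) = 0)
    (z : HRing (stdEven T) (Am R' 2)) :
    ε (phiT h t z) = (pt h).χ (HRing.map (E := stdEven T) (Am.lift fun _ : Fin 2 => 𝟙 R') z) := by
  have h1 := extP_map h (phiC p t) (natCast_zero p P) (fun _ : Fin 2 => (0 : Fin 1)) (epsC p)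
    (natCast_zero p (ZMod p)) ε (phiC_counit t ε hε) z
  refine h1.symm.trans ?_
  rw [pt_χ, chi_apply]
  congr 1
  refine (CoDat.HRing_map_map _ _ _ ?_ z).symm
  apply Am.hom_ext
  intro i
  rw [Am.v_lift_assoc, Category.id_comp, Am.v_map]

end P

/-- **The data of the coaction.** -/
def coDat {P : Type} [CommRing P] [Bialgebra (ZMod p) P] (t : ℕ → P)
    (hε : ∀ n, Coalgebra.counit (R := ZMod p) (t n) = 0)
    (hΔ : ∀ n, Coalgebra.comul (R := ZMod p) (t n) = ∑ j ∈ Finset.range (n + 2),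
      (ext1 t (n + 1 - j) ^ p ^ j) ⊗ₜ[ZMod p] ext1 t j) : CoDat (stdEven T) R' p P where
  c := pt h
  φ := phiT h t
  φ₂ := phi2T h t
  φ_v₀ := phiT_v₀ h t
  φ_v₁ := phiT_v₁ h t
  counit z := phiT_counit h t (Bialgebra.counitAlgHom (ZMod p) P).toRingHom hε z
  φ₂_01 := phi2T_01 h t
  φ₂_12 := phi2T_12 h t
  φ₂_02 z := phi2T_02 h t (Bialgebra.comulAlgHom (ZMod p) P).toRingHom hΔ z

/-! ### The instances `P_*` and its quotients -/

theorem ext1_succ {P : Type} [CommRing P] (t : ℕ → P) (h0 : t 0 = 1) (k : ℕ) :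
    ext1 (fun n => t (n + 1)) k = t k := by
  rcases k with _ | k
  · exact h0.symm
  · rfl

theorem comul_PS (n : ℕ) :
    Coalgebra.comul (R := ZMod p) (PS.t p (n + 1)) = ∑ j ∈ Finset.range (n + 2),
      (ext1 (fun n => PS.t p (n + 1)) (n + 1 - j) ^ p ^ j) ⊗ₜ[ZMod p]
        ext1 (fun n => PS.t p (n + 1)) j := by
  rw [PS.comul_t, ← Finset.Nat.sum_antidiagonal_swap,
    Finset.Nat.sum_antidiagonal_eq_sum_range_succ_mk]
  refine Finset.sum_congr rfl fun j _ => ?_
  rw [ext1_succ (PS.t p) (PS.t_zero p), ext1_succ (PS.t p) (PS.t_zero p)]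
  rfl

/-- The data of the coaction, for `P_*`. -/
def coDatPS : CoDat (stdEven T) R' p (PS p) :=
  coDat h (fun n => PS.t p (n + 1)) (PS.counit_t_succ p) comul_PS

theorem t_Pn_zero (m : ℕ) : Pn.t p m 0 = 1 := _root_.map_one (Pn.mk p m)

theorem counit_Pn (m n : ℕ) : Coalgebra.counit (R := ZMod p) (Pn.t p m (n + 1)) = 0 := by
  have h1 : Coalgebra.counit (R := ZMod p) (Pn.mk p m (PS.t p (n + 1))) =
      Coalgebra.counit (R := ZMod p) (PS.t p (n + 1)) :=
    CoalgHomClass.counit_comp_apply (Pn.mk p m) _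
  exact h1.trans (PS.counit_t_succ p n)

theorem comul_Pn (m n : ℕ) :
    Coalgebra.comul (R := ZMod p) (Pn.t p m (n + 1)) = ∑ j ∈ Finset.range (n + 2),
      (ext1 (fun n => Pn.t p m (n + 1)) (n + 1 - j) ^ p ^ j) ⊗ₜ[ZMod p]
        ext1 (fun n => Pn.t p m (n + 1)) j := by
  have h1 : Coalgebra.comul (R := ZMod p) (Pn.mk p m (PS.t p (n + 1))) =
      TensorProduct.map (Pn.mk p m : PS p →ₗ[ZMod p] Pn p m) (Pn.mk p m : PS p →ₗ[ZMod p] Pn p m)
        (Coalgebra.comul (R := ZMod p) (PS.t p (n + 1))) :=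
    (CoalgHomClass.map_comp_comul_apply (Pn.mk p m) _).symm
  refine h1.trans ?_
  rw [comul_PS, _root_.map_sum]
  refine Finset.sum_congr rfl fun j _ => ?_
  rw [TensorProduct.map_tmul, ext1_succ (PS.t p) (PS.t_zero p), ext1_succ (PS.t p) (PS.t_zero p),
    ext1_succ (Pn.t p m) (t_Pn_zero m), ext1_succ (Pn.t p m) (t_Pn_zero m)]
  congr 1

/-- The data of the coaction, for the quotient `Pn p m` of `P_*`. -/
def coDatPn (m : ℕ) : CoDat (stdEven T) R' p (Pn p m) :=
  coDat h (fun n => Pn.t p m (n + 1)) (counit_Pn m) (comul_Pn m)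

end Vale.Agent.P093.N.PhiT
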