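import Vale.Agent.P251.S.Ghost
import Mathlib.Tactic.Linarith

/-!
# P093, part N (TT): the tower lemma and the vanishing line classes

`T` is a tensor triangulated category, `U : UTri T` a distinguished triangle `I ⟶ 𝟙 ⟶ E ⟶ I⟦1⟧`
with a left unital multiplication on `E`.

* `U.Null f` : the map `f` is `E`-null
* `U.Inj M` : the unit map `M ⟶ E ⊗ M` is split mono
* `U.P s` : the powers of `I`, `U.π s : U.P (s + 1) ⟶ U.P s`
* `U.tower` : the tower lemma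
* `U.VL D b X` : the vanishing line classes; they are thick.
-/

open CategoryTheory MonoidalCategory Limits Pretriangulated

set_option linter.unusedSectionVars false

universe v u

namespace Vale.Agent.P093.N.TT

open Vale.Agent.P251.T Vale.Agent.P251.S

variable {T : Type u} [Category.{v} T] [Preadditive T] [HasZeroObject T]
    [HasShift T ℤ] [∀ n : ℤ, (shiftFunctor T n).Additive] [Pretriangulated T]
    [MonoidalCategory T] [SymmetricCategory T] [TensorTriangulated T]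

/-! ### compact coherence lemmas -/

/-- `f⟦1⟧` in terms of the tensor product with the circle -/
lemma shift_one_eq {X Y : T} (f : X ⟶ Y) : f⟦(1 : ℤ)⟧' =
    (TensorTriangulated.e X).inv ≫ f ▷ ((𝟙_ T)⟦(1 : ℤ)⟧) ≫ (TensorTriangulated.e Y).hom := by
  rw [TensorTriangulated.e_naturality, Iso.inv_hom_id_assoc]

variable (T) in
/-- A distinguished triangle `I ⟶ 𝟙 ⟶ E ⟶ I⟦1⟧` with a left unital multiplication on `E`. -/
structure UTri where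
  /-- the ring -/
  E : T
  /-- the fibre of the unit -/
  I : T
  /-- the unit -/
  u : 𝟙_ T ⟶ E
  /-- the inclusion of the fibre -/
  j : I ⟶ 𝟙_ T
  /-- the connecting map -/
  δ : E ⟶ I⟦(1 : ℤ)⟧
  dist : Triangle.mk j u δ ∈ distTriang T
  /-- the multiplication -/
  m : E ⊗ E ⟶ E
  unit_left : (u ▷ E) ≫ m = (λ_ E).hom

namespace UTri

variable (U : UTri T)

/-- the unit map `X ⟶ E ⊗ X` -/
def η (X : T) : X ⟶ U.E ⊗ X := (λ_ X).inv ≫ U.u ▷ X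

/-- the map `I ⊗ X ⟶ X` -/
def ε (X : T) : U.I ⊗ X ⟶ X := U.j ▷ X ≫ (λ_ X).hom

lemma j_u : U.j ≫ U.u = 0 := comp_distTriang_mor_zero₁₂ _ U.dist

lemma η_natural {X Y : T} (f : X ⟶ Y) : f ≫ U.η Y = U.η X ≫ U.E ◁ f := by
  unfold η
  rw [Category.assoc, ← whisker_exchange, ← Category.assoc, ← Category.assoc]
  congr 1
  rw [leftUnitor_inv_naturality]

lemma ε_natural {X Y : T} (f : X ⟶ Y) : U.I ◁ f ≫ U.ε Y = U.ε X ≫ f := by
  unfold ε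
  rw [← Category.assoc, whisker_exchange, Category.assoc, Category.assoc]
  congr 1
  rw [leftUnitor_naturality]

lemma η_tensor (X Z : T) : U.η (X ⊗ Z) = U.η X ▷ Z ≫ (α_ U.E X Z).hom := by
  unfold η
  simp

lemma ε_tensor (X Z : T) : (α_ U.I X Z).inv ≫ U.ε X ▷ Z = U.ε (X ⊗ Z) := by
  unfold ε
  simp

/-- `f` is `E`-null. -/
def Null {X Y : T} (f : X ⟶ Y) : Prop := f ≫ U.η Y = 0

/-- the unit map of `M` is split mono. -/
def Inj (M : T) : Prop := ∃ r : U.E ⊗ M ⟶ M, U.η M ≫ r = 𝟙 M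

variable {U}

lemma Null.comp_left {X Y Z : T} {f : X ⟶ Y} (h : U.Null f) (g : Z ⟶ X) : U.Null (g ≫ f) := by
  unfold Null at *
  rw [Category.assoc, h, comp_zero]

lemma Null.comp_right {X Y Z : T} {f : X ⟶ Y} (h : U.Null f) (g : Y ⟶ Z) : U.Null (f ≫ g) := by
  unfold Null at *
  rw [Category.assoc, U.η_natural, ← Category.assoc, h, zero_comp]

lemma null_zero {X Y : T} : U.Null (0 : X ⟶ Y) := zero_comp

lemma Null.whiskerRight {X Y : T} {f : X ⟶ Y} (h : U.Null f) (Z : T) : U.Null (f ▷ Z) := by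
  unfold Null at *
  rw [η_tensor, ← Category.assoc, ← comp_whiskerRight, h, MonoidalPreadditive.zero_whiskerRight,
    zero_comp]

lemma Null.whiskerLeft {X Y : T} {f : X ⟶ Y} (h : U.Null f) (Z : T) : U.Null (Z ◁ f) := by
  have h1 : Z ◁ f = (β_ Z X).hom ≫ f ▷ Z ≫ (β_ Z Y).inv := by
    rw [← Category.assoc, ← BraidedCategory.braiding_naturality_right, Category.assoc,
      Iso.hom_inv_id, Category.comp_id]
  rw [h1]
  exact ((h.whiskerRight Z).comp_right _).comp_left _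

lemma Null.shift {X Y : T} {f : X ⟶ Y} (h : U.Null f) : U.Null (f⟦(1 : ℤ)⟧') := by
  rw [shift_one_eq]
  exact ((h.whiskerRight _).comp_right _).comp_left _

lemma null_ε (X : T) : U.Null (U.ε X) := by
  unfold Null ε η
  rw [Category.assoc, Iso.hom_inv_id_assoc, ← comp_whiskerRight, U.j_u,
    MonoidalPreadditive.zero_whiskerRight]

/-- `E`-null maps lift through `I ⊗ X ⟶ X` -/
lemma Null.lift {A X : T} {f : A ⟶ X} (h : U.Null f) : ∃ g : A ⟶ U.I ⊗ X, g ≫ U.ε X = f := by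
  obtain ⟨g, hg⟩ := exR₂ U.dist X (f ≫ (λ_ X).inv) (by
    rw [Category.assoc]; exact h)
  refine ⟨g, ?_⟩
  unfold ε
  rw [← Category.assoc, ← hg, Category.assoc, Iso.inv_hom_id, Category.comp_id]

lemma Inj.comp_eq_zero {M : T} (hM : U.Inj M) {X Y : T} {f : X ⟶ Y} (h : U.Null f) (g : Y ⟶ M) :
    f ≫ g = 0 := by
  obtain ⟨r, hr⟩ := hM
  have h1 : (f ≫ g) ≫ U.η M = 0 := h.comp_right g
  calc f ≫ g = (f ≫ g) ≫ 𝟙 M := (Category.comp_id _).symm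
    _ = ((f ≫ g) ≫ U.η M) ≫ r := by rw [← hr]; simp only [Category.assoc]
    _ = 0 := by rw [h1, zero_comp]

lemma Inj.ε_eq_zero {M : T} (hM : U.Inj M) : U.ε M = 0 := by
  simpa using hM.comp_eq_zero (null_ε M) (𝟙 M)

lemma inj_E : U.Inj U.E := ⟨U.m, by
  unfold η
  rw [Category.assoc, U.unit_left, Iso.inv_hom_id]⟩

lemma Inj.retract {M N : T} (hM : U.Inj M) (a : N ⟶ M) (b : M ⟶ N) (hab : a ≫ b = 𝟙 N) :
    U.Inj N := by
  obtain ⟨r, hr⟩ := hM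
  refine ⟨U.E ◁ a ≫ r ≫ b, ?_⟩
  rw [← Category.assoc, ← η_natural, Category.assoc, ← Category.assoc (U.η M), hr,
    Category.id_comp, hab]

lemma Inj.of_iso {M N : T} (hM : U.Inj M) (e : M ≅ N) : U.Inj N :=
  hM.retract e.inv e.hom e.inv_hom_id

lemma Inj.tensor {M : T} (hM : U.Inj M) (Z : T) : U.Inj (M ⊗ Z) := by
  obtain ⟨r, hr⟩ := hM
  refine ⟨(α_ _ _ _).inv ≫ r ▷ Z, ?_⟩
  rw [η_tensor, Category.assoc, Iso.hom_inv_id_assoc, ← comp_whiskerRight, hr, id_whiskerRight]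

lemma Inj.tensorLeft {M : T} (hM : U.Inj M) (Z : T) : U.Inj (Z ⊗ M) :=
  (hM.tensor Z).of_iso (β_ M Z)

lemma inj_E_tensor (Z : T) : U.Inj (U.E ⊗ Z) := inj_E.tensor Z

lemma Inj.shift {M : T} (hM : U.Inj M) : U.Inj (M⟦(1 : ℤ)⟧) :=
  (hM.tensor _).of_iso (TensorTriangulated.e M)

variable (U)

/-- The triangle `I ⊗ X ⟶ X ⟶ E ⊗ X`. -/
lemma exists_dist (X : T) : ∃ d : U.E ⊗ X ⟶ (U.I ⊗ X)⟦(1 : ℤ)⟧,
    Triangle.mk (U.ε X) (U.η X) d ∈ distTriang T := by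
  have key : ∀ (h : X ⊗ U.E ⟶ (X ⊗ U.I)⟦(1 : ℤ)⟧),
      Triangle.mk (X ◁ U.j) (X ◁ U.u) h ∈ distTriang T →
      ∃ d : U.E ⊗ X ⟶ (U.I ⊗ X)⟦(1 : ℤ)⟧, Triangle.mk (U.ε X) (U.η X) d ∈ distTriang T := by
    intro h hh
    refine ⟨(β_ X U.E).inv ≫ h ≫ (β_ X U.I).hom⟦(1 : ℤ)⟧', isomorphic_distinguished _ hh _ ?_⟩
    refine Triangle.isoMk _ _ (β_ X U.I).symm (ρ_ X).symm (β_ X U.E).symm ?_ ?_ ?_
    · change (U.j ▷ X ≫ (λ_ X).hom) ≫ (ρ_ X).inv = (β_ X U.I).inv ≫ X ◁ U.j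
      rw [Iso.eq_inv_comp, ← Category.assoc, Iso.comp_inv_eq, ← Category.assoc,
        ← BraidedCategory.braiding_naturality_right, Category.assoc, braiding_leftUnitor]
    · change ((λ_ X).inv ≫ U.u ▷ X) ≫ (β_ X U.E).inv = (ρ_ X).inv ≫ X ◁ U.u
      have h1 : X ◁ U.u ≫ (β_ X U.E).hom = (β_ X (𝟙_ T)).hom ≫ U.u ▷ X :=
        BraidedCategory.braiding_naturality_right X U.u
      rw [Iso.comp_inv_eq, Category.assoc, h1, ← Category.assoc]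
      congr 1
      rw [Iso.eq_inv_comp, Iso.comp_inv_eq, braiding_leftUnitor]
    · change ((β_ X U.E).inv ≫ h ≫ (β_ X U.I).hom⟦(1 : ℤ)⟧') ≫ ((β_ X U.I).inv)⟦(1 : ℤ)⟧' =
        (β_ X U.E).inv ≫ h
      rw [Category.assoc, Category.assoc, ← Functor.map_comp, Iso.hom_inv_id,
        CategoryTheory.Functor.map_id, Category.comp_id]
  obtain ⟨h, -, hh⟩ := triL X _ U.dist
  exact key h hh

/-! ### shifts -/

variable {U}

lemma Inj.of_shift_inj {M : T} (hM : U.Inj M) : U.Inj (M⟦(1 : ℤ)⟧) := hM.shift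

lemma η_shift (Z : T) : (U.η Z)⟦(1 : ℤ)⟧' ≫ (tsh U.E Z).hom = U.η (Z⟦(1 : ℤ)⟧) := by
  rw [shift_one_eq]
  simp only [tsh, Iso.trans_hom, Iso.symm_hom, whiskerLeftIso_hom, Category.assoc,
    Iso.hom_inv_id_assoc]
  rw [← Category.assoc (U.η Z ▷ _), ← η_tensor, ← η_natural, Iso.inv_hom_id_assoc]

lemma ε_shift (Z : T) : (tsh U.I Z).hom ≫ U.ε (Z⟦(1 : ℤ)⟧) = (U.ε Z)⟦(1 : ℤ)⟧' := by
  rw [shift_one_eq (U.ε Z)]
  simp only [tsh, Iso.trans_hom, Iso.symm_hom, whiskerLeftIso_hom, Category.assoc]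
  rw [ε_natural, ← ε_tensor, Category.assoc, Iso.hom_inv_id_assoc]

lemma null_shift_iff {X Y : T} {f : X ⟶ Y} : U.Null (f⟦(1 : ℤ)⟧') ↔ U.Null f := by
  refine ⟨fun h => ?_, fun h => h.shift⟩
  unfold Null at *
  rw [← η_shift, ← Category.assoc, ← Functor.map_comp] at h
  have h1 : (f ≫ U.η Y)⟦(1 : ℤ)⟧' = 0 := by
    rw [← cancel_mono (tsh U.E Y).hom, h, zero_comp]
  apply (shiftFunctor T (1 : ℤ)).map_injective
  rw [h1, Functor.map_zero]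

/-! ### Adams filtration -/

/-- `U.AF k f` : the map `f` is a composite of `k` `E`-null maps. -/
def AF (U : UTri T) : ℕ → ∀ {X Y : T}, (X ⟶ Y) → Prop
  | 0, _, _, _ => True
  | k + 1, X, Y, f => ∃ (Z : T) (g : X ⟶ Z) (h : Z ⟶ Y), U.Null g ∧ AF U k h ∧ g ≫ h = f

lemma AF_zero {X Y : T} (f : X ⟶ Y) : U.AF 0 f := trivial

lemma AF_succ_iff {k : ℕ} {X Y : T} (f : X ⟶ Y) : U.AF (k + 1) f ↔
    ∃ (Z : T) (g : X ⟶ Z) (h : Z ⟶ Y), U.Null g ∧ U.AF k h ∧ g ≫ h = f := Iff.rfl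

lemma AF.comp_left {k : ℕ} {X Y Z : T} {f : X ⟶ Y} (hf : U.AF k f) (g : Z ⟶ X) :
    U.AF k (g ≫ f) := by
  cases k with
  | zero => trivial
  | succ k =>
    obtain ⟨W, a, b, ha, hb, rfl⟩ := hf
    exact ⟨W, g ≫ a, b, ha.comp_left g, hb, by rw [Category.assoc]⟩

lemma AF.comp_right {k : ℕ} : ∀ {X Y Z : T} {f : X ⟶ Y} (_ : U.AF k f) (g : Y ⟶ Z),
    U.AF k (f ≫ g) := by
  induction k with
  | zero => intros; trivial
  | succ k ih =>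
    intro X Y Z f hf g
    obtain ⟨W, a, b, ha, hb, rfl⟩ := hf
    exact ⟨W, a, b ≫ g, ha, ih hb g, by rw [Category.assoc]⟩

lemma AF.comp {k l : ℕ} : ∀ {X Y Z : T} {f : X ⟶ Y} {g : Y ⟶ Z} (_ : U.AF k f) (_ : U.AF l g),
    U.AF (l + k) (f ≫ g) := by
  induction k with
  | zero => intro X Y Z f g _ hg; exact hg.comp_left f
  | succ k ih =>
    intro X Y Z f g hf hg
    obtain ⟨W, a, b, ha, hb, rfl⟩ := hf
    exact ⟨W, a, b ≫ g, ha, ih hb hg, by rw [Category.assoc]⟩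

lemma AF.split {k l : ℕ} : ∀ {X Y : T} {f : X ⟶ Y} (_ : U.AF (l + k) f),
    ∃ (Z : T) (g : X ⟶ Z) (h : Z ⟶ Y), U.AF k g ∧ U.AF l h ∧ g ≫ h = f := by
  induction k with
  | zero => intro X Y f hf; exact ⟨X, 𝟙 X, f, trivial, hf, Category.id_comp f⟩
  | succ k ih =>
    intro X Y f hf
    obtain ⟨W, a, b, ha, hb, rfl⟩ := hf
    obtain ⟨Z, g, h, hg, hh, rfl⟩ := ih hb
    exact ⟨Z, a ≫ g, h, ⟨W, a, g, ha, hg, rfl⟩, hh, by rw [Category.assoc]⟩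

lemma AF.of_succ {k : ℕ} {X Y : T} {f : X ⟶ Y} (hf : U.AF (k + 1) f) : U.AF k f := by
  obtain ⟨W, a, b, -, hb, rfl⟩ := hf
  exact hb.comp_left a

lemma AF.of_le {k l : ℕ} (h : k ≤ l) {X Y : T} {f : X ⟶ Y} (hf : U.AF l f) : U.AF k f := by
  induction l, h using Nat.le_induction with
  | base => exact hf
  | succ l _ ih => exact ih hf.of_succ

lemma AF_one_iff {X Y : T} {f : X ⟶ Y} : U.AF 1 f ↔ U.Null f := by
  constructor
  · rintro ⟨Z, g, h, hg, -, rfl⟩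
    exact hg.comp_right h
  · intro h
    exact ⟨Y, f, 𝟙 Y, h, trivial, Category.comp_id f⟩

lemma Null.AF {X Y : T} {f : X ⟶ Y} (h : U.Null f) : U.AF 1 f := AF_one_iff.2 h

lemma AF.whiskerRight {k : ℕ} : ∀ {X Y : T} {f : X ⟶ Y} (_ : U.AF k f) (Z : T),
    U.AF k (f ▷ Z) := by
  induction k with
  | zero => intros; trivial
  | succ k ih =>
    intro X Y f hf Z
    obtain ⟨W, a, b, ha, hb, rfl⟩ := hf
    exact ⟨W ⊗ Z, a ▷ Z, b ▷ Z, ha.whiskerRight Z, ih hb Z, by rw [comp_whiskerRight]⟩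

lemma AF.whiskerLeft {k : ℕ} : ∀ {X Y : T} {f : X ⟶ Y} (_ : U.AF k f) (Z : T),
    U.AF k (Z ◁ f) := by
  induction k with
  | zero => intros; trivial
  | succ k ih =>
    intro X Y f hf Z
    obtain ⟨W, a, b, ha, hb, rfl⟩ := hf
    exact ⟨Z ⊗ W, Z ◁ a, Z ◁ b, ha.whiskerLeft Z, ih hb Z, by rw [whiskerLeft_comp]⟩

lemma AF_shift_iff {k : ℕ} : ∀ {X Y : T} {f : X ⟶ Y}, U.AF k (f⟦(1 : ℤ)⟧') ↔ U.AF k f := by
  induction k with
  | zero => intros; exact Iff.rfl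
  | succ k ih =>
    intro X Y f
    constructor
    · rintro ⟨W, a, b, ha, hb, hab⟩
      let i : W ≅ (W⟦(-1 : ℤ)⟧)⟦(1 : ℤ)⟧ :=
        ((shiftFunctorCompIsoId T (-1 : ℤ) 1 (by simp)).app W).symm
      let a' : X ⟶ W⟦(-1 : ℤ)⟧ := (shiftFunctor T (1 : ℤ)).preimage (a ≫ i.hom)
      let b' : W⟦(-1 : ℤ)⟧ ⟶ Y := (shiftFunctor T (1 : ℤ)).preimage (i.inv ≫ b)
      refine ⟨W⟦(-1 : ℤ)⟧, a', b', ?_, ?_, ?_⟩
      · rw [← null_shift_iff, Functor.map_preimage]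
        exact ha.comp_right _
      · rw [← ih, Functor.map_preimage]
        exact hb.comp_left _
      · apply (shiftFunctor T (1 : ℤ)).map_injective
        rw [Functor.map_comp, Functor.map_preimage, Functor.map_preimage, Category.assoc,
          Iso.hom_inv_id_assoc, hab]
    · rintro ⟨W, a, b, ha, hb, rfl⟩
      exact ⟨W⟦(1 : ℤ)⟧, a⟦(1 : ℤ)⟧', b⟦(1 : ℤ)⟧', ha.shift, ih.2 hb, by rw [Functor.map_comp]⟩

/-! ### the powers of `I` -/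

/-- `U.Q s X = I ⊗ (I ⊗ ⋯ ⊗ (I ⊗ X))` with `s` factors `I` -/
def Q (U : UTri T) : ℕ → T → T
  | 0, X => X
  | s + 1, X => U.I ⊗ U.Q s X

/-- the functoriality of `U.Q s` -/
def Qm (U : UTri T) : ∀ (s : ℕ) {X Y : T} (_ : X ⟶ Y), U.Q s X ⟶ U.Q s Y
  | 0, _, _, f => f
  | s + 1, _, _, f => U.I ◁ Qm U s f

/-- the projection `U.Q (s + k) X ⟶ U.Q s X` -/
def pr (U : UTri T) (s : ℕ) : ∀ (k : ℕ) (X : T), U.Q (s + k) X ⟶ U.Q s X
  | 0, _ => 𝟙 _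
  | k + 1, X => U.ε (U.Q (s + k) X) ≫ pr U s k X

lemma Q_succ (s : ℕ) (X : T) : U.Q (s + 1) X = U.I ⊗ U.Q s X := rfl

lemma Qm_id (s : ℕ) (X : T) : U.Qm s (𝟙 X) = 𝟙 _ := by
  induction s with
  | zero => rfl
  | succ s ih => change U.I ◁ U.Qm s (𝟙 X) = 𝟙 _; rw [ih]; exact whiskerLeft_id _ _

lemma Qm_comp (s : ℕ) {X Y Z : T} (f : X ⟶ Y) (g : Y ⟶ Z) :
    U.Qm s (f ≫ g) = U.Qm s f ≫ U.Qm s g := by
  induction s with
  | zero => rfl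
  | succ s ih =>
    change U.I ◁ U.Qm s (f ≫ g) = U.I ◁ U.Qm s f ≫ U.I ◁ U.Qm s g
    rw [ih, whiskerLeft_comp]

lemma Qm_zero (s : ℕ) (X Y : T) : U.Qm s (0 : X ⟶ Y) = 0 := by
  induction s with
  | zero => rfl
  | succ s ih =>
    change U.I ◁ U.Qm s (0 : X ⟶ Y) = 0
    rw [ih, MonoidalPreadditive.whiskerLeft_zero]

lemma pr_natural (s k : ℕ) {X Y : T} (f : X ⟶ Y) :
    U.pr s k X ≫ U.Qm s f = U.Qm (s + k) f ≫ U.pr s k Y := by
  induction k with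
  | zero =>
    change 𝟙 _ ≫ U.Qm s f = U.Qm s f ≫ 𝟙 _
    rw [Category.id_comp, Category.comp_id]
  | succ k ih =>
    change (U.ε (U.Q (s + k) X) ≫ U.pr s k X) ≫ U.Qm s f =
      (U.I ◁ U.Qm (s + k) f) ≫ U.ε (U.Q (s + k) Y) ≫ U.pr s k Y
    rw [Category.assoc, ih, ← Category.assoc, ← Category.assoc, ε_natural]

lemma AF_pr (s k : ℕ) (X : T) : U.AF k (U.pr s k X) := by
  induction k with
  | zero => trivial
  | succ k ih => exact ⟨_, _, _, null_ε _, ih, rfl⟩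

/-- maps of Adams filtration `k` lift through `U.pr s k X` -/
lemma AF.lift {k : ℕ} : ∀ {s : ℕ} {X Z : T} {f : Z ⟶ U.Q s X} (_ : U.AF k f),
    ∃ g : Z ⟶ U.Q (s + k) X, g ≫ U.pr s k X = f := by
  induction k with
  | zero => intro s X Z f _; exact ⟨f, Category.comp_id f⟩
  | succ k ih =>
    intro s X Z f hf
    obtain ⟨W, a, b, ha, hb, rfl⟩ := hf
    obtain ⟨g, rfl⟩ := ih hb
    obtain ⟨h, hh⟩ := (ha.comp_right g).lift
    refine ⟨h, ?_⟩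
    change h ≫ U.ε (U.Q (s + k) X) ≫ U.pr s k X = a ≫ g ≫ U.pr s k X
    rw [← Category.assoc, hh, Category.assoc]

lemma AF.lift_split {k l : ℕ} {s : ℕ} {X Z : T} {f : Z ⟶ U.Q s X} (hf : U.AF (k + l) f) :
    ∃ g : Z ⟶ U.Q (s + k) X, U.AF l g ∧ g ≫ U.pr s k X = f := by
  obtain ⟨W, a, b, ha, hb, rfl⟩ := hf.split
  obtain ⟨g, rfl⟩ := hb.lift
  exact ⟨a ≫ g, ha.comp_right g, by rw [Category.assoc]⟩

/-- `U.Q s` preserves distinguished triangles -/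
lemma Q_dist (s : ℕ) {X Y Z : T} {f : X ⟶ Y} {g : Y ⟶ Z} {h : Z ⟶ X⟦(1 : ℤ)⟧}
    (hΔ : Triangle.mk f g h ∈ distTriang T) :
    ∃ h' : U.Q s Z ⟶ (U.Q s X)⟦(1 : ℤ)⟧,
      Triangle.mk (U.Qm s f) (U.Qm s g) h' ∈ distTriang T := by
  induction s with
  | zero => exact ⟨h, hΔ⟩
  | succ s ih =>
    obtain ⟨h', hh'⟩ := ih
    obtain ⟨h'', -, hh''⟩ := triL U.I _ hh'
    exact ⟨h'', hh''⟩

/-- The isomorphism `(U.Q s X)⟦1⟧ ≅ U.Q s (X⟦1⟧)` -/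
def Qsh (U : UTri T) : ∀ (s : ℕ) (X : T), (U.Q s X)⟦(1 : ℤ)⟧ ≅ U.Q s (X⟦(1 : ℤ)⟧)
  | 0, _ => Iso.refl _
  | s + 1, X => tsh U.I (U.Q s X) ≪≫ whiskerLeftIso U.I (Qsh U s X)

/-! ### The tower lemma -/

lemma tower_step {Z F F' M : T} {t : F' ⟶ F} {q : F ⟶ M} {d : M ⟶ F'⟦(1 : ℤ)⟧}
    (hd : Triangle.mk t q d ∈ distTriang T) (ht : U.Null t) (hM : U.Inj M)
    (α : Z ⟶ F) (β : F ⟶ Z) (h : U.ε Z ≫ (α ≫ β - 𝟙 Z) = 0) :
    ∃ (α' : U.I ⊗ Z ⟶ F') (β' : F' ⟶ U.I ⊗ Z),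
      U.ε (U.I ⊗ Z) ≫ (α' ≫ β' - 𝟙 _) = 0 ∧ ∃ b : F' ⟶ Z, α' ≫ b = U.ε Z := by
  obtain ⟨κ, hκ'⟩ := ex₂ hd (U.ε F) (by rw [← ε_natural, hM.ε_eq_zero, comp_zero])
  have hκ : κ ≫ t = U.ε F := hκ'.symm
  obtain ⟨lam, hlam⟩ := ht.lift
  have h1 : (U.I ◁ α ≫ κ) ≫ t = U.ε Z ≫ α := by
    rw [Category.assoc, hκ, ε_natural]
  have h2 : (lam ≫ U.I ◁ β) ≫ U.ε Z = t ≫ β := by
    rw [Category.assoc, ε_natural, ← Category.assoc, hlam]
  refine ⟨U.I ◁ α ≫ κ, lam ≫ U.I ◁ β, ?_, t ≫ β, ?_⟩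
  · set x : U.I ⊗ Z ⟶ U.I ⊗ Z := (U.I ◁ α ≫ κ) ≫ lam ≫ U.I ◁ β - 𝟙 _ with hx
    have h3 : x ≫ U.ε Z = 0 := by
      rw [hx, Preadditive.sub_comp, Category.assoc, h2, ← Category.assoc, h1, Category.id_comp,
        ← h, Preadditive.comp_sub, Category.comp_id, Category.assoc]
    obtain ⟨δ', hδ'⟩ := U.exists_dist Z
    obtain ⟨y, hy⟩ := ex₁ hδ' (x⟦(1 : ℤ)⟧') (by
      rw [← Functor.map_comp, h3, Functor.map_zero])
    apply (shiftFunctor T (1 : ℤ)).map_injective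
    rw [Functor.map_comp, hy, ← Category.assoc,
      (inj_E_tensor (U := U) _).comp_eq_zero (null_shift_iff.2 (null_ε _)) y, zero_comp,
      Functor.map_zero]
  · rw [← Category.assoc, h1]
    rw [Preadditive.comp_sub, sub_eq_zero, Category.comp_id, ← Category.assoc] at h
    exact h

/-- **The tower lemma.** If the maps `t s` of the tower `F (s + 1) ⟶ F s` are `E`-null with
cofibre maps into `E`-injective objects, then `I ⊗ Q s F₀ ⟶ Q s F₀` factors through `F (s + 1)`. -/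
theorem tower (F M : ℕ → T) (t : ∀ s, F (s + 1) ⟶ F s) (q : ∀ s, F s ⟶ M s)
    (d : ∀ s, M s ⟶ (F (s + 1))⟦(1 : ℤ)⟧)
    (hd : ∀ s, Triangle.mk (t s) (q s) (d s) ∈ distTriang T)
    (ht : ∀ s, U.Null (t s)) (hM : ∀ s, U.Inj (M s)) (s : ℕ) :
    ∃ (a : U.I ⊗ U.Q s (F 0) ⟶ F (s + 1)) (b : F (s + 1) ⟶ U.Q s (F 0)),
      a ≫ b = U.ε (U.Q s (F 0)) := by
  have key : ∀ s, ∃ (α : U.Q s (F 0) ⟶ F s) (β : F s ⟶ U.Q s (F 0)),
      U.ε (U.Q s (F 0)) ≫ (α ≫ β - 𝟙 _) = 0 := by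
    intro s
    induction s with
    | zero =>
      refine ⟨𝟙 (F 0), 𝟙 (F 0), ?_⟩
      change U.ε (F 0) ≫ (𝟙 (F 0) ≫ 𝟙 (F 0) - 𝟙 (F 0)) = 0
      rw [Category.comp_id, sub_self, comp_zero]
    | succ s ih =>
      obtain ⟨α, β, h⟩ := ih
      obtain ⟨α', β', h', -⟩ := tower_step (hd s) (ht s) (hM s) α β h
      exact ⟨α', β', h'⟩
  obtain ⟨α, β, h⟩ := key s
  obtain ⟨α', β', -, b, hb⟩ := tower_step (hd s) (ht s) (hM s) α β h
  exact ⟨α', b, hb⟩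

/-! ### The vanishing line classes -/

/-- The class of objects with a vanishing line of slope `b`, with respect to the classes
`D n` of `test objects of dimension at most n`. -/
def VL (U : UTri T) (D : ℤ → T → Prop) (b : ℤ) (X : T) : Prop :=
  ∃ (r : ℕ) (c : ℤ), ∀ (s : ℕ) (n : ℤ) (W : T), D n W → n + c < b * s →
    ∀ g : W ⟶ U.Q s X, U.AF r g → g = 0

section VL

variable {D : ℤ → T → Prop} {b : ℤ}

lemma VL.zero {X : T} (hX : IsZero X) : U.VL D b X := by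
  refine ⟨0, 0, fun s n W _ _ g _ => ?_⟩
  rw [← Category.comp_id g, ← Qm_id, hX.eq_of_src (𝟙 X) 0, Qm_zero, comp_zero]

lemma VL.retract {X Y : T} (hX : U.VL D b X) (i : Y ⟶ X) (p : X ⟶ Y) (hip : i ≫ p = 𝟙 Y) :
    U.VL D b Y := by
  obtain ⟨r, c, h⟩ := hX
  refine ⟨r, c, fun s n W hW hn g hg => ?_⟩
  have h1 : g ≫ U.Qm s i = 0 := h s n W hW hn _ (hg.comp_right _)
  rw [← Category.comp_id g, ← Qm_id, ← hip, Qm_comp, ← Category.assoc, h1, zero_comp]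

lemma VL.of_iso {X Y : T} (hX : U.VL D b X) (e : X ≅ Y) : U.VL D b Y :=
  hX.retract e.inv e.hom e.inv_hom_id

lemma VL.ext {X Y Z : T} (hb : 0 ≤ b) (hX : U.VL D b X) (hZ : U.VL D b Z) {f : X ⟶ Y} {g : Y ⟶ Z}
    {h : Z ⟶ X⟦(1 : ℤ)⟧} (hΔ : Triangle.mk f g h ∈ distTriang T) : U.VL D b Y := by
  obtain ⟨r, c, h1⟩ := hX
  obtain ⟨r', c', h2⟩ := hZ
  refine ⟨r + r', max c c', fun s n W hW hn a ha => ?_⟩
  obtain ⟨a', ha', rfl⟩ := ha.lift_split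
  have h3 : a' ≫ U.Qm (s + r) g = 0 := by
    refine h2 (s + r) n W hW ?_ _ (ha'.comp_right _)
    have : (b * s : ℤ) ≤ b * ((s + r : ℕ) : ℤ) := by
      push_cast
      nlinarith [mul_nonneg hb (Int.natCast_nonneg r)]
    have := le_max_right c c'
    linarith
  obtain ⟨h', hh'⟩ := U.Q_dist (s + r) hΔ
  obtain ⟨a'', rfl⟩ := ex₂ hh' a' h3
  rw [Category.assoc, ← pr_natural, ← Category.assoc]
  have h4 : a'' ≫ U.pr s r X = 0 := by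
    refine h1 s n W hW ?_ _ ((AF_pr s r X).comp_left _)
    have := le_max_left c c'
    linarith
  rw [h4, zero_comp]

lemma VL.shift {X : T} (hD : ∀ n W, D n W → D (n - 1) (W⟦(-1 : ℤ)⟧)) (hX : U.VL D b X) :
    U.VL D b (X⟦(1 : ℤ)⟧) := by
  obtain ⟨r, c, h⟩ := hX
  refine ⟨r, c + 1, fun s n W hW hn g hg => ?_⟩
  obtain ⟨e, g', hg'⟩ := exists_unshift (1 : ℤ) (g ≫ (U.Qsh s X).inv)
  have h1 : g' = 0 := by
    refine h s (n - 1) _ (hD n W hW) (by linarith) g' ?_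
    rw [← AF_shift_iff]
    have h2 : g'⟦(1 : ℤ)⟧' = e.inv ≫ g ≫ (U.Qsh s X).inv := by
      rw [hg', Iso.inv_hom_id_assoc]
    rw [h2]
    exact (hg.comp_right _).comp_left _
  rw [h1, Functor.map_zero, comp_zero] at hg'
  rw [← cancel_mono (U.Qsh s X).inv, hg', zero_comp]

lemma VL.of_shift {X : T} (hD : ∀ n W, D n W → D (n + 1) (W⟦(1 : ℤ)⟧))
    (hX : U.VL D b (X⟦(1 : ℤ)⟧)) : U.VL D b X := by
  obtain ⟨r, c, h⟩ := hX
  refine ⟨r, c + 1, fun s n W hW hn g hg => ?_⟩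
  have h1 : g⟦(1 : ℤ)⟧' ≫ (U.Qsh s X).hom = 0 :=
    h s (n + 1) _ (hD n W hW) (by linarith) _ ((AF_shift_iff.2 hg).comp_right _)
  apply (shiftFunctor T (1 : ℤ)).map_injective
  rw [← cancel_mono (U.Qsh s X).hom, h1, Functor.map_zero, zero_comp]

lemma VL.of_tower (F M : ℕ → T) (t : ∀ s, F (s + 1) ⟶ F s) (q : ∀ s, F s ⟶ M s)
    (d : ∀ s, M s ⟶ (F (s + 1))⟦(1 : ℤ)⟧)
    (hd : ∀ s, Triangle.mk (t s) (q s) (d s) ∈ distTriang T)
    (ht : ∀ s, U.Null (t s)) (hM : ∀ s, U.Inj (M s)) (c : ℤ)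
    (hF : ∀ (s : ℕ) (n : ℤ) (W : T), D n W → n + c < b * s → ∀ f : W ⟶ F (s + 1), f = 0) :
    U.VL D b (F 0) := by
  refine ⟨1, c, fun s n W hW hn g hg => ?_⟩
  obtain ⟨g', rfl⟩ := (AF_one_iff.1 hg).lift
  obtain ⟨x, y, hxy⟩ := tower F M t q d hd ht hM s
  rw [← hxy, ← Category.assoc, hF s n W hW hn (g' ≫ x), zero_comp]

/-- The thick subcategory generated by a class of objects. -/
inductive Thick (𝒜 : T → Prop) : T → Prop
  | base {X : T} (h : 𝒜 X) : Thick 𝒜 X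
  | zero {X : T} (h : IsZero X) : Thick 𝒜 X
  | shift {X : T} (h : Thick 𝒜 X) : Thick 𝒜 (X⟦(1 : ℤ)⟧)
  | of_shift {X : T} (h : Thick 𝒜 (X⟦(1 : ℤ)⟧)) : Thick 𝒜 X
  | ext {X Y Z : T} {f : X ⟶ Y} {g : Y ⟶ Z} {h : Z ⟶ X⟦(1 : ℤ)⟧}
      (hΔ : Triangle.mk f g h ∈ distTriang T) (hX : Thick 𝒜 X) (hZ : Thick 𝒜 Z) : Thick 𝒜 Y
  | retract {X Y : T} (i : Y ⟶ X) (p : X ⟶ Y) (hip : i ≫ p = 𝟙 Y) (hX : Thick 𝒜 X) : Thick 𝒜 Y

/-- The vanishing line classes are thick. -/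
theorem VL.thick (hb : 0 ≤ b) (hD : ∀ n W, D n W → D (n + 1) (W⟦(1 : ℤ)⟧))
    (hD' : ∀ n W, D n W → D (n - 1) (W⟦(-1 : ℤ)⟧)) {𝒜 : T → Prop}
    (h𝒜 : ∀ X, 𝒜 X → U.VL D b X) {X : T} (hX : Thick 𝒜 X) : U.VL D b X := by
  induction hX with
  | base h => exact h𝒜 _ h
  | zero h => exact VL.zero h
  | shift _ ih => exact ih.shift hD'
  | of_shift _ ih => exact ih.of_shift hD
  | ext hΔ _ _ ihX ihZ => exact VL.ext hb ihX ihZ hΔ
  | retract i p hip _ ih => exact ih.retract i p hip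

/-- The use of a vanishing line: a composite of `s + r` `E`-null maps `K ⟶ Y` becomes zero after
`ι : Y ⟶ X`, if `X` has a vanishing line and `K` has small dimension. -/
theorem VL.comp_eq_zero {X : T} (hX : U.VL D b X) : ∃ (r : ℕ) (c : ℤ), ∀ (s : ℕ) (n : ℤ)
    (K Y : T), D n K → n + c < b * s → ∀ (g : K ⟶ Y), U.AF (s + r) g → ∀ ι : Y ⟶ X,
      g ≫ ι = 0 := by
  obtain ⟨r, c, h⟩ := hX
  refine ⟨r, c, fun s n K Y hK hn g hg ι => ?_⟩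
  obtain ⟨a, ha, hab⟩ := AF.lift_split (s := 0) (hg.comp_right ι)
  have h1 : a = 0 := h (0 + s) n K hK (by simpa using hn) a ha
  rw [h1, zero_comp] at hab
  exact hab.symm

end VL

end UTri

end Vale.Agent.P093.N.TT
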