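import Vale.Agent.P093.N.Final
import Vale.Agent.P093.N.PhiInst
import Vale.Agent.P093.N1.EBase
import Vale.Agent.P093.N.VL3

/-!
# P093, part N: `VlIn` and `BigIn` from Step 1 and Step 3

* `TowObj h m B X` : the class of objects of Step 1 for the quotient `Pn p m` of `P_*`: `X` is
  `p`-local, bounded below, with a basis of finite type in degrees `≥ B`, and `H X` is injective;
* `TowerIn` : the statement of Step 1, `YoungIn` : the statement of Step 3;
* `vlIn_of`, `bigIn_of`.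
-/

open CategoryTheory MonoidalCategory Limits Pretriangulated MonObj

set_option linter.unusedSectionVars false

universe v u

namespace Vale.Agent.P093.N.Fin

open Vale.Agent.P251.T Vale.Agent.P251.S Vale.Agent.P251.M Vale.Agent.P251.I
open Vale.Agent.P251.G Vale.Agent.P251.G.LC
open Vale.Agent.P093.N.TT Vale.Agent.P093.N.TT.UTri Vale.Agent.P093.N.LR
open Vale.Agent.P093.N1 Vale.Agent.P093.Nak Vale.Agent.P093.N.PhiT
open Vale.Agent.P093.PLoc (Sp eta etaR IsPLocal)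

variable {T : Type u} [Category.{v} T] [Preadditive T] [HasZeroObject T]
    [HasShift T ℤ] [∀ n : ℤ, (shiftFunctor T n).Additive] [Pretriangulated T] [IsTriangulated T]
    [MonoidalCategory T] [SymmetricCategory T] [TensorTriangulated T] [MonoidalClosed T]
    [HasCoproducts.{0} T] [HasProducts.{0} T] [StableCat T]

variable {D : MUData T} {p : ℕ} [Fact p.Prime]

/-- The class of objects to which Step 1 applies, for the quotient `Pn p m` of `P_*`. -/
structure TowObj (h : IsMULoc D (toRp D p) p) (m : ℕ) (B : ℤ) (X : T) : Prop where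
  /-- `X` is `p`-local -/
  loc : IsPLocal p X
  /-- `X` is bounded below -/
  conn : ∃ B₀ : ℤ, Conn B₀ X
  /-- a basis of finite type, in degrees `≥ 2 B` -/
  basis : ∃ (J : Type) (b : RBasis (stdEven T) (Rp D p) X J), b.FinType ∧ ∀ j, B ≤ b.k j
  /-- `H X` is an injective comodule -/
  inj : Co.Inj ((coDatPn h m).psi X)

/-- the statement of Step 1 -/
def TowerIn (h : IsMULoc D (toRp D p) p) : Prop :=
  ∀ (m : ℕ) (B : ℤ) (X : T), TowObj h m B X →
    (UTri.ofMon D.R).VLrc DimLE (2 * (((p - 1) * p ^ m : ℕ) : ℤ) - 1) 1 (-2 * B) X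

/-- the statement of Step 3 -/
def YoungIn (h : IsMULoc D (toRp D p) p) : Prop :=
  ∀ m : ℕ, ∃ (d : ℤ) (V Y : T) (i : Y ⟶ V ⊗ Sp T p) (r : V ⊗ Sp T p ⟶ Y) (B : ℤ),
    EvenCell T d V ∧ i ≫ r = 𝟙 Y ∧ ¬ IsZero Y ∧ TowObj h m B Y

theorem le_slope {p : ℕ} (hp : 2 ≤ p) (m : ℕ) :
    (m : ℤ) ≤ 2 * (((p - 1) * p ^ m : ℕ) : ℤ) - 1 := by
  have h1 : m + 1 ≤ (p - 1) * p ^ m := by
    have h2 : m < p ^ m := (Nat.lt_pow_self (by omega : 1 < p))
    have h3 : 1 ≤ p - 1 := by omega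
    nlinarith
  have h2 : ((m : ℤ) + 1) ≤ (((p - 1) * p ^ m : ℕ) : ℤ) := by exact_mod_cast h1
  linarith [Int.natCast_nonneg m]

/-- **`VlIn` from Steps 1 and 3.** -/
theorem vlIn_of (h : IsMULoc D (toRp D p) p) (hT : TowerIn h) (hY : YoungIn h) (b : ℕ) :
    VlIn (UTri.ofMon D.R) p b := by
  obtain ⟨d, V, Y, i, r, B, hV, hir, h0, hO⟩ := hY b
  refine ⟨d, V, Y, i, r, hV, hir, h0, ?_⟩
  exact ((hT b B Y hO).mono le_rfl le_rfl (le_slope (Fact.out : p.Prime).two_le b)).vl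

/-- **`BigIn` from Step 1 and the unit object.** -/
theorem bigIn_of (hM : ∀ (p : ℕ) [Fact p.Prime], IsMULoc D (toRp D p) p)
    (hT : ∀ (p : ℕ) [Fact p.Prime], TowerIn (hM p))
    (h1 : ∀ (p : ℕ) [Fact p.Prime], TowObj (hM p) 0 0 (Sp T p)) (b : ℕ) :
    BigIn (UTri.ofMon D.R) b := by
  refine ⟨b + 2, 1, 0, fun p hp hpb => ?_⟩
  have : Fact p.Prime := ⟨hp⟩
  refine (hT p 0 0 (Sp T p) (h1 p)).mono le_rfl (by norm_num) ?_
  have h2 : b + 1 ≤ (p - 1) * p ^ 0 := by rw [pow_zero, Nat.mul_one]; omega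
  have h3 : ((b : ℤ) + 1) ≤ (((p - 1) * p ^ 0 : ℕ) : ℤ) := by exact_mod_cast h2
  linarith [Int.natCast_nonneg b]

end Vale.Agent.P093.N.Fin
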