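import Vale.Agent.P093.N.HKun
import Vale.Agent.P093.N.HCoact
import Vale.Agent.P093.N.Co.Tensor

/-!
# P093, block N:H, products: `theta` is multiplicative

* `prA` : `(A ⊗ M) ⊗ (A ⊗ N) ⟶ A ⊗ (M ⊗ N)`;
* `theta_cross` : `theta (x × y) = theta x · theta y`;
* `Good.tensor`, `Good.unit`, `kun_bijective` : Künneth;
* `CoDat.psi_kun`, `CoDat.colin_kun`, `CoDat.psi_one` : the coaction on `H (X ⊗ Y)` is the
  diagonal one.
-/

open CategoryTheory MonoidalCategory MonObj Limits Pretriangulated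
open scoped TensorProduct

set_option linter.unusedSectionVars false

universe v u w

noncomputable section

namespace Vale.Agent.P093.N.HH

open Vale.Agent.P251.S Vale.Agent.P251.T Vale.Agent.P251.M Vale.Agent.P251.M.EvenSpheres
  Vale.Agent.P251.X Vale.Agent.P093.Nak

section prA

variable (k A M N : Type*) [CommRing k] [CommRing A] [Algebra k A]
  [AddCommGroup M] [Module k M] [AddCommGroup N] [Module k N]

/-- `(a ⊗ m) ⊗ (b ⊗ n) ↦ a b ⊗ (m ⊗ n)`. -/
def prA : (A ⊗[k] M) ⊗[k] (A ⊗[k] N) →ₗ[k] A ⊗[k] (M ⊗[k] N) :=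
  (LinearMap.mul' k A).rTensor (M ⊗[k] N) ∘ₗ
    (TensorProduct.tensorTensorTensorComm k A M A N).toLinearMap

variable {k A M N}

@[simp] theorem prA_tmul (a b : A) (m : M) (n : N) :
    prA k A M N ((a ⊗ₜ m) ⊗ₜ (b ⊗ₜ n)) = (a * b) ⊗ₜ (m ⊗ₜ n) := by
  simp [prA]

end prA

theorem prA_eq_pr (k A M N : Type*) [CommRing k] [CommRing A] [Bialgebra k A]
    [AddCommGroup M] [Module k M] [AddCommGroup N] [Module k N] :
    prA k A M N = Co.pr k A M N := rfl

section theta

variable {T : Type u} [Category.{v} T] [Preadditive T] [MonoidalCategory T]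
  [MonoidalPreadditive T] [SymmetricCategory T] {E : EvenSpheres T} {R : T} [MonObj R]

@[elab_as_elim]
theorem Along.ind {B : T} [MonObj B] {r : R ⟶ B} {X : T} {motive : MP E B X → Prop}
    (y : MP E B X) (h : Along E r X) (zero : motive 0)
    (smul : ∀ (z : HRing E B) (x : MP E R X), motive (z • MP.push E r X x))
    (add : ∀ x y, motive x → motive y → motive (x + y)) : motive y := by
  obtain ⟨J, b, b', hb⟩ := h
  rw [← b'.linearCombination_repr y, Finsupp.linearCombination_apply, Finsupp.sum]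
  refine Finset.sum_induction _ _ add zero fun j _ => ?_
  rw [← hb]
  exact smul _ _

variable [IsCommMonObj R] {p N : ℕ} [Fact p.Prime] (c : Pt E R p N) {B : T} [MonObj B]
  [IsCommMonObj B] {r : R ⟶ B} [IsMonHom r] {A' : Type w} [CommRing A'] [Algebra (ZMod p) A']
  {φ : HRing E B →+* A'} {X Y : T}

/-- **`theta` is multiplicative.** -/
theorem theta_cross (hX : Along E r X) (hY : Along E r Y) (hXY : Along E r (X ⊗ Y))
    (hφ : Over c r φ) (x : MP E B X) (y : MP E B Y) :
    theta c r φ (X ⊗ Y) (MP.cross E B X Y x y) =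
      (kun c X Y).lTensor A' (prA (ZMod p) A' (Vtot c X) (Vtot c Y)
        (theta c r φ X x ⊗ₜ theta c r φ Y y)) := by
  refine Along.ind x hX ?_ ?_ ?_
  · simp only [map_zero, AddMonoidHom.zero_apply, TensorProduct.zero_tmul]
  · intro z x
    refine Along.ind y hY ?_ ?_ ?_
    · simp only [map_zero, TensorProduct.tmul_zero]
    · intro z' y
      rw [MP.cross_smul_left, MP.cross_smul_right, ← cross_push, smul_smul,
        theta_smul_push c hXY hφ, theta_smul_push c hX hφ, theta_smul_push c hY hφ, prA_tmul,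
        LinearMap.lTensor_tmul, kun_mk, map_mul]
    · intro y y' hy hy'
      simp only [map_add, hy, hy', TensorProduct.tmul_add]
  · intro x x' hx hx'
    simp only [map_add, AddMonoidHom.add_apply, hx, hx', TensorProduct.add_tmul]

/-- the unit -/
theorem push_one : MP.push E r (𝟙_ T) (MP.one E R) = MP.one E B := by
  unfold MP.one
  rw [MP.push_of]
  congr 1
  unfold FM.unit
  rw [Category.assoc, Category.assoc, ← comp_whiskerRight, IsMonHom.one_hom]

theorem theta_one (h : Along E r (𝟙_ T)) (hφ : Over c r φ) :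
    theta c r φ (𝟙_ T) (MP.one E B) = 1 ⊗ₜ Vtot.one c := by
  rw [← push_one (r := r), theta_push c h hφ]
  rfl

end theta

section good

variable {T : Type u} [Category.{v} T] [Preadditive T] [HasZeroObject T]
    [HasShift T ℤ] [∀ n : ℤ, (shiftFunctor T n).Additive] [Pretriangulated T] [IsTriangulated T]
    [MonoidalCategory T] [SymmetricCategory T] [TensorTriangulated T] [MonoidalClosed T]
    [HasCoproducts.{0} T] [HasProducts.{0} T] [StableCat T] {E : EvenSpheres T}
    {R : T} [MonObj R]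

theorem Good.of_iso {X Y : T} (hX : Good E R X) (e : X ≅ Y) : Good E R Y := by
  obtain ⟨J, ⟨b⟩⟩ := hX
  exact ⟨J, ⟨b.ofIso e⟩⟩

theorem Good.sphere (E : EvenSpheres T) (R : T) [MonObj R] (k : ℤ) : Good E R (E.S k) :=
  ⟨Unit, ⟨RBasis.sphere E R k⟩⟩

theorem Good.unit (E : EvenSpheres T) (R : T) [MonObj R] : Good E R (𝟙_ T) :=
  ⟨Unit, ⟨RBasis.unit E R⟩⟩

variable [IsCommMonObj R]

theorem Good.tensor {X Y : T} (hX : Good E R X) (hY : Good E R Y) : Good E R (X ⊗ Y) := by
  obtain ⟨J, ⟨b⟩⟩ := hX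
  obtain ⟨K, ⟨b'⟩⟩ := hY
  exact ⟨J × K, ⟨b.tensor b'⟩⟩

variable {p N : ℕ} [Fact p.Prime] (c : Pt E R p N)

/-- the basis of `H X` -/
theorem exists_vbasis_kun (hS : ∀ n, IsSphere (E.S n)) {X : T} {J : Type} (b : RBasis E R X J) :
    ∃ v : Module.Basis J (ZMod p) (Vtot c X),
      (∀ j, v j = Vtot.mk c X (MP.of E R X (b.k j) (b.w j))) ∧
        ∀ x j, v.repr (Vtot.mk c X x) j = c.χ ((b.basis hS).repr x j) := by
  obtain ⟨v, h1, h2⟩ := exists_redBasis c.χ (b.basis hS) (Vtot.mk c X)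
    (fun a m => Vtot.mk_smul a m) (ZMod.ringHom_surjective c.χ) Vtot.mk_surjective
    (fun x hx => Vtot.mk_eq_zero.1 hx)
  exact ⟨v, fun j => by rw [h1, RBasis.basis_apply], h2⟩

/-- **Künneth.** -/
theorem kun_bijective_of_rbasis (hS : ∀ n, IsSphere (E.S n)) {X Y : T} {J K : Type}
    (b : RBasis E R X J) (b' : RBasis E R Y K) : Function.Bijective (kun c X Y) := by
  obtain ⟨v, hv, -⟩ := exists_vbasis_kun c hS b
  obtain ⟨v', hv', -⟩ := exists_vbasis_kun c hS b'
  obtain ⟨v'', hv'', -⟩ := exists_vbasis_kun c hS (b.tensor b')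
  refine kun_bijective_of_basis c v v' v'' fun j k => ?_
  rw [hv, hv', hv'', of_tensor_w, Vtot.prod_mk]

theorem kun_bijective (hS : ∀ n, IsSphere (E.S n)) {X Y : T} (hX : Good E R X)
    (hY : Good E R Y) : Function.Bijective (kun c X Y) := by
  obtain ⟨J, ⟨b⟩⟩ := hX
  obtain ⟨K, ⟨b'⟩⟩ := hY
  exact kun_bijective_of_rbasis c hS b b'

/-- the Künneth isomorphism -/
def kunE (hS : ∀ n, IsSphere (E.S n)) {X Y : T} (hX : Good E R X) (hY : Good E R Y) :
    Vtot c X ⊗[ZMod p] Vtot c Y ≃ₗ[ZMod p] Vtot c (X ⊗ Y) :=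
  LinearEquiv.ofBijective (kun c X Y) (kun_bijective c hS hX hY)

@[simp] theorem kunE_apply (hS : ∀ n, IsSphere (E.S n)) {X Y : T} (hX : Good E R X)
    (hY : Good E R Y) (t : Vtot c X ⊗[ZMod p] Vtot c Y) : kunE c hS hX hY t = kun c X Y t := rfl

/-- `H 𝟙` is one dimensional, spanned by the unit -/
theorem exists_unit_basis (hS : ∀ n, IsSphere (E.S n)) :
    ∃ v : Module.Basis Unit (ZMod p) (Vtot c (𝟙_ T)), v () = Vtot.one c := by
  obtain ⟨v, hv, -⟩ := exists_vbasis_kun c hS (RBasis.unit E R)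
  exact ⟨v, by rw [hv, of_unit_w]; rfl⟩

theorem smul_one_bijective (hS : ∀ n, IsSphere (E.S n)) :
    Function.Bijective (LinearMap.toSpanSingleton (ZMod p) (Vtot c (𝟙_ T)) (Vtot.one c)) := by
  obtain ⟨v, hv⟩ := exists_unit_basis c hS
  have h1 : ∀ a : ZMod p, v.repr (a • Vtot.one c) () = a := fun a => by
    rw [← hv, LinearEquiv.map_smul, Module.Basis.repr_self, Finsupp.smul_single, smul_eq_mul,
      _root_.mul_one, Finsupp.single_eq_same]
  constructor
  · intro a b hab
    rw [← h1 a, ← h1 b]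
    exact congrArg (fun x => v.repr x ()) hab
  · intro x
    refine ⟨v.repr x (), ?_⟩
    rw [LinearMap.toSpanSingleton_apply]
    apply v.repr.injective
    refine Finsupp.ext fun j => ?_
    exact h1 _

variable {P : Type w} [CommRing P] [Bialgebra (ZMod p) P] (D : CoDat E R p P)

namespace CoDat

/-- **The coaction is multiplicative.** -/
theorem psi_kun (hS : ∀ n, IsSphere (E.S n)) {X Y : T} (hX : Good E R X) (hY : Good E R Y)
    (x : D.H X) (y : D.H Y) : D.psi (X ⊗ Y) (kun D.c X Y (x ⊗ₜ y)) =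
      (kun D.c X Y).lTensor P (Co.pr (ZMod p) P (D.H X) (D.H Y) (D.psi X x ⊗ₜ D.psi Y y)) := by
  induction x using Vtot.ind with
  | h x =>
    induction y using Vtot.ind with
    | h y =>
      rw [kun_mk, D.psi_mk hS (hX.tensor hY), D.psi_mk hS hX, D.psi_mk hS hY, cross_push]
      exact theta_cross D.c (hX.along hS _) (hY.along hS _) ((hX.tensor hY).along hS _) D.over₁ _ _

/-- **The Künneth map is colinear for the diagonal coaction.** -/
theorem colin_kun (hS : ∀ n, IsSphere (E.S n)) {X Y : T} (hX : Good E R X) (hY : Good E R Y) :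
    Co.Colin (Co.tens (D.psi X) (D.psi Y)) (D.psi (X ⊗ Y)) (kun D.c X Y) := by
  unfold Co.Colin
  refine TensorProduct.ext' fun x y => ?_
  rw [LinearMap.comp_apply, D.psi_kun hS hX hY, LinearMap.comp_apply, Co.tens_tmul]

theorem psi_one (hS : ∀ n, IsSphere (E.S n)) :
    D.psi (𝟙_ T) (Vtot.one D.c) = 1 ⊗ₜ Vtot.one D.c := by
  unfold Vtot.one
  rw [D.psi_mk hS (Good.unit E R), push_one, ← push_one (r := Am.v R (1 : Fin 2))]
  exact theta_push D.c ((Good.unit E R).along hS _) D.over₁ _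

end CoDat

end good

end Vale.Agent.P093.N.HH
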