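import Vale.Agent.P093.N.YSplitH
import Vale.Agent.P093.N.HPsi
import Vale.Agent.P093.N.SymPow
import Vale.Agent.P093.N.Young
import Vale.Agent.P251.M.EvenCell

/-!
# P093, block N3, T-side end: powers and the Young summand

* `evenCell_tpow` : powers of finite even complexes;
* `exists_tpow_basis` : `R`-bases of powers (degrees `≥ m B`, finite type);
* `exists_young_split` : the summand of `tpow W (M p r) ⊗ S_(p)` given by the Young symmetrizer.
-/

open CategoryTheory MonoidalCategory MonObj Limits Pretriangulated TensorProduct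

set_option linter.unusedSectionVars false

universe v u w

noncomputable section

namespace Vale.Agent.P093.N.YSplit

open Vale.Agent.P251.M hiding IsCpt
open Vale.Agent.P251.S Vale.Agent.P251.T Vale.Agent.P251.M.EvenSpheres Vale.Agent.P251.X
  Vale.Agent.P093.Nak Vale.Agent.P093.N.HH Vale.Agent.P093.PLoc Vale.Agent.P093.N.Co
  Vale.Agent.P093.SymPow

section Even

variable {T : Type u} [Category.{v} T] [Preadditive T] [HasZeroObject T]
    [HasShift T ℤ] [∀ n : ℤ, (shiftFunctor T n).Additive] [Pretriangulated T]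
    [MonoidalCategory T] [SymmetricCategory T] [TensorTriangulated T]

/-- Powers of finite even complexes are finite even complexes. -/
theorem evenCell_tpow {d : ℤ} {W : T} (hW : EvenCell T d W) :
    ∀ m : ℕ, EvenCell T (m * d) (tpow W m)
  | 0 => by
    rw [Nat.cast_zero, zero_mul]
    exact EvenCell.unit
  | m + 1 => hW.tensor (evenCell_tpow hW m) _ (by push_cast; ring)

end Even

section Stable

variable {T : Type u} [Category.{v} T] [Preadditive T] [HasZeroObject T]
    [HasShift T ℤ] [∀ n : ℤ, (shiftFunctor T n).Additive] [Pretriangulated T] [IsTriangulated T]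
    [MonoidalCategory T] [SymmetricCategory T] [TensorTriangulated T] [MonoidalClosed T]
    [HasCoproducts.{0} T] [HasProducts.{0} T] [StableCat T] {E : EvenSpheres T}
    {R : T} [MonObj R] [IsCommMonObj R] {p : ℕ} [hp : Fact p.Prime]

/-- `R`-bases of powers. -/
theorem exists_tpow_basis {W : T} {J : Type} (b : RBasis E R W J) (hb : b.FinType) (B : ℤ)
    (hB : ∀ j, B ≤ b.k j) : ∀ m : ℕ, ∃ (I : Type) (c : RBasis E R (tpow W m) I), c.FinType ∧
      (∀ i, m * B ≤ c.k i) ∧ (Finite J → Finite I)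
  | 0 => by
    refine ⟨Unit, RBasis.unit E R, N1.FT.of_finite _, fun i => ?_, fun _ => inferInstance⟩
    rw [Nat.cast_zero, zero_mul]
    exact le_refl (0 : ℤ)
  | m + 1 => by
    obtain ⟨I, c, hc, hcB, hf⟩ := exists_tpow_basis b hb B hB m
    refine ⟨J × I, b.tensor c, N1.FT.prod (k := b.k) (l := c.k) hb hc, fun i => ?_, fun h => ?_⟩
    · change ((m + 1 : ℕ) : ℤ) * B ≤ b.k i.1 + c.k i.2
      have h1 := hB i.1
      have h2 := hcB i.2
      push_cast
      linarith
    · have := hf h
      infer_instance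

/-- The Young summand. -/
theorem permAlg_Y_comp (W : T) (r : ℕ) :
    permAlg W (Vale.Agent.P093.N.Young.M p r) (Vale.Agent.P093.N.Young.Y p r) ≫
      permAlg W (Vale.Agent.P093.N.Young.M p r) (Vale.Agent.P093.N.Young.Y p r) =
      Vale.Agent.P093.N.Young.nY p r •
        permAlg W (Vale.Agent.P093.N.Young.M p r) (Vale.Agent.P093.N.Young.Y p r) := by
  rw [← permAlg_mul, Vale.Agent.P093.N.Young.Y_mul_Y, map_zsmul]

theorem natAbs_nY_coprime (r : ℕ) : (Vale.Agent.P093.N.Young.nY p r).natAbs.Coprime p := by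
  rw [Nat.coprime_comm, hp.out.coprime_iff_not_dvd, ← Int.natCast_dvd]
  exact Vale.Agent.P093.N.Young.not_dvd_nY hp.out r

/-- finite even complexes are connective -/
theorem conn_evenCell (h0 : Conn 0 (𝟙_ T)) {d : ℤ} {V : T} (hV : EvenCell T d V) :
    Conn (2 * d) V :=
  (hV.bigCell (2 * d) le_rfl).conn h0 (fun Y k f => StableCat.compact k Y f)

/-- **The Young summand** of `tpow W (M p r) ⊗ S_(p)`. -/
theorem exists_young_split (h0 : Conn 0 (𝟙_ T)) (hR : IsPLocal p R) {c : Pt E R p 0}
    (hc : LocalPt c) (hS : ∀ n, IsSphere (E.S n)) {W : T} {d : ℤ} (hW : EvenCell T d W) {J : Type}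
    (b : RBasis E R W J) (hb : b.FinType) (B : ℤ) (hB : ∀ j, B ≤ b.k j) (r : ℕ) :
    ∃ (I : Type) (c' : RBasis E R (tpow W (Vale.Agent.P093.N.Young.M p r)) I)
      (F : Split E R p (permAlg W (Vale.Agent.P093.N.Young.M p r) (Vale.Agent.P093.N.Young.Y p r))
        (Vale.Agent.P093.N.Young.nY p r) c'),
      c'.FinType ∧ (∀ i, (Vale.Agent.P093.N.Young.M p r : ℤ) * B ≤ c'.k i) ∧
      (∀ j, (Vale.Agent.P093.N.Young.M p r : ℤ) * B ≤ F.bas.k j) ∧
      EvenCell T (Vale.Agent.P093.N.Young.M p r * d) (tpow W (Vale.Agent.P093.N.Young.M p r)) ∧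
      Conn (2 * (Vale.Agent.P093.N.Young.M p r * d)) F.Y := by
  obtain ⟨I, c', hc', hk, -⟩ := exists_tpow_basis b hb B hB (Vale.Agent.P093.N.Young.M p r)
  obtain ⟨F⟩ := exists_split hR hc hS
    (permAlg W (Vale.Agent.P093.N.Young.M p r) (Vale.Agent.P093.N.Young.Y p r))
    (Vale.Agent.P093.N.Young.nY p r) (natAbs_nY_coprime r) (permAlg_Y_comp W r) c' hc'
  have hV := evenCell_tpow hW (Vale.Agent.P093.N.Young.M p r)
  exact ⟨I, c', F, hc', hk, F.le_k _ hk, hV, F.conn _ (conn_evenCell h0 hV)⟩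

end Stable

end Vale.Agent.P093.N.YSplit
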