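import Vale.Agent.P093.N.HMul
import Vale.Agent.P093.N.PhiInst
import Vale.Agent.P093.N.WAlg
import Vale.Agent.P093.N.YSplitPow

/-!
# P093, block N3-W (W3): a finite even complex `W` with `H W ⟶ Pn p m` onto

* `fpow x k : C^{⊗ k} ⟶ R` for `x : C ⟶ R`; `pow_range_le` : the image of `H (C^{⊗ k})` in `P`
  contains the `k`-th power of the image of `H C`;
* `exists_W` : for `C` with an `R'`-basis which is mapped to the coefficients `b_i`.
-/

open CategoryTheory MonoidalCategory Limits Pretriangulated MonObj TensorProduct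

set_option linter.unusedSectionVars false

universe v u w

noncomputable section

namespace Vale.Agent.P093.N.WSurj

open Vale.Agent.P251.M hiding IsCpt
open Vale.Agent.P251.T Vale.Agent.P251.M.EvenSpheres Vale.Agent.P251.S
  Vale.Agent.P251.X Vale.Agent.P093.Nak Vale.Agent.P093.N.HH Vale.Agent.P093.SymPow
  Vale.Agent.P093.N.Phi Vale.Agent.P093.N.PhiT Vale.Agent.P251.F Vale.Agent.P251.I

section q

variable {T : Type u} [Category.{v} T] [Preadditive T] [HasZeroObject T]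
    [HasShift T ℤ] [∀ n : ℤ, (shiftFunctor T n).Additive] [Pretriangulated T] [IsTriangulated T]
    [MonoidalCategory T] [SymmetricCategory T] [TensorTriangulated T] [MonoidalClosed T]
    [HasCoproducts.{0} T] [HasProducts.{0} T] [StableCat T] {E : EvenSpheres T}
  {R : T} [MonObj R] [IsCommMonObj R] {p : ℕ} [Fact p.Prime] {P : Type w} [CommRing P]
  [Bialgebra (ZMod p) P] (D : CoDat E R p P)

/-- the product of `k` copies of `x : C ⟶ R` -/
def fpow {C R : T} [MonObj R] (x : C ⟶ R) : ∀ k : ℕ, tpow C k ⟶ R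
  | 0 => η[R]
  | k + 1 => (x ⊗ₘ fpow x k) ≫ μ[R]

variable {C : T} (x : C ⟶ R)

/-- the map `H (C^{⊗ k}) ⟶ P` -/
def qpow (k : ℕ) : D.H (tpow C k) →ₗ[ZMod p] P := D.q ∘ₗ Vtot.map D.c (fpow x k)

theorem qpow_zero : qpow D x 0 (Vtot.one D.c) = 1 := D.q_one

theorem qpow_succ (k : ℕ) (y : D.H C) (z : D.H (tpow C k)) :
    qpow D x (k + 1) (kun D.c C (tpow C k) (y ⊗ₜ z)) =
      D.q (Vtot.map D.c x y) * qpow D x k z := by
  rw [kun_tmul]
  exact D.q_mul_map x (fpow x k) y z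

/-- The image of `H (C^{⊗ k})` contains the `k`-th power of the image of `H C`. -/
theorem pow_range_le (k : ℕ) :
    (LinearMap.range (D.q ∘ₗ Vtot.map D.c x)) ^ k ≤ LinearMap.range (qpow D x k) := by
  induction k with
  | zero =>
    rw [pow_zero, Submodule.one_le]
    exact ⟨_, qpow_zero D x⟩
  | succ k ih =>
    rw [pow_succ', Submodule.mul_le]
    rintro _ ⟨y, rfl⟩ b hb
    obtain ⟨z, rfl⟩ := ih hb
    exact ⟨_, qpow_succ D x k y z⟩

theorem qpow_surjective (k : ℕ) (h : (LinearMap.range (D.q ∘ₗ Vtot.map D.c x)) ^ k = ⊤) :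
    Function.Surjective (qpow D x k) := by
  rw [← LinearMap.range_eq_top, eq_top_iff, ← h]
  exact pow_range_le D x k

theorem colin_qpow (hS : ∀ n, IsSphere (E.S n)) (hR : Good E R R) (k : ℕ)
    (hC : Good E R (tpow C k)) :
    Co.Colin (D.psi (tpow C k)) (Coalgebra.comul (R := ZMod p) (A := P)) (qpow D x k) :=
  (D.colin_q hS hR).comp (D.psi_map hS hC hR (fpow x k))

end q

section MU

variable {T : Type u} [Category.{v} T] [Preadditive T] [HasZeroObject T]
    [HasShift T ℤ] [∀ n : ℤ, (shiftFunctor T n).Additive] [Pretriangulated T] [IsTriangulated T]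
    [MonoidalCategory T] [SymmetricCategory T] [TensorTriangulated T] [MonoidalClosed T]
    [HasCoproducts.{0} T] [HasProducts.{0} T] [StableCat T]

variable {D : MUData T} {R' : T} [MonObj R'] [IsCommMonObj R'] {u : D.R ⟶ R'} [IsMonHom u]
  {p : ℕ} [hp : Fact p.Prime] (h : IsMULoc D u p)

theorem phiC_X {P : Type} [CommRing P] [Algebra (ZMod p) P] (t : ℕ → P) (m : ℕ) :
    phiC p t (MvPolynomial.X (Fin.last 0, m)) = (addSer p t).c (m + 1) := by
  unfold phiC
  rw [Cob.ev_X]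
  rfl

theorem phiT_evP {P : Type} [CommRing P] [Algebra (ZMod p) P] (t : ℕ → P) (z : Cob Laz 1) :
    phiT h t (evP D u 1 z) = phiC p t z := extP_evP h (phiC p t) _ z

theorem inlM_uu : inlM D.R D.R ≫ (u ⊗ₘ u) = u ≫ inlM R' R' := by
  rw [MonoidalCategory.tensorHom_def, inlM_whiskerRight_assoc]
  simp only [inlM, Category.assoc, ← MonoidalCategory.whiskerLeft_comp, IsMonHom.one_hom]

theorem inrM_uu : inrM D.R D.R ≫ (u ⊗ₘ u) = u ≫ inrM R' R' := by
  rw [MonoidalCategory.tensorHom_def, inrM_whiskerRight_assoc]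
  simp only [inrM, Category.assoc]
  rw [← whisker_exchange, leftUnitor_inv_naturality_assoc]

theorem amPush_two : (amOne D.R ▷ D.R) ≫ (u ⊗ₘ u) ≫ amPairInv R' = amPush u 2 := by
  have h1 : ∀ (f g : Am D.R 2 ⟶ Am R' 2) [IsMonHom f] [IsMonHom g],
      Am.v D.R (0 : Fin 2) ≫ f = Am.v D.R (0 : Fin 2) ≫ g →
      Am.v D.R (1 : Fin 2) ≫ f = Am.v D.R (1 : Fin 2) ≫ g → f = g := by
    intro f g _ _ h0 h1
    apply Am.hom_ext
    intro i
    fin_cases i
    · exact h0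
    · exact h1
  have hv0 : Am.v D.R (0 : Fin 2) ≫ (amOne D.R ▷ D.R) = inlM D.R D.R := v_zero_amPair D.R
  have hv1 : Am.v D.R (1 : Fin 2) ≫ (amOne D.R ▷ D.R) = inrM D.R D.R := v_one_amPair D.R
  apply h1
  · rw [reassoc_of% hv0, ← Category.assoc, inlM_uu, Category.assoc, inlM_amPairInv, v_amPush]
  · rw [reassoc_of% hv1, ← Category.assoc, inrM_uu, Category.assoc, inrM_amPairInv, v_amPush]

/-- The values of `q` at the images of the elements `D.ev 1 z`. -/
theorem phiT_of {P : Type} [CommRing P] [Algebra (ZMod p) P] (t : ℕ → P) (j : ℤ)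
    (f : (stdEven T).S j ⟶ D.R ⊗ D.R) (z : Cob Laz 1)
    (hz : HRing.of (stdEven T) (D.R ⊗ D.R) j f = HRing.map (amOne D.R ▷ D.R) (D.ev 1 z)) :
    phiT h t (HRing.of (stdEven T) (Am R' 2) j ((f ≫ (u ⊗ₘ u)) ≫ amPairInv R')) =
      phiC p t z := by
  rw [← phiT_evP h t z, evP_apply]
  congr 1
  have h1 : HRing.of (stdEven T) (Am R' 2) j ((f ≫ (u ⊗ₘ u)) ≫ amPairInv R') =
      HRing.map (E := stdEven T) ((u ⊗ₘ u) ≫ amPairInv R')
        (HRing.of (stdEven T) (D.R ⊗ D.R) j f) := by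
    rw [HRing.map_of, Category.assoc]
  rw [h1, hz]
  exact HRing_map_map' (amOne D.R ▷ D.R) ((u ⊗ₘ u) ≫ amPairInv R') (amPush u 2) amPush_two _

variable {C : T} (x : C ⟶ D.R)

theorem comp_uu {j : ℤ} (f : (stdEven T).S j ⟶ D.R ⊗ C) :
    (f ≫ u ▷ C) ≫ R' ◁ (x ≫ u) = (f ≫ D.R ◁ x) ≫ (u ⊗ₘ u) := by
  rw [MonoidalCategory.whiskerLeft_comp, Category.assoc, Category.assoc,
    ← whisker_exchange_assoc, MonoidalCategory.tensorHom_def]

variable (m : ℕ)

/-- The values of `q ∘ H (x)` at the elements of the basis. -/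
theorem q_map_mk (j : ℤ) (f : (stdEven T).S j ⟶ D.R ⊗ C) (z : Cob Laz 1)
    (hz : HRing.of (stdEven T) (D.R ⊗ D.R) j (f ≫ D.R ◁ x) =
      HRing.map (amOne D.R ▷ D.R) (D.ev 1 z)) :
    (coDatPn h m).q (Vtot.map (coDatPn h m).c (x ≫ u)
      (Vtot.mk (coDatPn h m).c C (MP.of (stdEven T) R' C j (f ≫ u ▷ C)))) =
      phiC p (fun n => Pn.t p m (n + 1)) z := by
  rw [Vtot.map_mk, MP.map_of, CoDat.q_mk_of, comp_uu]
  exact phiT_of h (fun n => Pn.t p m (n + 1)) j (f ≫ D.R ◁ x) z hz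

/-- **A finite even complex `W` with `H W ⟶ Pn p m` colinear and onto.** -/
theorem exists_W (hR : Good (stdEven T) R' R') (hC : EvenCell T 0 C) {J : Type} [Finite J]
    (b : RBasis (stdEven T) D.R C J)
    (h0 : ∃ j, HRing.of (stdEven T) (D.R ⊗ D.R) (b.k j) (b.w j ≫ D.R ◁ x) = 1)
    (h1 : ∀ i, i + 2 ≤ p ^ m → ∃ j,
      HRing.of (stdEven T) (D.R ⊗ D.R) (b.k j) (b.w j ≫ D.R ◁ x) =
        HRing.map (amOne D.R ▷ D.R) (D.ev 1 (MvPolynomial.X (Fin.last 0, i)))) :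
    ∃ (W : T) (I : Type) (_ : Finite I) (_ : RBasis (stdEven T) R' W I)
      (q : (coDatPn h m).H W →ₗ[ZMod p] Pn p m), EvenCell T 0 W ∧
        Co.Colin ((coDatPn h m).psi W) (Coalgebra.comul (R := ZMod p) (A := Pn p m)) q ∧
        Function.Surjective q := by
  have hS : ∀ n, IsSphere ((stdEven T).S n) := Vale.Agent.P251.X.isSphere_std
  have hft : (b.push u).FinType := N1.FT.of_finite b.k
  obtain ⟨B, hB⟩ := hft.1
  obtain ⟨I, c, -, -, hI⟩ := YSplit.exists_tpow_basis (b.push u) hft B hB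
    (∑ i : Fin m, (p ^ (m - i.1) - 1))
  refine ⟨tpow C (∑ i : Fin m, (p ^ (m - i.1) - 1)), I, hI inferInstance, c,
    qpow (coDatPn h m) (x ≫ u) _, ?_, ?_, ?_⟩
  · have := YSplit.evenCell_tpow hC (∑ i : Fin m, (p ^ (m - i.1) - 1))
    rwa [mul_zero] at this
  · exact colin_qpow _ _ hS hR _ ⟨I, ⟨c⟩⟩
  · apply qpow_surjective
    refine Pn.pow_eq_top _ ?_ ?_ le_rfl
    · obtain ⟨j, hj⟩ := h0
      refine ⟨Vtot.mk (coDatPn h m).c C (MP.of (stdEven T) R' C (b.k j) (b.w j ≫ u ▷ C)), ?_⟩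
      rw [LinearMap.comp_apply, q_map_mk h x m (b.k j) (b.w j) 1 (by
        rw [hj, map_one, map_one]), map_one]
    · intro i hi
      have hp2 : 2 ≤ p ^ (i + 1) := by
        calc 2 ≤ p := hp.out.two_le
          _ = p ^ 1 := (pow_one p).symm
          _ ≤ p ^ (i + 1) := Nat.pow_le_pow_right hp.out.pos (by omega)
      have hpm : p ^ (i + 1) ≤ p ^ m := Nat.pow_le_pow_right hp.out.pos (by omega)
      obtain ⟨j, hj⟩ := h1 (p ^ (i + 1) - 2) (by omega)
      refine ⟨Vtot.mk (coDatPn h m).c C (MP.of (stdEven T) R' C (b.k j) (b.w j ≫ u ▷ C)), ?_⟩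
      rw [LinearMap.comp_apply, q_map_mk h x m (b.k j) (b.w j) _ hj, phiC_X]
      have h2 := addSer_c_pow p hp.out.one_lt (fun n => Pn.t p m (n + 1)) i
      rw [show p ^ (i + 1) - 2 + 1 = p ^ (i + 1) - 1 by omega]
      exact h2

end MU

end Vale.Agent.P093.N.WSurj
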