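import Vale.Agent.P093.N.FinalYoung
import Vale.Agent.P093.N.WSurj

/-!
# P093, part N: the object `W` of Step 3 from a finite stage of `MU`

`wobj_of` : `C` is a finite even complex with a finite basis over `MU` such that the images of
the basis in `π_{2*}(MU ⊗ MU)` under `x : C ⟶ MU` contain `1, b_1, …, b_(p^m - 1)`.
-/

open CategoryTheory MonoidalCategory Limits Pretriangulated MonObj

set_option linter.unusedSectionVars false

universe v u

namespace Vale.Agent.P093.N.Fin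

open Vale.Agent.P251.T Vale.Agent.P251.S Vale.Agent.P251.M Vale.Agent.P251.I
open Vale.Agent.P251.G Vale.Agent.P251.F
open Vale.Agent.P093.N1 Vale.Agent.P093.Nak Vale.Agent.P093.N.PhiT

variable {T : Type u} [Category.{v} T] [Preadditive T] [HasZeroObject T]
    [HasShift T ℤ] [∀ n : ℤ, (shiftFunctor T n).Additive] [Pretriangulated T] [IsTriangulated T]
    [MonoidalCategory T] [SymmetricCategory T] [TensorTriangulated T] [MonoidalClosed T]
    [HasCoproducts.{0} T] [HasProducts.{0} T] [StableCat T]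
  {F : SpaceFunctor T} {e : F.S.obj CCF ≅ (stdEven T).L} {D : MUData T}

/-- **The object `W`.** -/
theorem wobj_of (H : MUUniv e D) {p : ℕ} [Fact p.Prime] (h : IsMULoc D (toRp D p) p) (m : ℕ)
    {C : T} (hC : EvenCell T 0 C) (x : C ⟶ D.R) {J : Type} [Finite J]
    (b : RBasis (stdEven T) D.R C J)
    (h0 : ∃ j, HRing.of (stdEven T) (D.R ⊗ D.R) (b.k j) (b.w j ≫ D.R ◁ x) = 1)
    (h1 : ∀ i, i + 2 ≤ p ^ m → ∃ j,
      HRing.of (stdEven T) (D.R ⊗ D.R) (b.k j) (b.w j ≫ D.R ◁ x) =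
        HRing.map (amOne D.R ▷ D.R) (D.ev 1 (MvPolynomial.X (Fin.last 0, i)))) :
    ∃ W : T, WObj h m W := by
  obtain ⟨b', -⟩ := exists_rbasis_Rp p H
  obtain ⟨W, I, hI, c, q, hW, hq, hs⟩ := WSurj.exists_W h x m ⟨_, ⟨b'⟩⟩ hC b h0 h1
  exact ⟨W, ⟨0, hW⟩, ⟨I, hI, ⟨c⟩⟩, ⟨q, hq, hs⟩⟩

end Vale.Agent.P093.N.Fin
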