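import Vale.Agent.P093.N.Nak1
import Vale.Agent.P093.N.PLocSp
import Vale.Agent.P093.N4.Dim
import Vale.Agent.P251.M.QOut

/-!
# P093, block N:NAK (4): the Hurewicz argument

`𝟙 ⟶ R ⟶ J` a cofibre sequence with `J` in `BigCell 2`.

* `conn_tensor_bigCell` : `BigCell a J`, `Conn m X` imply `Conn (m + a) (X ⊗ J)`;
* `conn_of_null` : if `X` is connective in some degree and `π_k (R ⊗ X) = 0` for `k < N`, then
  `π_k X = 0` for `k < N`;
* `RBasis.conn` : if `X` has an `R'`-basis in degrees `≥ B` and `π_k R' = 0` for `k < 0`, then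
  `π_k (R' ⊗ X) = 0` for `k < 2 B`;
* `conn_of_rbasis` : the `p`-local combination, `R' = R ⊗ S`, `X ≅ S ⊗ X`.
-/

open CategoryTheory MonoidalCategory MonObj Limits Pretriangulated

set_option linter.unusedSectionVars false

universe v u

noncomputable section

namespace Vale.Agent.P093.Nak

open Vale.Agent.P251.M hiding IsCpt
open Vale.Agent.P251.T Vale.Agent.P251.M.EvenSpheres Vale.Agent.P251.S
  Vale.Agent.P251.X Vale.Agent.P093.N.LR

variable {T : Type u} [Category.{v} T] [Preadditive T] [HasZeroObject T]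
    [HasShift T ℤ] [∀ n : ℤ, (shiftFunctor T n).Additive] [Pretriangulated T]
    [MonoidalCategory T]

section Coprod

variable [HasCoproducts.{0} T]

/-- Coproducts of connective objects are connective. -/
lemma conn_coprod (hS : IsCpt (𝟙_ T)) {n : ℤ} {I : Type} (X : I → T) (h : ∀ i, Conn n (X i)) :
    Conn n (∐ X) := by
  intro k hk f
  obtain ⟨s, g, rfl⟩ := hS.shift k X f
  refine Finset.sum_eq_zero fun i _ => ?_
  rw [h i k hk (g i), zero_comp]

variable [SymmetricCategory T] [TensorTriangulated T] [MonoidalClosed T]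

/-- `BigCell a J`, `Conn m X` imply `Conn (m + a) (X ⊗ J)`. -/
lemma conn_tensor_bigCell (hS : IsCpt (𝟙_ T)) {m a : ℤ} {X J : T} (hX : Conn m X)
    (hJ : BigCell T a J) (p : ℤ) (h : m + a = p) : Conn p (X ⊗ J) := by
  induction hJ with
  | sphere k hk =>
    exact Conn.of_iso (tensorUnitShiftIso X k).symm ((hX.shift k (m + k) rfl).mono (by omega))
  | coprod Y _ ih =>
    exact Conn.of_iso (PreservesCoproduct.iso (tensorLeft X) Y).symm (conn_coprod hS _ ih)
  | ext Δ hΔ _ _ ih₁ ih₃ =>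
    exact Conn.ext _ (TensorTriangulated.distinguished X Δ hΔ) ih₁ ih₃

/-- `BigCell a J`, `Conn m X` imply `Conn (m + a) (J ⊗ X)`. -/
lemma conn_bigCell_tensor (hS : IsCpt (𝟙_ T)) {m a : ℤ} {X J : T} (hX : Conn m X)
    (hJ : BigCell T a J) (p : ℤ) (h : m + a = p) : Conn p (J ⊗ X) :=
  Conn.of_iso (β_ X J) (conn_tensor_bigCell hS hX hJ p h)

variable {R J : T} {u : 𝟙_ T ⟶ R} {ρ : R ⟶ J} {δ : J ⟶ (𝟙_ T)⟦(1 : ℤ)⟧}

/-- one step of the Hurewicz argument -/
lemma conn_succ (hS : IsCpt (𝟙_ T)) (hJ : Triangle.mk u ρ δ ∈ distTriang T)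
    (hJc : BigCell T 2 J) {m : ℤ} {X : T} (hX : Conn m X)
    (h : ∀ f : (𝟙_ T)⟦m⟧ ⟶ R ⊗ X, f = 0) : Conn (m + 1) X := by
  intro k hk f
  rcases lt_or_eq_of_le (show k ≤ m by omega) with h1 | rfl
  · exact hX k h1 f
  -- the triangle `X ⊗ (𝟙 ⟶ R ⟶ J)`
  have hd := inv_rot_of_distTriang _ (TensorTriangulated.distinguished X _ hJ)
  have h2 : (f ≫ (ρ_ X).inv) ≫ (X ◁ u) = 0 := by
    have h3 := h (((f ≫ (ρ_ X).inv) ≫ (X ◁ u)) ≫ (β_ X R).hom)
    rw [← cancel_mono (β_ X R).hom, h3, zero_comp]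
  obtain ⟨g, hg⟩ := Triangle.coyoneda_exact₂ _ hd (f ≫ (ρ_ X).inv) h2
  have h4 : g = 0 := by
    have h5 : Conn (k + 1) ((X ⊗ J)⟦(-1 : ℤ)⟧) :=
      (conn_tensor_bigCell hS hX hJc (k + 2) rfl).shift (-1) (k + 1) (by ring)
    exact h5 k (by omega) g
  rw [h4, zero_comp] at hg
  rw [← cancel_mono (ρ_ X).inv, zero_comp]
  exact hg

/-- **Hurewicz.** If `X` is connective in some degree and `π_k (R ⊗ X) = 0` for `k < N`, then
`X` is `N`-connective. -/
theorem conn_of_null (hS : IsCpt (𝟙_ T)) (hJ : Triangle.mk u ρ δ ∈ distTriang T)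
    (hJc : BigCell T 2 J) {B₀ N : ℤ} {X : T} (hX : Conn B₀ X) (h : Conn N (R ⊗ X)) :
    Conn N X := by
  obtain ⟨n, hn⟩ : ∃ n : ℕ, N ≤ B₀ + n := ⟨(N - B₀).toNat, by omega⟩
  suffices H : ∀ n : ℕ, Conn (min N (B₀ + n)) X by
    have := H n
    rwa [min_eq_left hn] at this
  intro n
  induction n with
  | zero => exact hX.mono (by simp)
  | succ n ih =>
    rcases le_total N (B₀ + n) with h1 | h1
    · rw [min_eq_left h1] at ih
      exact ih.mono (min_le_left _ _)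
    · rw [min_eq_right h1] at ih
      rcases lt_or_eq_of_le h1 with h2 | h2
      · have h3 := conn_succ hS hJ hJc ih (fun f => h _ h2 f)
        refine h3.mono ?_
        rw [min_le_iff]
        right
        push_cast
        omega
      · rw [← h2]
        exact ih.mono (by rw [h2]; exact min_le_left _ _)

/-- `Conn` for an object with a basis -/
theorem RBasis.conn (hS : IsCpt (𝟙_ T)) {R' X : T} [MonObj R'] {ι : Type}
    (b : RBasis (stdEven T) R' X ι) (hR : Conn 0 R') {B : ℤ} (hB : ∀ j, B ≤ b.k j) :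
    Conn (2 * B) (R' ⊗ X) := by
  have := b.isIso
  refine Conn.of_iso (asIso (Sigma.desc fun j => lin (ModStr.free R' X) (b.w j))) ?_
  refine conn_coprod hS _ fun j => ?_
  have h1 : Conn (2 * b.k j) (R'⟦2 * b.k j⟧) := hR.shift _ _ (by ring)
  have h2 : Conn (2 * b.k j) (R' ⊗ (stdEven T).S (b.k j)) :=
    Conn.of_iso ((whiskerLeftIso R' (stdSph (b.k j)) ≪≫ tensorUnitShiftIso R' _).symm) h1
  exact h2.mono (by have := hB j; omega)

/-- **Hurewicz for an `S`-local object with an `R ⊗ S`-basis.** -/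
theorem conn_of_rbasis (hS : IsCpt (𝟙_ T)) (hJ : Triangle.mk u ρ δ ∈ distTriang T)
    (hJc : BigCell T 2 J) {B₀ B : ℤ} {X S R' : T} (hX : Conn B₀ X) (e : S ⊗ X ≅ X)
    (e' : R' ≅ R ⊗ S) [MonObj R'] {ι : Type} (b : RBasis (stdEven T) R' X ι)
    (hR : Conn 0 R') (hB : ∀ j, B ≤ b.k j) : Conn (2 * B) X := by
  refine conn_of_null hS hJ hJc hX ?_
  exact Conn.of_iso (whiskerRightIso e' X ≪≫ α_ R S X ≪≫ whiskerLeftIso R e)
    (b.conn hS hR hB)

/-- maps from a finite complex of dimension `< 2 B` vanish -/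
theorem eq_zero_of_rbasis (hS : IsCpt (𝟙_ T)) (hJ : Triangle.mk u ρ δ ∈ distTriang T)
    (hJc : BigCell T 2 J) {B₀ B : ℤ} {X S R' : T} (hX : Conn B₀ X) (e : S ⊗ X ≅ X)
    (e' : R' ≅ R ⊗ S) [MonObj R'] {ι : Type} (b : RBasis (stdEven T) R' X ι)
    (hR : Conn 0 R') (hB : ∀ j, B ≤ b.k j) {n : ℤ} {W : T} (hW : DimLE n W) (hn : n < 2 * B)
    (f : W ⟶ X) : f = 0 :=
  DimLE.hom_eq_zero hn hW (conn_of_rbasis hS hJ hJc hX e e' b hR hB) f

open Vale.Agent.P093.PLoc in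
/-- the `p`-local sphere has cells of dimension `≥ 0` -/
theorem bigCell_Sp (p : ℕ) : BigCell T 0 (Sp T p) := by
  have h : BigCell T 0 (∐ fun _ : ℕ => 𝟙_ T) :=
    BigCell.coprod _ fun _ => BigCell.of_iso ((shiftFunctorZero T ℤ).app (𝟙_ T))
      (BigCell.sphere 0 le_rfl)
  exact BigCell.cone _ (spTel T p).dist h h

open Vale.Agent.P093.PLoc in
/-- `p`-localization preserves connectivity -/
theorem conn_tensor_Sp (hS : IsCpt (𝟙_ T)) {m : ℤ} {X : T} (hX : Conn m X) (p : ℕ) :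
    Conn m (X ⊗ Sp T p) :=
  conn_tensor_bigCell hS hX (bigCell_Sp p) m (by ring)

end Coprod

end Vale.Agent.P093.Nak
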