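import Vale.Agent.P093.N.YSplitBasis
import Vale.Agent.P093.N.HCoact
import Vale.Agent.P093.N.PLocRight
import Vale.Agent.P093.N1.EBase
import Vale.Agent.P093.N.Hur

/-!
# P093, block N3, T-side end: the summand `F_y` of `V ⊗ S_(p)`

`y : V ⟶ V`, `y ≫ y = n • y`, `n` prime to `p`; `R` a `p`-local commutative monoid with a point
`c : Pt E R p 0` whose degree `0` part is local (`LocalPt c`); `b` an `R`-basis of `V`.

* `exists_split` : there is a retract `Y` of `V ⊗ S_(p)` with `n • (r ≫ s) = y ▷ S_(p)`, with an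
  `R`-basis (bounded below, degreewise finite), `p`-local, `Conn m V → Conn m Y`;
* `Split.inc : H Y → H V`, `Split.prj : H V → H Y` are colinear, `prj ∘ inc = id`,
  `n • (inc ∘ prj) = H y`; `Y ≠ 0` if `H y ≠ 0`.
-/

open CategoryTheory MonoidalCategory MonObj Limits Pretriangulated TensorProduct

set_option linter.unusedSectionVars false

universe v u w

noncomputable section

namespace Vale.Agent.P093.N.YSplit

open Vale.Agent.P251.M hiding IsCpt
open Vale.Agent.P251.S Vale.Agent.P251.T Vale.Agent.P251.M.EvenSpheres Vale.Agent.P251.X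
  Vale.Agent.P093.Nak Vale.Agent.P093.N.HH Vale.Agent.P093.PLoc Vale.Agent.P093.N.Co

/-! ### Colinear maps -/

section co

variable {k A M N : Type*} [CommSemiring k] [AddCommMonoid A] [Module k A]
  [Coalgebra k A] [AddCommMonoid M] [Module k M] [AddCommMonoid N] [Module k N]

/-- the inverse of a colinear bijection is colinear -/
theorem Colin.symm {ρ : M →ₗ[k] A ⊗[k] M} {σ : N →ₗ[k] A ⊗[k] N} (e : M ≃ₗ[k] N)
    (h : Colin ρ σ e.toLinearMap) : Colin σ ρ e.symm.toLinearMap := by
  have h1 : e.symm.toLinearMap ∘ₗ e.toLinearMap = LinearMap.id := by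
    ext x
    exact e.symm_apply_apply x
  apply LinearMap.ext
  intro x
  obtain ⟨x, rfl⟩ := e.surjective x
  have h2 : σ (e x) = e.toLinearMap.lTensor A (ρ x) := LinearMap.congr_fun h x
  change ρ (e.symm (e x)) = e.symm.toLinearMap.lTensor A (σ (e x))
  rw [h2, e.symm_apply_apply, ← LinearMap.comp_apply, ← LinearMap.lTensor_comp, h1,
    LinearMap.lTensor_id, LinearMap.id_apply]

end co

/-! ### The functor `H` -/

section vtot

variable {T : Type u} [Category.{v} T] [Preadditive T] [MonoidalCategory T]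
  [MonoidalPreadditive T] [SymmetricCategory T] {E : EvenSpheres T} {R : T} [MonObj R]
  {p N : ℕ} (c : Pt E R p N)

theorem vtot_map_zero (X Y : T) : Vtot.map c (0 : X ⟶ Y) = 0 := by
  have h3 := Vtot.map_add' (c := c) (0 : X ⟶ Y) 0
  rw [add_zero] at h3
  exact left_eq_add.1 h3

/-- `H` is additive -/
def vtotHom (X Y : T) : (X ⟶ Y) →+ (Vtot c X →ₗ[ZMod p] Vtot c Y) where
  toFun f := Vtot.map c f
  map_zero' := vtot_map_zero c X Y
  map_add' f g := Vtot.map_add' f g

theorem vtot_map_zsmul {X Y : T} (n : ℤ) (f : X ⟶ Y) : Vtot.map c (n • f) = n • Vtot.map c f :=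
  map_zsmul (vtotHom c X Y) n f

/-- `H g` is bijective if `R ◁ g` is an isomorphism -/
theorem vtot_map_bijective {X Y : T} (g : X ⟶ Y) [IsIso (R ◁ g)] :
    Function.Bijective (Vtot.map c g) := by
  have hsurj : Function.Surjective (MP.map E R g) := by
    intro y
    induction y using MP.ind with
    | zero => exact ⟨0, map_zero _⟩
    | of j f => exact ⟨MP.of E R X j (f ≫ inv (R ◁ g)), by simp⟩
    | add x y hx hy =>
      obtain ⟨x', hx⟩ := hx
      obtain ⟨y', hy⟩ := hy
      exact ⟨x' + y', by rw [map_add, hx, hy]⟩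
  have hinj : Function.Injective (MP.map E R g) := by
    rw [injective_iff_map_eq_zero]
    intro x hx
    refine DFinsupp.ext fun j => ?_
    have h1 : ∀ x : MP E R X, MP.comp E R Y j (MP.map E R g x) = MP.comp E R X j x ≫ R ◁ g := by
      intro x
      induction x using MP.ind with
      | zero => simp
      | of i f =>
        by_cases hi : i = j
        · subst hi
          rw [MP.map_of, MP.comp_of_same, MP.comp_of_same]
        · rw [MP.map_of, MP.comp_of_ne hi, MP.comp_of_ne hi, zero_comp]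
      | add x y hx hy => rw [map_add, map_add, hx, hy, map_add, Preadditive.add_comp]
    have h2 := h1 x
    rw [hx, map_zero, ← zero_comp (f := R ◁ g), cancel_mono] at h2
    exact h2.symm
  constructor
  · rw [injective_iff_map_eq_zero]
    intro x hx
    induction x using Vtot.ind with
    | h x =>
      rw [Vtot.map_mk, Vtot.mk_eq_zero] at hx
      rw [Vtot.mk_eq_zero]
      let e := LinearEquiv.ofBijective (MP.map E R g) ⟨hinj, hsurj⟩
      have h1 : c.I • (⊤ : Submodule (HRing E R) (MP E R Y)) =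
          (c.I • (⊤ : Submodule (HRing E R) (MP E R X))).map (MP.map E R g) := by
        rw [Submodule.map_smul'', Submodule.map_top, LinearMap.range_eq_top.2 hsurj]
      rw [h1] at hx
      obtain ⟨x', hx', h2⟩ := hx
      rwa [← hinj h2]
  · intro y
    induction y using Vtot.ind with
    | h y =>
      obtain ⟨x, rfl⟩ := hsurj y
      exact ⟨Vtot.mk c X x, rfl⟩

theorem vtot_subsingleton {X : T} (h : 𝟙 X = 0) (x : Vtot c X) : x = 0 := by
  have h1 := Vtot.map_id (c := c) X
  rw [h, vtot_map_zero] at h1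
  exact (LinearMap.congr_fun h1 x).symm

end vtot

section Stable

variable {T : Type u} [Category.{v} T] [Preadditive T] [HasZeroObject T]
    [HasShift T ℤ] [∀ n : ℤ, (shiftFunctor T n).Additive] [Pretriangulated T] [IsTriangulated T]
    [MonoidalCategory T] [SymmetricCategory T] [TensorTriangulated T] [MonoidalClosed T]
    [HasCoproducts.{0} T] [HasProducts.{0} T] [StableCat T] {E : EvenSpheres T}
    {R : T} [MonObj R] [IsCommMonObj R] {p : ℕ} [hp : Fact p.Prime]

/-- `R`-bases of retracts, for a local point. -/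
theorem exists_retract {c : Pt E R p 0} (hc : LocalPt c) (hS : ∀ n, IsSphere (E.S n))
    {X Y : T} {I : Type} (b : RBasis E R X I) (hb : b.FinType) (s : Y ⟶ X) (r : X ⟶ Y)
    (hsr : s ≫ r = 𝟙 Y) :
    ∃ (J : Type) (f : J → I) (b' : RBasis E R Y J), Function.Injective f ∧ b'.FinType ∧
      ∀ j, b'.k j = b.k (f j) := by
  obtain ⟨J, hJ⟩ := RBasis.exists_retract c.χ hS hc.neg hc.isUnit
    (fun y => by
      obtain ⟨a, ⟨a, rfl⟩, h⟩ := chi_surj c y
      exact ⟨a, h⟩) b hb s r hsr
  refine ⟨J, Subtype.val, ⟨fun j => b.k j, fun j => b.w j ≫ R ◁ r, hJ⟩, Subtype.val_injective,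
    ?_, fun j => rfl⟩
  exact N1.FT.comp (k := b.k) hb Subtype.val_injective

/-- The summand of `V ⊗ S_(p)` given by `y : V ⟶ V`, `y ≫ y = n • y`. -/
structure Split (E : EvenSpheres T) (R : T) [MonObj R] (p : ℕ) {V : T} (y : V ⟶ V) (n : ℤ)
    {I : Type} (b : RBasis E R V I) where
  /-- the summand -/
  Y : T
  /-- the inclusion -/
  s : Y ⟶ V ⊗ Sp T p
  /-- the projection -/
  r : V ⊗ Sp T p ⟶ Y
  sr : s ≫ r = 𝟙 Y
  rs : n • (r ≫ s) = y ▷ Sp T p
  loc : IsPLocal p Y
  conn : ∀ m, Conn m V → Conn m Y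
  /-- the index set of the basis -/
  J : Type
  /-- the basis -/
  bas : RBasis E R Y J
  /-- the map of the index sets -/
  f : J → I
  f_inj : Function.Injective f
  k_eq : ∀ j, bas.k j = b.k (f j)
  fin : bas.FinType

/-- **Existence of the summand.** -/
theorem exists_split (hR : IsPLocal p R) {c : Pt E R p 0} (hc : LocalPt c)
    (hS : ∀ n, IsSphere (E.S n)) {V : T} (y : V ⟶ V) (n : ℤ) (hn : n.natAbs.Coprime p)
    (hy : y ≫ y = n • y) {I : Type} (b : RBasis E R V I) (hb : b.FinType) :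
    Nonempty (Split E R p y n b) := by
  have hp1 := hp.out.ne_one
  obtain ⟨Y, s, r, hsr, hrs⟩ := exists_split_of_local
    (isPLocal_tensor_Sp hp1 V) (y ▷ Sp T p) n hn (by
      rw [← comp_whiskerRight, hy]
      exact ((tensorRight (Sp T p)).map_zsmul))
  have hI : IsIso (R ◁ etaR p V) := N1.isIso_whiskerLeft_etaR hp1 hR V
  obtain ⟨J, f, b', hf, hfin, hk⟩ := exists_retract hc hS (N1.ofWhisker (etaR p V) hI b)
    (N1.finType_ofWhisker _ hI hb) s r hsr
  exact ⟨⟨Y, s, r, hsr, hrs, (isPLocal_tensor_Sp hp1 V).retract s r hsr,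
    fun m hm => (conn_tensor_Sp Vale.Agent.P093.PLoc.isCpt_unit hm p).of_retract s r hsr, J, b', f,
    hf, hk, hfin⟩⟩

namespace Split

variable {V : T} {y : V ⟶ V} {n : ℤ} {I : Type} {b : RBasis E R V I} (F : Split E R p y n b)

theorem le_k (B : ℤ) (hB : ∀ i, B ≤ b.k i) (j : F.J) : B ≤ F.bas.k j := by
  rw [F.k_eq]
  exact hB _

theorem good : Good E R F.Y := ⟨F.J, ⟨F.bas⟩⟩

theorem isIso_etaR (hR : IsPLocal p R) (V : T) : IsIso (R ◁ etaR p V) :=
  N1.isIso_whiskerLeft_etaR hp.out.ne_one hR V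

/-- `H V ≃ H (V ⊗ S_(p))` -/
def etaEquiv (hR : IsPLocal p R) (c : Pt E R p 0) (V : T) :
    Vtot c V ≃ₗ[ZMod p] Vtot c (V ⊗ Sp T p) :=
  haveI := isIso_etaR hR V
  LinearEquiv.ofBijective (Vtot.map c (etaR p V)) (vtot_map_bijective c (etaR p V))

theorem etaEquiv_toLinearMap (hR : IsPLocal p R) (c : Pt E R p 0) (V : T) :
    (etaEquiv hR c V).toLinearMap = Vtot.map c (etaR p V) := rfl

/-- the inclusion `H Y → H V` -/
def inc (hR : IsPLocal p R) (c : Pt E R p 0) : Vtot c F.Y →ₗ[ZMod p] Vtot c V :=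
  (etaEquiv hR c V).symm.toLinearMap ∘ₗ Vtot.map c F.s

/-- the projection `H V → H Y` -/
def prj (c : Pt E R p 0) : Vtot c V →ₗ[ZMod p] Vtot c F.Y :=
  Vtot.map c (etaR p V ≫ F.r)

theorem prj_inc (hR : IsPLocal p R) (c : Pt E R p 0) :
    F.prj c ∘ₗ F.inc hR c = LinearMap.id := by
  apply LinearMap.ext
  intro x
  change Vtot.map c (etaR p V ≫ F.r) ((etaEquiv hR c V).symm (Vtot.map c F.s x)) = x
  rw [Vtot.map_comp, LinearMap.comp_apply]
  have h1 : Vtot.map c (etaR p V) ((etaEquiv hR c V).symm (Vtot.map c F.s x)) =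
      Vtot.map c F.s x := (etaEquiv hR c V).apply_symm_apply _
  rw [h1, ← LinearMap.comp_apply, ← Vtot.map_comp, F.sr, Vtot.map_id, LinearMap.id_apply]

theorem inc_prj (hR : IsPLocal p R) (c : Pt E R p 0) :
    n • (F.inc hR c ∘ₗ F.prj c) = Vtot.map c y := by
  apply LinearMap.ext
  intro x
  apply (etaEquiv hR c V).injective
  change (etaEquiv hR c V) (n • (etaEquiv hR c V).symm
    (Vtot.map c F.s (Vtot.map c (etaR p V ≫ F.r) x))) =
    Vtot.map c (etaR p V) (Vtot.map c y x)
  rw [map_zsmul, LinearEquiv.apply_symm_apply]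
  have h1 : etaR p V ≫ y ▷ Sp T p = y ≫ etaR p V := (etaR_naturality p y).symm
  have h2 : n • ((etaR p V ≫ F.r) ≫ F.s) = y ≫ etaR p V := by
    rw [← h1, ← F.rs, Preadditive.comp_zsmul, Category.assoc]
  have h3 := congrArg (fun g => Vtot.map c g x) h2
  simp only [vtot_map_zsmul, Vtot.map_comp, LinearMap.smul_apply, LinearMap.comp_apply] at h3
  simpa only [Vtot.map_comp, LinearMap.comp_apply] using h3

/-- `Y` is not zero if `H y` is not zero. -/
theorem not_isZero (c : Pt E R p 0) (hR : IsPLocal p R) (h : Vtot.map c y ≠ 0) :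
    ¬ IsZero F.Y := by
  intro hz
  apply h
  rw [← F.inc_prj hR c]
  apply LinearMap.ext
  intro x
  change n • F.inc hR c (F.prj c x) = 0
  rw [vtot_subsingleton c ((IsZero.iff_id_eq_zero _).1 hz) (F.prj c x), map_zero, smul_zero]

variable {P : Type w} [CommRing P] [Bialgebra (ZMod p) P] (D : CoDat E R p P)

theorem colin_inc (hS : ∀ n, IsSphere (E.S n)) (hR : IsPLocal p R) :
    Colin (D.psi F.Y) (D.psi V) (F.inc hR D.c) := by
  have hV : Good E R V := ⟨I, ⟨b⟩⟩
  have hI := isIso_etaR hR V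
  have hVS : Good E R (V ⊗ Sp T p) := ⟨I, ⟨N1.ofWhisker (etaR p V) hI b⟩⟩
  exact (Colin.symm (etaEquiv hR D.c V) (D.psi_map hS hV hVS (etaR p V))).comp
    (D.psi_map hS F.good hVS F.s)

theorem colin_prj (hS : ∀ n, IsSphere (E.S n)) :
    Colin (D.psi V) (D.psi F.Y) (F.prj D.c) :=
  D.psi_map hS ⟨I, ⟨b⟩⟩ F.good (etaR p V ≫ F.r)

/-- `H Y` is injective if `H V` is injective, or, more generally, if it is a colinear retract of an
injective comodule. -/
theorem inj (hS : ∀ n, IsSphere (E.S n)) (hR : IsPLocal p R) (h : Inj (D.psi V)) :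
    Inj (D.psi F.Y) :=
  h.retract (F.colin_inc D hS hR) (F.colin_prj D hS) (F.prj_inc hR D.c)

end Split

end Stable

end Vale.Agent.P093.N.YSplit
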