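import Vale.Agent.P093.N.YoungCo
import Vale.Agent.P093.N.HPsi
import Vale.Agent.P093.N.PLocRight

/-!
# P093, part N, end of Step 3: powers and the Young symmetrizer for `H X = Vtot c X`

* `laxF c : LaxF (ZMod p) T`;
* `kun_laxF` : the Künneth isomorphisms;
* `map_etaR_bijective` : `H V ⟶ H (V ⊗ S_(p))` is bijective (`R` a `p`-local ring);
* `exists_young_split` : the retract `F` of `V ⊗ S_(p)`, `V = tpow W (M p r)`, which is given by the
  Young symmetrizer;
* `young_inj` : `H F` is an injective comodule and it is not zero, if `H W` has a colinear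
  surjection to the Hopf algebra.
-/

open CategoryTheory MonoidalCategory Limits Pretriangulated MonObj
open scoped TensorProduct

set_option linter.unusedSectionVars false

universe v u w

noncomputable section

namespace Vale.Agent.P093.N.YoungH

open Vale.Agent.P251.S Vale.Agent.P251.T Vale.Agent.P251.M Vale.Agent.P251.M.EvenSpheres
  Vale.Agent.P251.X Vale.Agent.P093.Nak Vale.Agent.P093.N.HH Vale.Agent.P093.SymPow
  Vale.Agent.P093.PLoc Vale.Agent.P093.N.Young

section laxF

variable {T : Type u} [Category.{v} T] [Preadditive T] [MonoidalCategory T]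
  [MonoidalPreadditive T] [SymmetricCategory T] {E : EvenSpheres T} {R : T} [MonObj R]
  [IsCommMonObj R] {p N : ℕ} (c : Pt E R p N)

/-- `X ↦ Vtot c X` as a lax symmetric monoidal functor -/
def laxF : LaxF (ZMod p) T where
  V X := Vtot c X
  map f := Vtot.map c f
  map_id X x := by rw [Vtot.map_id]; rfl
  map_comp f g x := by rw [Vtot.map_comp]; rfl
  m X Y := Vtot.prod c X Y
  e := Vtot.one c
  m_nat f g x y := Vtot.map_prod f g x y
  m_assoc X Y Z x y z := Vtot.prod_assoc X Y Z x y z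
  m_comm X Y x y := Vtot.prod_comm X Y x y

@[simp] theorem laxF_V (X : T) : (laxF c).V X = Vtot c X := rfl

theorem laxF_map {X Y : T} (f : X ⟶ Y) : (laxF c).map f = Vtot.map c f := rfl

theorem laxF_m (X Y : T) : (laxF c).m X Y = Vtot.prod c X Y := rfl

theorem laxF_add {X Y : T} (f g : X ⟶ Y) (x : (laxF c).V X) :
    (laxF c).map (f + g) x = (laxF c).map f x + (laxF c).map g x := by
  rw [laxF_map, laxF_map, laxF_map, Vtot.map_add']
  rfl

theorem MP_map_bijective {X Y : T} (f : X ⟶ Y) [IsIso (R ◁ f)] :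
    Function.Bijective (MP.map E R f) := by
  constructor
  · intro x y h
    have key : ∀ z : MP E R X, MP.lift (fun j =>
        { toFun := fun a => MP.of E R X j (a ≫ inv (R ◁ f))
          map_zero' := by rw [zero_comp, map_zero]
          map_add' := fun x y => by rw [Preadditive.add_comp, map_add] }) (MP.map E R f z) = z := by
      intro z
      induction z using MP.ind with
      | zero => rw [map_zero, map_zero]
      | of j x =>
        rw [MP.map_of, MP.lift_of]
        change MP.of E R X j ((x ≫ R ◁ f) ≫ inv (R ◁ f)) = _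
        rw [Category.assoc, IsIso.hom_inv_id, Category.comp_id]
      | add x y hx hy => rw [map_add, map_add, hx, hy]
    rw [← key x, ← key y, h]
  · intro y
    induction y using MP.ind with
    | zero => exact ⟨0, map_zero _⟩
    | of j y =>
      refine ⟨MP.of E R X j (y ≫ inv (R ◁ f)), ?_⟩
      rw [MP.map_of, Category.assoc, IsIso.inv_hom_id, Category.comp_id]
    | add x y hx hy =>
      obtain ⟨a, rfl⟩ := hx
      obtain ⟨b, rfl⟩ := hy
      exact ⟨a + b, map_add _ _ _⟩

theorem bijective_map_of_isIso {X Y : T} (f : X ⟶ Y) [IsIso (R ◁ f)] :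
    Function.Bijective (Vtot.map c f) := by
  have h1 := MP_map_bijective (E := E) (R := R) f
  constructor
  · rw [injective_iff_map_eq_zero]
    intro x hx
    induction x using Vtot.ind with
    | h x =>
      rw [Vtot.map_mk, Vtot.mk_eq_zero] at hx
      rw [Vtot.mk_eq_zero]
      have h2 : (c.I • (⊤ : Submodule (HRing E R) (MP E R X))).map (MP.map E R f) =
          c.I • (⊤ : Submodule (HRing E R) (MP E R Y)) := by
        rw [Submodule.map_smul'', Submodule.map_top, LinearMap.range_eq_top.2 h1.2]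
      rw [← h2] at hx
      obtain ⟨x', hx', h3⟩ := hx
      rwa [← h1.1 h3]
  · intro y
    induction y using Vtot.ind with
    | h y =>
      obtain ⟨x, rfl⟩ := h1.2 y
      exact ⟨Vtot.mk c X x, rfl⟩

end laxF

section tri

variable {T : Type u} [Category.{v} T] [Preadditive T] [HasZeroObject T]
    [HasShift T ℤ] [∀ n : ℤ, (shiftFunctor T n).Additive] [Pretriangulated T] [IsTriangulated T]
    [MonoidalCategory T] [SymmetricCategory T] [TensorTriangulated T] [MonoidalClosed T]
    [HasCoproducts.{0} T] [HasProducts.{0} T] [StableCat T] {E : EvenSpheres T}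
    {R : T} [MonObj R] [IsCommMonObj R]

/-- `R ⊗ V ⟶ R ⊗ (V ⊗ S_(p))` is an isomorphism if `R` is `p`-local -/
theorem isIso_whiskerLeft_etaR {p : ℕ} (hp : p ≠ 1) (hR : IsPLocal p R) (V : T) :
    IsIso (R ◁ etaR p V) := by
  have h1 : R ◁ etaR p V = etaR p (R ⊗ V) ≫ (α_ R V (Sp T p)).hom := by
    unfold etaR
    simp
  have h2 : IsIso (etaR p (R ⊗ V)) := (isPLocal_iff_isIso_etaR hp).1 (hR.tensor_right V)
  rw [h1]
  infer_instance

/-- transport of a basis along a map `f` with `R ⊗ f` an isomorphism -/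
def _root_.Vale.Agent.P093.Nak.RBasis.ofIsoR {X Y : T} {J : Type} (b : RBasis E R X J)
    (f : X ⟶ Y) (hf : IsIso (R ◁ f)) : RBasis E R Y J where
  k := b.k
  w j := b.w j ≫ R ◁ f
  isIso := by
    have h1 : (Sigma.desc fun j => lin (ModStr.free R Y) (b.w j ≫ R ◁ f)) =
        (Sigma.desc fun j => lin (ModStr.free R X) (b.w j)) ≫ R ◁ f := by
      refine Sigma.hom_ext _ _ fun j => ?_
      rw [Sigma.ι_desc, Sigma.ι_desc_assoc, lin_comp _ (ModStr.free R Y) _ _
        (isLinear_whiskerLeft f)]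
    have := b.isIso
    rw [h1]
    infer_instance

@[simp] theorem ofIsoR_k {X Y : T} {J : Type} (b : RBasis E R X J) (f : X ⟶ Y)
    (hf : IsIso (R ◁ f)) : (b.ofIsoR f hf).k = b.k := rfl

@[simp] theorem ofIsoR_w {X Y : T} {J : Type} (b : RBasis E R X J) (f : X ⟶ Y)
    (hf : IsIso (R ◁ f)) (j : J) : (b.ofIsoR f hf).w j = b.w j ≫ R ◁ f := rfl

theorem good_of_isoR {X Y : T} (h : Good E R X) (f : X ⟶ Y) (hf : IsIso (R ◁ f)) :
    Good E R Y := by
  obtain ⟨J, ⟨b⟩⟩ := h
  exact ⟨J, ⟨b.ofIsoR f hf⟩⟩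

/-- the localization of a good object is good -/
theorem good_tensor_Sp {p : ℕ} (hp : p ≠ 1) (hR : IsPLocal p R) {V : T} (hV : Good E R V) :
    Good E R (V ⊗ Sp T p) :=
  good_of_isoR hV (etaR p V) (isIso_whiskerLeft_etaR hp hR V)

theorem good_tpow {W : T} (hW : Good E R W) : ∀ m, Good E R (tpow W m)
  | 0 => Good.unit E R
  | m + 1 => hW.tensor (good_tpow hW m)

theorem kun_laxF {p N : ℕ} [Fact p.Prime] (c : Pt E R p N) (hS : ∀ n, IsSphere (E.S n)) {W : T}
    (hW : Good E R W) : (laxF c).Kun W where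
  unit := smul_one_bijective c hS
  bij m := kun_bijective c hS hW (good_tpow hW m)

/-- **the splitting** given by the Young symmetrizer -/
theorem exists_young_split {p : ℕ} (hp : p.Prime) (W : T) (r : ℕ) :
    ∃ (F : T) (i : F ⟶ tpow W (M p r) ⊗ Sp T p) (s : tpow W (M p r) ⊗ Sp T p ⟶ F),
      i ≫ s = 𝟙 F ∧ nY p r • (s ≫ i) =
        (permAlg W (M p r) (Y p r) : tpow W (M p r) ⟶ tpow W (M p r)) ▷ Sp T p := by
  refine exists_split_of_local (isPLocal_tensor_Sp hp.ne_one _) _ (nY p r)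
    (mem_cop.1 ((mem_cop_iff_not_dvd hp).2 (not_dvd_nY hp r))) ?_
  rw [← comp_whiskerRight, ← permAlg_mul, Y_mul_Y, map_zsmul]
  exact whiskerRight_zsmul _ _ _

variable {p : ℕ} [hp : Fact p.Prime] {P : Type w} [CommRing P] [Bialgebra (ZMod p) P]
  (D : CoDat E R p P)

/-- the multiplicative coaction of `P` on `H` -/
def coact (hS : ∀ n, IsSphere (E.S n)) : (laxF D.c).Coact (fun X => Good E R X) P where
  rho X := D.psi X
  isCoact hX := D.isCoact_psi hS hX
  colin_map hX hY f := D.psi_map hS hX hY f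
  colin_m hX hY := D.colin_kun hS hX hY
  unit := Good.unit E R
  tensor hX hY := hX.tensor hY

theorem zmod_cast_ne_zero (c : ℤ) (hc : ¬ (p : ℤ) ∣ c) : (c : ZMod p) ≠ 0 := fun h =>
  hc ((ZMod.intCast_zmod_eq_zero_iff_dvd c p).1 h)

/-- **The homology of the Young summand**. -/
theorem young_inj (hS : ∀ n, IsSphere (E.S n)) (hR : IsPLocal p R) {S : P →ₗ[ZMod p] P}
    (hA : Co.IsAnti S) [Nontrivial P] {W : T} (hW : Good E R W)
    [Module.Finite (ZMod p) (D.H W)] {q : D.H W →ₗ[ZMod p] P}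
    (hq : Co.Colin (D.psi W) (Coalgebra.comul (R := ZMod p)) q) (hsurj : Function.Surjective q)
    {r : ℕ} (hr : Module.finrank (ZMod p) (D.H W) = r) {F : T}
    {i : F ⟶ tpow W (M p r) ⊗ Sp T p} {s : tpow W (M p r) ⊗ Sp T p ⟶ F} (his : i ≫ s = 𝟙 F)
    (hsi : nY p r • (s ≫ i) =
      (permAlg W (M p r) (Y p r) : tpow W (M p r) ⟶ tpow W (M p r)) ▷ Sp T p)
    (hF : Good E R F) : Co.Inj (D.psi F) ∧ Nontrivial (D.H F) := by
  have h1 : IsIso (R ◁ etaR p (tpow W (M p r))) := isIso_whiskerLeft_etaR hp.out.ne_one hR _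
  have hZ : Good E R (tpow W (M p r) ⊗ Sp T p) :=
    good_tensor_Sp hp.out.ne_one hR (good_tpow hW _)
  have h2 : Module.Finite (ZMod p) ((laxF D.c).V W) :=
    inferInstanceAs (Module.Finite (ZMod p) (D.H W))
  exact (coact D hS).young (fun f g x => laxF_add D.c f g x) hp.out zmod_cast_ne_zero hA hW
    (kun_laxF D.c hS hW) hq hsurj hr hF hZ his
    (bijective_map_of_isIso D.c (etaR p (tpow W (M p r)))) (etaR_naturality p _).symm
    (not_dvd_nY hp.out r) hsi

theorem not_isZero_of_nontrivial {N : ℕ} (c : Pt E R p N) {X : T} (h : Nontrivial (Vtot c X)) :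
    ¬ IsZero X := by
  intro h0
  obtain ⟨x, hx⟩ := exists_ne (0 : Vtot c X)
  have h1 : 𝟙 X = 0 := (IsZero.iff_id_eq_zero X).1 h0
  have h2 : Vtot.map c (𝟙 X) x = x := by rw [Vtot.map_id]; rfl
  rw [h1] at h2
  have h3 : Vtot.map c (0 : X ⟶ X) x = 0 := LaxF.map_zero' (laxF c)
    (fun f g x => laxF_add c f g x) x
  exact hx (h2.symm.trans h3)

/-- **End of Step 3**: from `W` with a colinear surjection `H W ⟶ P` there is a retract `F` of
`tpow W m ⊗ S_(p)` with `H F` an injective comodule, not zero. -/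
theorem exists_young (hS : ∀ n, IsSphere (E.S n)) (hR : IsPLocal p R) {S : P →ₗ[ZMod p] P}
    (hA : Co.IsAnti S) [Nontrivial P] {W : T} (hW : Good E R W)
    [Module.Finite (ZMod p) (D.H W)] {q : D.H W →ₗ[ZMod p] P}
    (hq : Co.Colin (D.psi W) (Coalgebra.comul (R := ZMod p)) q) (hsurj : Function.Surjective q) :
    ∃ (m : ℕ) (F : T) (i : F ⟶ tpow W m ⊗ Sp T p) (s : tpow W m ⊗ Sp T p ⟶ F),
      i ≫ s = 𝟙 F ∧ (Good E R F → Co.Inj (D.psi F) ∧ Nontrivial (D.H F) ∧ ¬ IsZero F) := by
  obtain ⟨F, i, s, his, hsi⟩ := exists_young_split hp.out W (Module.finrank (ZMod p) (D.H W))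
  refine ⟨_, F, i, s, his, fun hF => ?_⟩
  obtain ⟨h1, h2⟩ := young_inj D hS hR hA hW hq hsurj rfl his hsi hF
  exact ⟨h1, h2, not_isZero_of_nontrivial D.c h2⟩

end tri

end Vale.Agent.P093.N.YoungH
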