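import Vale.Agent.P093.N.FinalVl
import Vale.Agent.P093.N.YoungH
import Vale.Agent.P093.N.YSplitH
import Vale.Agent.P093.N1.LocPt
import Vale.Agent.P093.N.HopfInt
import Vale.Agent.P251.M.A7

/-!
# P093, part N: Step 3 from the object `W`

* `WObj h m W` : `W` is a finite even complex with a finite basis over `R' = MU ⊗ S_(p)` and a colinear
  surjection `H W → Pn p m`;
* `tpow_rbasis`, `tpow_evenCell` : powers;
* `youngIn_of_W`.
-/

open CategoryTheory MonoidalCategory Limits Pretriangulated MonObj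

set_option linter.unusedSectionVars false

universe v u

namespace Vale.Agent.P093.N.Fin

open Vale.Agent.P251.T Vale.Agent.P251.S Vale.Agent.P251.M Vale.Agent.P251.I
open Vale.Agent.P251.G Vale.Agent.P251.G.LC
open Vale.Agent.P093.N.TT Vale.Agent.P093.N.TT.UTri Vale.Agent.P093.N.LR
open Vale.Agent.P093.N1 Vale.Agent.P093.Nak Vale.Agent.P093.N.PhiT Vale.Agent.P093.SymPow
open Vale.Agent.P093.PLoc

variable {T : Type u} [Category.{v} T] [Preadditive T] [HasZeroObject T]
    [HasShift T ℤ] [∀ n : ℤ, (shiftFunctor T n).Additive] [Pretriangulated T] [IsTriangulated T]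
    [MonoidalCategory T] [SymmetricCategory T] [TensorTriangulated T] [MonoidalClosed T]
    [HasCoproducts.{0} T] [HasProducts.{0} T] [StableCat T]

/-- finite bases of the powers -/
theorem tpow_rbasis {E : EvenSpheres T} {R : T} [MonObj R] [IsCommMonObj R] {W : T} {J : Type}
    [Finite J] (b : RBasis E R W J) : ∀ m : ℕ, ∃ (K : Type) (_ : Finite K),
      Nonempty (RBasis E R (tpow W m) K)
  | 0 => ⟨Unit, inferInstance, ⟨RBasis.unit E R⟩⟩
  | m + 1 => by
    obtain ⟨K, hK, ⟨c⟩⟩ := tpow_rbasis b m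
    exact ⟨J × K, inferInstance, ⟨b.tensor c⟩⟩

theorem tpow_evenCell {d : ℤ} {W : T} (hW : EvenCell T d W) : ∀ m : ℕ,
    EvenCell T ((m : ℤ) * d) (tpow W m)
  | 0 => by
    rw [Nat.cast_zero, zero_mul]
    exact EvenCell.unit
  | m + 1 => hW.tensor (tpow_evenCell hW m) _ (by push_cast; ring)

/-- `H X` is finite dimensional if `X` has a finite basis. -/
theorem finite_H {E : EvenSpheres T} {R : T} [MonObj R] [IsCommMonObj R] {p N : ℕ}
    [Fact p.Prime] (c : Vale.Agent.P251.X.Pt E R p N) (hS : ∀ n, IsSphere (E.S n)) {X : T} {J : Type}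
    [Finite J] (b : RBasis E R X J) : Module.Finite (ZMod p) (Vale.Agent.P251.X.Vtot c X) := by
  obtain ⟨v, -, -⟩ := HH.exists_redBasis c.χ (b.basis hS) (Vale.Agent.P251.X.Vtot.mk c X)
    (fun a m => Vale.Agent.P251.X.Vtot.mk_smul a m) (ZMod.ringHom_surjective c.χ)
    Vale.Agent.P251.X.Vtot.mk_surjective
    (fun x hx => Vale.Agent.P251.X.Vtot.mk_eq_zero.1 hx)
  exact Module.Finite.of_basis v

variable {D : MUData T} {p : ℕ} [Fact p.Prime]

/-- The output of the construction of `W`. -/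
structure WObj (h : IsMULoc D (toRp D p) p) (m : ℕ) (W : T) : Prop where
  /-- `W` is a finite even complex -/
  even : ∃ d : ℤ, EvenCell T d W
  /-- `W` has a finite basis -/
  basis : ∃ (J : Type) (_ : Finite J), Nonempty (RBasis (stdEven T) (Rp D p) W J)
  /-- a colinear surjection to `Pn p m` -/
  surj : ∃ q : (coDatPn h m).H W →ₗ[ZMod p] Pn p m,
    Co.Colin ((coDatPn h m).psi W) (Coalgebra.comul (R := ZMod p)) q ∧ Function.Surjective q

/-- **Step 3**, from the objects `W`. -/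
theorem youngIn_of_W (F : SpaceFunctor T) (h : IsMULoc D (toRp D p) p)
    (hW : ∀ m : ℕ, ∃ W : T, WObj h m W) : YoungIn h := by
  intro m
  obtain ⟨W, ⟨d, hd⟩, ⟨J, hJ, ⟨b⟩⟩, q, hq, hqs⟩ := hW m
  have hp1 : p ≠ 1 := (Fact.out : p.Prime).ne_one
  have hR : IsPLocal p (Rp D p) := isPLocal_Rp p
  have hfin : Module.Finite (ZMod p) ((coDatPn h m).H W) :=
    finite_H (coDatPn h m).c isSphere_std b
  obtain ⟨M, Y, i, s, his, hY⟩ := YoungH.exists_young (coDatPn h m) isSphere_std hR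
    (Co.isAnti_antipode (k := ZMod p) (A := Pn p m)) ⟨J, ⟨b⟩⟩ hq hqs
  obtain ⟨K, hK, ⟨bV⟩⟩ := tpow_rbasis b M
  have hI : IsIso (Rp D p ◁ etaR p (tpow W M)) := N1.isIso_whiskerLeft_etaR hp1 hR _
  obtain ⟨J', f, b', hf, hfT, hk⟩ := YSplit.exists_retract
    (localPt_Rp F D (coDatPn h m).c) isSphere_std
    (N1.ofWhisker (etaR p (tpow W M)) hI bV)
    (N1.finType_ofWhisker _ hI (FT.of_finite bV.k)) i s his
  obtain ⟨hinj, -, h0⟩ := hY ⟨J', ⟨b'⟩⟩
  obtain ⟨B, hB⟩ := hfT.1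
  exact ⟨_, tpow W M, Y, i, s, B, tpow_evenCell hd M, his, h0,
    ⟨(isPLocal_tensor_Sp hp1 _).retract i s his,
      ⟨_, (conn_tensor_Sp PLoc.isCpt_unit ((tpow_evenCell hd M).conn (unit_conn F)) p).of_retract
        i s his⟩, ⟨J', b', hfT, hB⟩, hinj⟩⟩

end Vale.Agent.P093.N.Fin
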