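import Vale.Agent.P093.N.HCoact
import Vale.Agent.P251.X.VGraPre
import Mathlib.LinearAlgebra.DirectSum.Finsupp
import Mathlib.Algebra.DirectSum.Decomposition
import Mathlib.Algebra.DirectSum.Module
import Mathlib.LinearAlgebra.FiniteDimensional.Basic

/-!
# P093, block N:H, part 3: bases and gradings of `H X`

* `vbasis c b hS` : the basis `[w_j]` of `Vtot c X` for an `R`-basis `b` of `X`;
* `Vtot.H c i X` is spanned by the `[w_j]` of degree `i`: `H X` is internally graded;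
* `theta` is graded.
-/

open CategoryTheory MonoidalCategory Limits Pretriangulated MonObj TensorProduct

set_option linter.unusedSectionVars false

universe v u w

noncomputable section

namespace Vale.Agent.P093.N.HH

open Vale.Agent.P251.T Vale.Agent.P251.M Vale.Agent.P251.M.EvenSpheres Vale.Agent.P251.S
  Vale.Agent.P251.X Vale.Agent.P093.Nak

/-! ### Homogeneous tensors -/

section tg

variable {k : Type*} [CommRing k] {A M : Type*} [AddCommGroup A] [Module k A] [AddCommGroup M]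
  [Module k M] (𝒜 : ℤ → Submodule k A) (ℋ : ℤ → Submodule k M)

/-- the tensors of degree `n` -/
def tg (n : ℤ) : Submodule k (A ⊗[k] M) :=
  Submodule.span k {t | ∃ i j : ℤ, i + j = n ∧ ∃ a ∈ 𝒜 i, ∃ y ∈ ℋ j, t = a ⊗ₜ y}

variable {𝒜 ℋ}

theorem tmul_mem_tg {i j n : ℤ} (h : i + j = n) {a : A} (ha : a ∈ 𝒜 i) {y : M} (hy : y ∈ ℋ j) :
    a ⊗ₜ y ∈ tg 𝒜 ℋ n := Submodule.subset_span ⟨i, j, h, a, ha, y, hy, rfl⟩

theorem tg_le {n : ℤ} {K : Submodule k (A ⊗[k] M)}
    (h : ∀ i j : ℤ, i + j = n → ∀ a ∈ 𝒜 i, ∀ y ∈ ℋ j, a ⊗ₜ y ∈ K) : tg 𝒜 ℋ n ≤ K := by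
  refine Submodule.span_le.2 ?_
  rintro _ ⟨i, j, hij, a, ha, y, hy, rfl⟩
  exact h i j hij a ha y hy

theorem map_mem_tg {A' M' : Type*} [AddCommGroup A'] [Module k A'] [AddCommGroup M'] [Module k M']
    {𝒜' : ℤ → Submodule k A'} {ℋ' : ℤ → Submodule k M'} (f : A →ₗ[k] A') (g : M →ₗ[k] M')
    (hf : ∀ i, ∀ a ∈ 𝒜 i, f a ∈ 𝒜' i) (hg : ∀ i, ∀ a ∈ ℋ i, g a ∈ ℋ' i) {n : ℤ} {t : A ⊗[k] M}
    (ht : t ∈ tg 𝒜 ℋ n) : TensorProduct.map f g t ∈ tg 𝒜' ℋ' n := by
  have h : tg 𝒜 ℋ n ≤ (tg 𝒜' ℋ' n).comap (TensorProduct.map f g) := by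
    refine tg_le fun i j hij a ha y hy => ?_
    rw [Submodule.mem_comap, TensorProduct.map_tmul]
    exact tmul_mem_tg hij (hf i a ha) (hg j y hy)
  exact h ht

end tg

/-! ### The basis of `H X` -/

section vbasis

variable {T : Type u} [Category.{v} T] [Preadditive T] [HasZeroObject T]
    [HasShift T ℤ] [∀ n : ℤ, (shiftFunctor T n).Additive] [Pretriangulated T] [IsTriangulated T]
    [MonoidalCategory T] [SymmetricCategory T] [TensorTriangulated T] [MonoidalClosed T]
    [HasCoproducts.{0} T] [HasProducts.{0} T] [StableCat T] {E : EvenSpheres T}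
  {R : T} [MonObj R] {p : ℕ} [Fact p.Prime] {X Y : T} {J K : Type}

section gen

variable {N : ℕ} (c : Pt E R p N) (b : RBasis E R X J) (hS : ∀ n, IsSphere (E.S n))

theorem exists_vbasisG : ∃ v : Module.Basis J (ZMod p) (Vtot c X),
    (∀ j, v j = Vtot.mk c X (b.basis hS j)) ∧
      ∀ x j, v.repr (Vtot.mk c X x) j = c.χ ((b.basis hS).repr x j) :=
  exists_redBasis (k := ZMod p) c.χ (b.basis hS) (Vtot.mk c X) (fun a m => Vtot.mk_smul a m)
    (ZMod.ringHom_surjective c.χ) Vtot.mk_surjective fun _ hx => Vtot.mk_eq_zero.1 hx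

/-- **The basis of `H X`**. -/
def vbasis : Module.Basis J (ZMod p) (Vtot c X) := (exists_vbasisG c b hS).choose

@[simp] theorem vbasis_apply (j : J) :
    vbasis c b hS j = Vtot.mk c X (MP.of E R X (b.k j) (b.w j)) := by
  rw [← RBasis.basis_apply b hS]
  exact (exists_vbasisG c b hS).choose_spec.1 j

theorem vbasis_repr_mk (x : MP E R X) (j : J) :
    (vbasis c b hS).repr (Vtot.mk c X x) j = c.χ ((b.basis hS).repr x j) :=
  (exists_vbasisG c b hS).choose_spec.2 x j

end gen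

/-! ### The grading -/

section gr

variable (c : Pt E R p 0) (b : RBasis E R X J) (hS : ∀ n, IsSphere (E.S n))

/-- the classes of degree `i` -/
def hgr (X : T) (i : ℤ) : Submodule (ZMod p) (Vtot c X) := Vtot.H c (i : ZMod 0) X

variable {c}

theorem mk_of_mem_hgr {i : ℤ} (f : E.S i ⟶ R ⊗ X) : Vtot.mk c X (MP.of E R X i f) ∈ hgr c X i :=
  Vtot.mk_of_mem i rfl f

theorem hgr_le {i : ℤ} {L : Submodule (ZMod p) (Vtot c X)}
    (h : ∀ f : E.S i ⟶ R ⊗ X, Vtot.mk c X (MP.of E R X i f) ∈ L) : hgr c X i ≤ L := by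
  refine Submodule.span_le.2 ?_
  rintro _ ⟨d, x, hd, rfl⟩
  have hd' : d = i := hd
  subst hd'
  exact h x

/-- the elements of degree `i` are the classes of the elements of degree `i` -/
theorem exists_of_mem_hgr {i : ℤ} {y : Vtot c X} (hy : y ∈ hgr c X i) :
    ∃ f : E.S i ⟶ R ⊗ X, y = Vtot.mk c X (MP.of E R X i f) := by
  refine Submodule.span_induction
    (p := fun y _ => ∃ f : E.S i ⟶ R ⊗ X, y = Vtot.mk c X (MP.of E R X i f)) ?_ ?_ ?_ ?_ hy
  · rintro _ ⟨d, x, hd, rfl⟩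
    have hd' : d = i := hd
    subst hd'
    exact ⟨x, rfl⟩
  · exact ⟨0, by rw [map_zero, map_zero]⟩
  · rintro y y' - - ⟨f, rfl⟩ ⟨f', rfl⟩
    exact ⟨f + f', by rw [map_add, map_add]⟩
  · rintro a y - ⟨f, rfl⟩
    refine ⟨a.val • f, ?_⟩
    rw [map_nsmul, map_nsmul, ← Nat.cast_smul_eq_nsmul (ZMod p), ZMod.natCast_zmod_val]

theorem map_mem_hgr (f : X ⟶ Y) {i : ℤ} {y : Vtot c X} (hy : y ∈ hgr c X i) :
    Vtot.map c f y ∈ hgr c Y i := Vtot.map_mem_H f hy

variable (c)

theorem vbasis_mem (j : J) : vbasis c b hS j ∈ hgr c X (b.k j) := by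
  rw [vbasis_apply]
  exact mk_of_mem_hgr _

theorem repr_eq_zero_of_mem {i : ℤ} {y : Vtot c X} (hy : y ∈ hgr c X i) {j : J} (hj : b.k j ≠ i) :
    (vbasis c b hS).repr y j = 0 := by
  obtain ⟨f, rfl⟩ := exists_of_mem_hgr hy
  rw [vbasis_repr_mk, RBasis.repr_of]
  refine c.χ_of _ ?_ _
  intro h
  have h1 : i - b.k j = 0 := by simpa using h
  exact hj (by linarith)

theorem mem_hgr_iff {i : ℤ} {y : Vtot c X} :
    y ∈ hgr c X i ↔ ∀ j, (vbasis c b hS).repr y j ≠ 0 → b.k j = i := by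
  constructor
  · intro hy j hj
    by_contra h
    exact hj (repr_eq_zero_of_mem c b hS hy h)
  · intro h
    rw [← (vbasis c b hS).linearCombination_repr y, Finsupp.linearCombination_apply]
    refine Submodule.sum_mem _ fun j hj => Submodule.smul_mem _ _ ?_
    rw [← h j (Finsupp.mem_support_iff.1 hj)]
    exact vbasis_mem c b hS j

theorem hgr_eq_span (i : ℤ) :
    hgr c X i = Submodule.span (ZMod p) (vbasis c b hS '' {j | b.k j = i}) := by
  apply le_antisymm
  · intro y hy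
    rw [← (vbasis c b hS).linearCombination_repr y, Finsupp.linearCombination_apply]
    refine Submodule.sum_mem _ fun j hj => Submodule.smul_mem _ _ (Submodule.subset_span ⟨j, ?_, rfl⟩)
    exact (mem_hgr_iff c b hS).1 hy j (Finsupp.mem_support_iff.1 hj)
  · rw [Submodule.span_le]
    rintro _ ⟨j, hj, rfl⟩
    rw [← show b.k j = i from hj]
    exact vbasis_mem c b hS j

include b hS in
theorem iSup_hgr_eq_top : ⨆ i, hgr c X i = ⊤ := by
  rw [eq_top_iff, ← (vbasis c b hS).span_eq, Submodule.span_le]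
  rintro _ ⟨j, rfl⟩
  exact Submodule.mem_iSup_of_mem (b.k j) (vbasis_mem c b hS j)

include b hS in
theorem iSupIndep_hgr : iSupIndep (hgr c X) := by
  rw [iSupIndep_def]
  intro i
  rw [Submodule.disjoint_def]
  intro y hy hy'
  refine (vbasis c b hS).ext_elem fun j => ?_
  rw [map_zero, Finsupp.zero_apply]
  by_cases h : b.k j = i
  · have h1 : (⨆ (l) (_ : l ≠ i), hgr c X l) ≤ LinearMap.ker ((vbasis c b hS).coord j) := by
      refine iSup₂_le fun l hl z hz => ?_
      rw [LinearMap.mem_ker, Module.Basis.coord_apply]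
      exact repr_eq_zero_of_mem c b hS hz (fun h' => hl (h' ▸ h))
    have h2 := h1 hy'
    rwa [LinearMap.mem_ker, Module.Basis.coord_apply] at h2
  · exact repr_eq_zero_of_mem c b hS hy h

include b hS in
/-- **`H X` is internally graded.** -/
theorem isInternal_hgr : DirectSum.IsInternal (hgr c X) :=
  DirectSum.isInternal_submodule_of_iSupIndep_of_iSup_eq_top (iSupIndep_hgr c b hS)
    (iSup_hgr_eq_top c b hS)

include hS in
theorem hgr_eq_bot {B : ℤ} (hB : ∀ j, B ≤ b.k j) {i : ℤ} (hi : i < B) : hgr c X i = ⊥ := by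
  rw [hgr_eq_span c b hS]
  have h : {j | b.k j = i} = ∅ := by
    ext j
    simp only [Set.mem_setOf_eq, Set.mem_empty_iff_false, iff_false]
    have := hB j
    omega
  rw [h, Set.image_empty, Submodule.span_empty]

include hS in
theorem finite_hgr {i : ℤ} (h : {j | b.k j = i}.Finite) : Module.Finite (ZMod p) (hgr c X i) := by
  rw [hgr_eq_span c b hS]
  exact Module.Finite.span_of_finite _ (h.image _)

end gr

end vbasis

/-! ### `theta` is graded -/

section thetagr

variable {T : Type u} [Category.{v} T] [Preadditive T] [HasZeroObject T]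
    [HasShift T ℤ] [∀ n : ℤ, (shiftFunctor T n).Additive] [Pretriangulated T] [IsTriangulated T]
    [MonoidalCategory T] [SymmetricCategory T] [TensorTriangulated T] [MonoidalClosed T]
    [HasCoproducts.{0} T] [HasProducts.{0} T] [StableCat T] {E : EvenSpheres T}
  {R : T} [MonObj R] {p : ℕ} [Fact p.Prime] {X Y : T} (c : Pt E R p 0)
  {B : T} [MonObj B] {r : R ⟶ B} [IsMonHom r] {A' : Type w} [CommRing A'] [Algebra (ZMod p) A']
  {φ : HRing E B →+* A'}

/-- `φ` maps elements of degree `n` to elements of degree `n` -/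
def Homog {E : EvenSpheres T} {B : T} [MonObj B] (φ : HRing E B →+* A')
    (𝒜 : ℤ → Submodule (ZMod p) A') : Prop :=
  ∀ (n : ℤ) (z : E.S n ⟶ B), φ (HRing.of E B n z) ∈ 𝒜 n

/-- **`theta` is graded.** -/
theorem theta_of_mem (hS : ∀ n, IsSphere (E.S n)) (hX : Good E R X) (hφ : Over c r φ)
    {𝒜 : ℤ → Submodule (ZMod p) A'} (hh : Homog φ 𝒜) {n : ℤ} (f : E.S n ⟶ B ⊗ X) :
    theta c r φ X (MP.of E B X n f) ∈ tg 𝒜 (hgr c X) n := by
  obtain ⟨J, ⟨b⟩⟩ := hX
  have hX : Good E R X := ⟨J, ⟨b⟩⟩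
  have h1 := ((b.push r).basis hS).linearCombination_repr (MP.of E B X n f)
  rw [← h1, Finsupp.linearCombination_apply, Finsupp.sum, map_sum]
  refine Submodule.sum_mem _ fun j _ => ?_
  have h2 : (b.push r).basis hS j = MP.push E r X (MP.of E R X (b.k j) (b.w j)) := by
    rw [RBasis.basis_apply]
    exact (MP.push_of r _ _).symm
  rw [RBasis.repr_of, h2, theta_smul_push c (hX.along hS r) hφ]
  exact tmul_mem_tg (by rw [push_k]; ring) (hh _ _) (mk_of_mem_hgr _)

end thetagr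

end Vale.Agent.P093.N.HH
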