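import Vale.Agent.P093.N.HExt
import Vale.Agent.P251.X.VLax
import Mathlib.LinearAlgebra.TensorProduct.Basis

/-!
# P093, block N:H, products: the Künneth map for `H X = Vtot c X`

* `kun c X Y : Vtot c X ⊗ Vtot c Y →ₗ Vtot c (X ⊗ Y)`: natural, associative, unital, symmetric;
* `kun_bijective_of_basis`.
-/

open CategoryTheory MonoidalCategory MonObj Limits Pretriangulated
open scoped TensorProduct

set_option linter.unusedSectionVars false

universe v u

noncomputable section

namespace Vale.Agent.P093.N.HH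

open Vale.Agent.P251.S Vale.Agent.P251.T Vale.Agent.P251.M Vale.Agent.P251.M.EvenSpheres
  Vale.Agent.P251.X Vale.Agent.P093.Nak

section kun

variable {T : Type u} [Category.{v} T] [Preadditive T] [MonoidalCategory T]
  [MonoidalPreadditive T] [SymmetricCategory T] {E : EvenSpheres T} {R : T} [MonObj R]
  [IsCommMonObj R] {p N : ℕ} (c : Pt E R p N)

/-- **The Künneth map**. -/
def kun (X Y : T) : Vtot c X ⊗[ZMod p] Vtot c Y →ₗ[ZMod p] Vtot c (X ⊗ Y) :=
  TensorProduct.lift (Vtot.prod c X Y)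

@[simp] theorem kun_tmul (X Y : T) (x : Vtot c X) (y : Vtot c Y) :
    kun c X Y (x ⊗ₜ y) = Vtot.prod c X Y x y := by
  unfold kun
  rw [TensorProduct.lift.tmul]

theorem kun_mk (X Y : T) (x : MP E R X) (y : MP E R Y) :
    kun c X Y (Vtot.mk c X x ⊗ₜ Vtot.mk c Y y) = Vtot.mk c (X ⊗ Y) (MP.cross E R X Y x y) := by
  rw [kun_tmul, Vtot.prod_mk]

theorem map_kun {X X' Y Y' : T} (f : X ⟶ X') (g : Y ⟶ Y') (t : Vtot c X ⊗[ZMod p] Vtot c Y) :
    Vtot.map c (f ⊗ₘ g) (kun c X Y t) =
      kun c X' Y' (TensorProduct.map (Vtot.map c f) (Vtot.map c g) t) := by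
  induction t with
  | zero => simp only [map_zero]
  | add x y hx hy => simp only [map_add, hx, hy]
  | tmul x y => rw [kun_tmul, TensorProduct.map_tmul, kun_tmul, Vtot.map_prod]

theorem map_kun_left {X X' : T} (Y : T) (f : X ⟶ X') (t : Vtot c X ⊗[ZMod p] Vtot c Y) :
    Vtot.map c (f ▷ Y) (kun c X Y t) = kun c X' Y ((Vtot.map c f).rTensor (Vtot c Y) t) := by
  have h := map_kun c f (𝟙 Y) t
  rw [tensorHom_id, Vtot.map_id] at h
  exact h

theorem map_kun_right {Y Y' : T} (X : T) (g : Y ⟶ Y') (t : Vtot c X ⊗[ZMod p] Vtot c Y) :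
    Vtot.map c (X ◁ g) (kun c X Y t) = kun c X Y' ((Vtot.map c g).lTensor (Vtot c X) t) := by
  have h := map_kun c (𝟙 X) g t
  rw [id_tensorHom, Vtot.map_id] at h
  exact h

theorem kun_assoc (X Y Z : T) (t : (Vtot c X ⊗[ZMod p] Vtot c Y) ⊗[ZMod p] Vtot c Z) :
    Vtot.map c (α_ X Y Z).hom (kun c (X ⊗ Y) Z ((kun c X Y).rTensor (Vtot c Z) t)) =
      kun c X (Y ⊗ Z) ((kun c Y Z).lTensor (Vtot c X)
        (TensorProduct.assoc (ZMod p) (Vtot c X) (Vtot c Y) (Vtot c Z) t)) := by
  induction t with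
  | zero => simp only [map_zero]
  | add x y hx hy => simp only [map_add, hx, hy]
  | tmul s z =>
    induction s with
    | zero => simp only [TensorProduct.zero_tmul, map_zero]
    | add x y hx hy => simp only [TensorProduct.add_tmul, map_add, hx, hy]
    | tmul x y =>
      rw [LinearMap.rTensor_tmul, kun_tmul, kun_tmul, TensorProduct.assoc_tmul,
        LinearMap.lTensor_tmul, kun_tmul, kun_tmul, Vtot.prod_assoc]

theorem kun_comm (X Y : T) (t : Vtot c X ⊗[ZMod p] Vtot c Y) :
    Vtot.map c (β_ X Y).hom (kun c X Y t) =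
      kun c Y X (TensorProduct.comm (ZMod p) (Vtot c X) (Vtot c Y) t) := by
  induction t with
  | zero => simp only [map_zero]
  | add x y hx hy => simp only [map_add, hx, hy]
  | tmul x y => rw [kun_tmul, TensorProduct.comm_tmul, kun_tmul, Vtot.prod_comm]

theorem one_kun (X : T) (x : Vtot c X) :
    Vtot.map c (λ_ X).hom (kun c (𝟙_ T) X (Vtot.one c ⊗ₜ x)) = x := by
  rw [kun_tmul, Vtot.one_prod]

theorem kun_one (X : T) (x : Vtot c X) :
    Vtot.map c (ρ_ X).hom (kun c X (𝟙_ T) (x ⊗ₜ Vtot.one c)) = x := by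
  have h := one_kun c X x
  have h2 := kun_comm c X (𝟙_ T) (x ⊗ₜ Vtot.one c)
  rw [TensorProduct.comm_tmul] at h2
  rw [← h2, ← LinearMap.comp_apply, ← Vtot.map_comp, braiding_leftUnitor] at h
  exact h

/-- **Künneth.** -/
theorem kun_bijective_of_basis {X Y : T} {J K : Type*} (vX : Module.Basis J (ZMod p) (Vtot c X))
    (vY : Module.Basis K (ZMod p) (Vtot c Y)) (vXY : Module.Basis (J × K) (ZMod p) (Vtot c (X ⊗ Y)))
    (h : ∀ j k, vXY (j, k) = Vtot.prod c X Y (vX j) (vY k)) : Function.Bijective (kun c X Y) := by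
  have h1 : kun c X Y = ((vX.tensorProduct vY).equiv vXY (Equiv.refl _)).toLinearMap := by
    refine (vX.tensorProduct vY).ext fun jk => ?_
    obtain ⟨j, k⟩ := jk
    rw [LinearEquiv.coe_coe, Module.Basis.equiv_apply, Module.Basis.tensorProduct_apply, kun_tmul]
    exact (h j k).symm
  rw [h1]
  exact LinearEquiv.bijective _

end kun

section unit

variable {T : Type u} [Category.{v} T] [Preadditive T] [HasZeroObject T]
    [HasShift T ℤ] [∀ n : ℤ, (shiftFunctor T n).Additive] [Pretriangulated T] [IsTriangulated T]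
    [MonoidalCategory T] [SymmetricCategory T] [TensorTriangulated T] [MonoidalClosed T]
    [HasCoproducts.{0} T] [HasProducts.{0} T] [StableCat T] {E : EvenSpheres T}

/-- the basis of a sphere -/
def _root_.Vale.Agent.P093.Nak.RBasis.sphere (E : EvenSpheres T) (R : T) [MonObj R] (k : ℤ) :
    RBasis E R (E.S k) Unit where
  k _ := k
  w _ := un R (E.S k)
  isIso := by
    have h1 : lin (ModStr.free R (E.S k)) (un R (E.S k)) = 𝟙 _ := by
      have h2 := lin_un (ModStr.free R (E.S k)) (𝟙 (R ⊗ E.S k)) (by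
        change _ ≫ 𝟙 _ = (R ◁ 𝟙 _) ≫ _
        rw [Category.comp_id, MonoidalCategory.whiskerLeft_id, Category.id_comp])
      rw [Category.comp_id] at h2
      exact h2
    refine ⟨Sigma.ι (fun _ : Unit => R ⊗ E.S k) (), ?_, ?_⟩
    · refine Sigma.hom_ext _ _ fun j => ?_
      rw [Sigma.ι_desc_assoc, h1, Category.id_comp, Category.comp_id]
    · rw [Sigma.ι_desc, h1]

/-- the basis of the unit object -/
def _root_.Vale.Agent.P093.Nak.RBasis.unit (E : EvenSpheres T) (R : T) [MonObj R] :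
    RBasis E R (𝟙_ T) Unit := (RBasis.sphere E R 0).ofIso E.zero.symm

@[simp] theorem sphere_k (R : T) [MonObj R] (k : ℤ) (j : Unit) :
    (RBasis.sphere E R k).k j = k := rfl

@[simp] theorem sphere_w (R : T) [MonObj R] (k : ℤ) (j : Unit) :
    (RBasis.sphere E R k).w j = un R (E.S k) := rfl

@[simp] theorem unit_k (R : T) [MonObj R] (j : Unit) : (RBasis.unit E R).k j = 0 := rfl

theorem of_sphere_w (R : T) [MonObj R] (k : ℤ) (j : Unit) :
    MP.of E R (E.S k) ((RBasis.sphere E R k).k j) ((RBasis.sphere E R k).w j) = MP.gen E R k := rfl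

theorem of_unit_w (R : T) [MonObj R] (j : Unit) :
    MP.of E R (𝟙_ T) ((RBasis.unit E R).k j) ((RBasis.unit E R).w j) = MP.one E R := by
  change MP.of E R (𝟙_ T) 0 (un R (E.S 0) ≫ R ◁ E.zero.inv) = _
  rw [← un_naturality]
  rfl

end unit

end Vale.Agent.P093.N.HH
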