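import Vale.Agent.P093.N.HSelf
import Vale.Agent.P093.N.HKun

/-!
# P093, block N:H, part 6: multiplicativity

For a monoid `A` the maps `bar θ₁ : H A ⟶ F`, `selfBar θ₁ : H R ⟶ F` and `q : H R ⟶ P` are
multiplicative and unital.
-/

open CategoryTheory MonoidalCategory Limits Pretriangulated MonObj TensorProduct

set_option linter.unusedSectionVars false

universe v u w w'

noncomputable section

namespace Vale.Agent.P093.N.HH

open Vale.Agent.P251.T Vale.Agent.P251.M Vale.Agent.P251.M.EvenSpheres Vale.Agent.P251.S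
  Vale.Agent.P251.X Vale.Agent.P093.Nak

section mul

variable {T : Type u} [Category.{v} T] [Preadditive T] [MonoidalCategory T]
  [MonoidalPreadditive T] [SymmetricCategory T] {E : EvenSpheres T} {R A : T} [MonObj R]
  [MonObj A]

theorem ten_mul (R A : T) [MonObj R] [MonObj A] : FM.ten R A A ≫ R ◁ μ[A] = μ[R ⊗ A] := by
  change (tensorμ R A R A ≫ μ[R] ▷ (A ⊗ A)) ≫ R ◁ μ[A] = tensorμ R A R A ≫ (μ[R] ⊗ₘ μ[A])
  rw [Category.assoc, ← MonoidalCategory.tensorHom_def]

/-- the product of `π_{2*}(R ⊗ A)` from the external product -/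
theorem asR_map_cross (x y : MP E R A) :
    asR E R A (MP.map E R μ[A] (MP.cross E R A A x y)) = asR E R A x * asR E R A y := by
  induction x, y using MP.ind₂ with
  | zl y => rw [map_zero, AddMonoidHom.zero_apply, map_zero, map_zero, zero_mul]
  | zr x => rw [map_zero, map_zero, map_zero, mul_zero]
  | oo m a n b =>
    rw [MP.cross_of (q := m + n) rfl, MP.map_of, asR_of, asR_of, asR_of,
      of_mul_of (p := m + n) rfl]
    congr 1
    unfold crossG gmul
    rw [Category.assoc, ten_mul]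
  | al x x' y h h' =>
    rw [map_add, AddMonoidHom.add_apply, map_add, map_add, h, h', map_add, add_mul]
  | ar x y y' h h' => rw [map_add, map_add, map_add, h, h', map_add, mul_add]

theorem asR_one : asR E R A (MP.map E R η[A] (MP.one E R)) = 1 := by
  unfold MP.one
  rw [MP.map_of, asR_of, ← of_one]
  congr 1
  change (E.zero.inv ≫ (λ_ (𝟙_ T)).inv ≫ η[R] ▷ (𝟙_ T)) ≫ R ◁ η[A] =
    E.zero.inv ≫ (λ_ (𝟙_ T)).inv ≫ (η[R] ⊗ₘ η[A])
  rw [MonoidalCategory.tensorHom_def, Category.assoc, Category.assoc]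

end mul

section bar

variable {T : Type u} [Category.{v} T] [Preadditive T] [MonoidalCategory T]
  [MonoidalPreadditive T] [SymmetricCategory T] {E : EvenSpheres T} {R A : T} [MonObj R]
  [IsCommMonObj R] [MonObj A] {p N : ℕ} [Fact p.Prime] {c : Pt E R p N} {F : Type w'}
  [CommRing F] [Algebra (ZMod p) F]

/-- **`bar θ₁` is multiplicative** -/
theorem bar_mul {θ₁ : HRing E (R ⊗ A) →+* F} (h : OverL c θ₁) (x y : Vtot c A) :
    bar h (Vtot.map c μ[A] (Vtot.prod c A A x y)) = bar h x * bar h y := by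
  induction x using Vtot.ind with
  | h x =>
    induction y using Vtot.ind with
    | h y => rw [Vtot.prod_mk, Vtot.map_mk, bar_mk, asR_map_cross, map_mul, bar_mk, bar_mk]

theorem bar_mul_kun {θ₁ : HRing E (R ⊗ A) →+* F} (h : OverL c θ₁) (x y : Vtot c A) :
    bar h (Vtot.map c μ[A] (kun c A A (x ⊗ₜ y))) = bar h x * bar h y := by
  rw [kun_tmul, bar_mul]

theorem bar_one {θ₁ : HRing E (R ⊗ A) →+* F} (h : OverL c θ₁) :
    bar h (Vtot.map c η[A] (Vtot.one c)) = 1 := by
  unfold Vtot.one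
  rw [Vtot.map_mk, bar_mk, asR_one, map_one]

theorem selfBar_mul {θ₁ : HRing E (Am R 2) →+* F}
    (h : ∀ a, θ₁ (HRing.map (Am.v R (0 : Fin 2)) a) = algebraMap (ZMod p) F (c.χ a))
    (x y : Vtot c R) : selfBar h (Vtot.map c μ[R] (Vtot.prod c R R x y)) =
      selfBar h x * selfBar h y := bar_mul _ x y

theorem selfBar_mul_kun {θ₁ : HRing E (Am R 2) →+* F}
    (h : ∀ a, θ₁ (HRing.map (Am.v R (0 : Fin 2)) a) = algebraMap (ZMod p) F (c.χ a))
    (x y : Vtot c R) : selfBar h (Vtot.map c μ[R] (kun c R R (x ⊗ₜ y))) =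
      selfBar h x * selfBar h y := bar_mul_kun _ x y

theorem selfBar_one {θ₁ : HRing E (Am R 2) →+* F}
    (h : ∀ a, θ₁ (HRing.map (Am.v R (0 : Fin 2)) a) = algebraMap (ZMod p) F (c.χ a)) :
    selfBar h (Vtot.map c η[R] (Vtot.one c)) = 1 := bar_one _

end bar

section coact

variable {T : Type u} [Category.{v} T] [Preadditive T] [HasZeroObject T]
    [HasShift T ℤ] [∀ n : ℤ, (shiftFunctor T n).Additive] [Pretriangulated T] [IsTriangulated T]
    [MonoidalCategory T] [SymmetricCategory T] [TensorTriangulated T] [MonoidalClosed T]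
    [HasCoproducts.{0} T] [HasProducts.{0} T] [StableCat T] {E : EvenSpheres T}
  {R : T} [MonObj R] [IsCommMonObj R] {p : ℕ} [Fact p.Prime]
  {P : Type w} [CommRing P] [Bialgebra (ZMod p) P] (D : CoDat E R p P)

/-- **`q` is multiplicative** -/
theorem CoDat.q_mul (x y : D.H R) :
    D.q (Vtot.map D.c μ[R] (Vtot.prod D.c R R x y)) = D.q x * D.q y := selfBar_mul _ x y

theorem CoDat.q_mul_kun (x y : D.H R) :
    D.q (Vtot.map D.c μ[R] (kun D.c R R (x ⊗ₜ y))) = D.q x * D.q y := selfBar_mul_kun _ x y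

/-- `q` is multiplicative, with maps into `R` -/
theorem CoDat.q_mul_map {X Y : T} (f : X ⟶ R) (g : Y ⟶ R) (x : D.H X) (y : D.H Y) :
    D.q (Vtot.map D.c ((f ⊗ₘ g) ≫ μ[R]) (Vtot.prod D.c X Y x y)) =
      D.q (Vtot.map D.c f x) * D.q (Vtot.map D.c g y) := by
  rw [Vtot.map_comp, LinearMap.comp_apply, Vtot.map_prod, D.q_mul]

theorem CoDat.q_one : D.q (Vtot.map D.c η[R] (Vtot.one D.c)) = 1 := selfBar_one _

end coact

end Vale.Agent.P093.N.HH
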