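import Vale.Agent.P093.N.HBasis
import Mathlib.RingTheory.Bialgebra.Equiv
import Mathlib.RingTheory.Bialgebra.Hom

/-!
# P093, block N:H, part 4: change of the coalgebra, gradings, spherical classes

* `CoDat.push D π` for a homomorphism of bialgebras `π : P ⟶ P'`;
* `psi` is graded;
* `psi (hur f) = 1 ⊗ hur f` for classes coming from `π_{2*} X`.
-/

open CategoryTheory MonoidalCategory Limits Pretriangulated MonObj TensorProduct

set_option linter.unusedSectionVars false

universe v u w w'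

noncomputable section

namespace Vale.Agent.P093.N.HH

open Vale.Agent.P251.T Vale.Agent.P251.M Vale.Agent.P251.M.EvenSpheres Vale.Agent.P251.S
  Vale.Agent.P251.X Vale.Agent.P093.Nak

section data

variable {T : Type u} [Category.{v} T] [Preadditive T] [MonoidalCategory T]
  [MonoidalPreadditive T] [SymmetricCategory T] {E : EvenSpheres T} {R : T} [MonObj R]
  [IsCommMonObj R] {p : ℕ} [Fact p.Prime] {P : Type w} [CommRing P] [Bialgebra (ZMod p) P]
  {P' : Type w'} [CommRing P'] [Bialgebra (ZMod p) P']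

/-- change of the bialgebra -/
def CoDat.push (D : CoDat E R p P) (π : P →ₐc[ZMod p] P') : CoDat E R p P' where
  c := D.c
  φ := (π : P →ₐ[ZMod p] P').toRingHom.comp D.φ
  φ₂ := (Algebra.TensorProduct.map (π : P →ₐ[ZMod p] P')
    (π : P →ₐ[ZMod p] P')).toRingHom.comp D.φ₂
  φ_v₀ a := by
    change (π : P →ₐ[ZMod p] P') (D.φ _) = _
    rw [D.φ_v₀, AlgHom.commutes]
  φ_v₁ a := by
    change (π : P →ₐ[ZMod p] P') (D.φ _) = _
    rw [D.φ_v₁, AlgHom.commutes]
  counit z := by
    rw [← D.counit]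
    exact CoalgHomClass.counit_comp_apply π (D.φ z)
  φ₂_01 z := by
    change Algebra.TensorProduct.map (π : P →ₐ[ZMod p] P') (π : P →ₐ[ZMod p] P') (D.φ₂ _) = _
    rw [D.φ₂_01, Algebra.TensorProduct.map_tmul, map_one]
    rfl
  φ₂_12 z := by
    change Algebra.TensorProduct.map (π : P →ₐ[ZMod p] P') (π : P →ₐ[ZMod p] P') (D.φ₂ _) = _
    rw [D.φ₂_12, Algebra.TensorProduct.map_tmul, map_one]
    rfl
  φ₂_02 z := by
    change Algebra.TensorProduct.map (π : P →ₐ[ZMod p] P') (π : P →ₐ[ZMod p] P') (D.φ₂ _) = _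
    rw [D.φ₂_02]
    exact CoalgHomClass.map_comp_comul_apply π (D.φ z)

@[simp] theorem CoDat.push_c (D : CoDat E R p P) (π : P →ₐc[ZMod p] P') : (D.push π).c = D.c := rfl

theorem CoDat.push_φ (D : CoDat E R p P) (π : P →ₐc[ZMod p] P') (z : HRing E (Am R 2)) :
    (D.push π).φ z = π (D.φ z) := rfl

end data

section coact

variable {T : Type u} [Category.{v} T] [Preadditive T] [HasZeroObject T]
    [HasShift T ℤ] [∀ n : ℤ, (shiftFunctor T n).Additive] [Pretriangulated T] [IsTriangulated T]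
    [MonoidalCategory T] [SymmetricCategory T] [TensorTriangulated T] [MonoidalClosed T]
    [HasCoproducts.{0} T] [HasProducts.{0} T] [StableCat T] {E : EvenSpheres T}
  {R : T} [MonObj R] [IsCommMonObj R] {p : ℕ} [Fact p.Prime] {P : Type w} [CommRing P]
  [Bialgebra (ZMod p) P] {P' : Type w'} [CommRing P'] [Bialgebra (ZMod p) P']
  (D : CoDat E R p P) {X Y : T}

namespace CoDat

theorem Homog.push {Pg : ℤ → Submodule (ZMod p) P} {Pg' : ℤ → Submodule (ZMod p) P'}
    (h : Homog D.φ Pg) (π : P →ₐc[ZMod p] P') (hπ : ∀ n, ∀ a ∈ Pg n, π a ∈ Pg' n) :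
    Homog (D.push π).φ Pg' := fun n z => hπ n _ (h n z)

variable (hS : ∀ n, IsSphere (E.S n)) (hX : Good E R X) (hY : Good E R Y)

include hS hX

theorem theta₂_push (π : P →ₐc[ZMod p] P') (y : MP E (Am R 2) X) :
    (D.push π).theta₂ X y = (π : P →ₐ[ZMod p] P').toLinearMap.rTensor (D.H X) (D.theta₂ X y) := by
  have h := theta_change (E := E) D.c (φ := D.φ) (φ' := (D.push π).φ) (𝟙 (Am R 2))
    (Category.comp_id (Am.v R (1 : Fin 2))) (π : P →ₐ[ZMod p] P')
    (fun z => by rw [HRing.map_id]; rfl) (hX.along hS _) (hX.along hS _) D.over₁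
    (D.push π).over₁ y
  rw [MP.push_id] at h
  exact h

/-- the coaction of the quotient coalgebra -/
theorem psi_push (π : P →ₐc[ZMod p] P') (y : D.H X) :
    (D.push π).psi X y = (π : P →ₐ[ZMod p] P').toLinearMap.rTensor (D.H X) (D.psi X y) := by
  induction y using Vtot.ind with
  | h x =>
    have h1 : (D.push π).psi X (Vtot.mk D.c X x) =
        (D.push π).theta₂ X (MP.push E (Am.v R (0 : Fin 2)) X x) := (D.push π).psi_mk hS hX x
    rw [h1, D.psi_mk hS hX, D.theta₂_push hS hX]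

/-- **the coaction is graded** -/
theorem psi_mem {Pg : ℤ → Submodule (ZMod p) P} (hh : Homog D.φ Pg) {n : ℤ} {y : D.H X}
    (hy : y ∈ hgr D.c X n) : D.psi X y ∈ tg Pg (hgr D.c X) n := by
  obtain ⟨f, rfl⟩ := exists_of_mem_hgr hy
  rw [D.psi_mk hS hX, MP.push_of]
  exact theta_of_mem D.c hS hX D.over₁ hh _

omit hS hX in
variable (X) in
/-- the Hurewicz map `π_{2n} X ⟶ H X` -/
def hur {n : ℤ} (f : E.S n ⟶ X) : D.H X := Vtot.mk D.c X (MP.of E R X n (f ≫ un R X))

omit hS hX in
theorem hur_mem {n : ℤ} (f : E.S n ⟶ X) : D.hur X f ∈ hgr D.c X n := mk_of_mem_hgr _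

omit hS hX in
theorem map_hur {n : ℤ} (f : E.S n ⟶ X) (g : X ⟶ Y) :
    Vtot.map D.c g (D.hur X f) = D.hur Y (f ≫ g) := by
  unfold hur
  rw [Vtot.map_mk, MP.map_of, Category.assoc, Category.assoc, ← un_naturality]

/-- **spherical classes are primitive** -/
theorem psi_hur {n : ℤ} (f : E.S n ⟶ X) : D.psi X (D.hur X f) = 1 ⊗ₜ D.hur X f := by
  have h1 : ∀ {B : T} [MonObj B] (r : R ⟶ B) [IsMonHom r], un R X ≫ r ▷ X = un B X := by
    intro B _ r _
    unfold un
    rw [Category.assoc, ← comp_whiskerRight, IsMonHom.one_hom]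
  have h2 : MP.push E (Am.v R (0 : Fin 2)) X (MP.of E R X n (f ≫ un R X)) =
      MP.push E (Am.v R (1 : Fin 2)) X (MP.of E R X n (f ≫ un R X)) := by
    rw [MP.push_of, MP.push_of, Category.assoc, Category.assoc, h1, h1]
  unfold hur
  rw [D.psi_mk hS hX, h2]
  exact theta_push D.c (hX.along hS _) D.over₁ _

end CoDat

end coact

end Vale.Agent.P093.N.HH
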