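import Vale.Agent.P093.N.HPush
import Vale.Agent.P251.M.BaseCh

/-!
# P093, block N:H, part 5: `H A` for a monoid `A`, in particular `H R`

For a monoid `A` the group `π_{2*}(R ⊗ A)` is a ring. A ring homomorphism
`θ₁ : π_{2*}(R ⊗ A) ⟶ F` which extends `c.χ` induces `bar θ₁ : H A ⟶ F`. If there is
`θ₂ : π_{2*}(R ⊗ R ⊗ A) ⟶ P ⊗ F` compatible with the cosimplicial structure and with a map
`ψ : F ⟶ P ⊗ F` then `bar θ₁` is colinear.
-/

open CategoryTheory MonoidalCategory Limits Pretriangulated MonObj TensorProduct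

set_option linter.unusedSectionVars false

universe v u w w'

noncomputable section

namespace Vale.Agent.P093.N.HH

open Vale.Agent.P251.T Vale.Agent.P251.M Vale.Agent.P251.M.EvenSpheres Vale.Agent.P251.S
  Vale.Agent.P251.X Vale.Agent.P093.Nak

section asR

variable {T : Type u} [Category.{v} T] [Preadditive T] [MonoidalCategory T]
  [MonoidalPreadditive T] [SymmetricCategory T] (E : EvenSpheres T) (B A : T) [MonObj B]
  [MonObj A]

/-- `π_{2*}(B ⊗ A)` as a ring -/
def asR : MP E B A →+ HRing E (B ⊗ A) := AddMonoidHom.id (DirectSum ℤ (E.Gr (B ⊗ A)))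

variable {E B A}

@[simp] theorem asR_of (n : ℤ) (f : E.S n ⟶ B ⊗ A) :
    asR E B A (MP.of E B A n f) = HRing.of E (B ⊗ A) n f := rfl

theorem asR_bijective : Function.Bijective (asR E B A) := Function.bijective_id

theorem asR_push {B' : T} [MonObj B'] (r : B ⟶ B') [IsMonHom r] (x : MP E B A) :
    asR E B' A (MP.push E r A x) = HRing.map (r ▷ A) (asR E B A x) := by
  induction x using MP.ind with
  | zero => rw [map_zero, map_zero, map_zero, map_zero]
  | of j x => rw [MP.push_of, asR_of, asR_of, HRing.map_of]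
  | add x y hx hy => rw [map_add, map_add, hx, hy, map_add, map_add]

theorem asR_smul (z : HRing E B) (x : MP E B A) :
    asR E B A (z • x) = HRing.map (inlM B A) z * asR E B A x := by
  induction z using DirectSum.induction_on with
  | zero => rw [zero_smul, map_zero, map_zero, zero_mul]
  | of i a =>
    induction x using MP.ind with
    | zero => rw [smul_zero, map_zero, mul_zero]
    | of j x =>
      change asR E B A (HRing.of E B i a • MP.of E B A j x) =
        HRing.map (inlM B A) (HRing.of E B i a) * asR E B A (MP.of E B A j x)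
      rw [MP.smul_of (k := i + j) rfl, asR_of, asR_of, HRing.map_of, of_mul_of (p := i + j) rfl]
      congr 1
      unfold gsmul gmul
      rw [ext_comp_left, Category.assoc, inlM_mul_id]
      rfl
    | add x y hx hy => rw [smul_add, map_add, map_add, hx, hy, mul_add]
  | add a b ha hb => rw [add_smul, map_add, ha, hb, map_add, add_mul]

end asR

section bar

variable {T : Type u} [Category.{v} T] [Preadditive T] [MonoidalCategory T]
  [MonoidalPreadditive T] [SymmetricCategory T] {E : EvenSpheres T} {R A : T} [MonObj R]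
  [MonObj A] {p N : ℕ} [Fact p.Prime] (c : Pt E R p N) {F : Type w'} [CommRing F]
  [Algebra (ZMod p) F]

/-- `θ₁` extends `c.χ` -/
def OverL (θ₁ : HRing E (R ⊗ A) →+* F) : Prop :=
  ∀ a, θ₁ (HRing.map (inlM R A) a) = algebraMap (ZMod p) F (c.χ a)

variable {c} {θ₁ : HRing E (R ⊗ A) →+* F}

/-- the map `H A ⟶ F` induced by `θ₁` -/
def bar (h : OverL c θ₁) : Vtot c A →ₗ[ZMod p] F :=
  (Vtot.desc ((θ₁ : HRing E (R ⊗ A) →+ F).comp (asR E R A)) (by
    intro x hx
    refine Submodule.smul_induction_on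
      (p := fun x => ((θ₁ : HRing E (R ⊗ A) →+ F).comp (asR E R A)) x = 0) hx ?_ ?_
    · intro a ha y _
      change θ₁ (asR E R A (a • y)) = 0
      rw [asR_smul, map_mul, h, c.mem_I.1 ha, map_zero, zero_mul]
    · intro x y hx hy
      rw [map_add, hx, hy, add_zero])).toZModLinearMap p

theorem bar_mk (h : OverL c θ₁) (x : MP E R A) :
    bar h (Vtot.mk c A x) = θ₁ (asR E R A x) := rfl

theorem bar_mk_of (h : OverL c θ₁) (n : ℤ) (f : E.S n ⟶ R ⊗ A) :
    bar h (Vtot.mk c A (MP.of E R A n f)) = θ₁ (HRing.of E (R ⊗ A) n f) := rfl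

theorem bar_surjective (h : OverL c θ₁) (hs : Function.Surjective θ₁) :
    Function.Surjective (bar h) := by
  intro y
  obtain ⟨x, rfl⟩ := hs y
  exact ⟨Vtot.mk c A x, rfl⟩

theorem bar_theta (h : OverL c θ₁) {B : T} [MonObj B] {r : R ⟶ B} [IsMonHom r] {A' : Type w}
    [CommRing A'] [Algebra (ZMod p) A'] {φ : HRing E B →+* A'} (hA : Along E r A)
    (hφ : Over c r φ) (θ₂ : HRing E (B ⊗ A) →+* A' ⊗[ZMod p] F)
    (h0 : ∀ z, θ₂ (HRing.map (inlM B A) z) = φ z ⊗ₜ 1)
    (h1 : ∀ z, θ₂ (HRing.map (r ▷ A) z) = 1 ⊗ₜ θ₁ z) (y : MP E B A) :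
    (bar h).lTensor A' (theta c r φ A y) = θ₂ (asR E B A y) := by
  have h2 : ((bar h).lTensor A').toAddMonoidHom.comp (theta c r φ A) =
      ((θ₂ : HRing E (B ⊗ A) →+ A' ⊗[ZMod p] F).comp (asR E B A)) := by
    refine hA.ext fun z x => ?_
    change (bar h).lTensor A' (theta c r φ A (z • MP.push E r A x)) =
      θ₂ (asR E B A (z • MP.push E r A x))
    rw [theta_smul_push c hA hφ, LinearMap.lTensor_tmul, bar_mk, asR_smul, map_mul, h0, asR_push,
      h1, Algebra.TensorProduct.tmul_mul_tmul, _root_.mul_one, _root_.one_mul]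
  exact DFunLike.congr_fun h2 y

end bar

section coact

variable {T : Type u} [Category.{v} T] [Preadditive T] [HasZeroObject T]
    [HasShift T ℤ] [∀ n : ℤ, (shiftFunctor T n).Additive] [Pretriangulated T] [IsTriangulated T]
    [MonoidalCategory T] [SymmetricCategory T] [TensorTriangulated T] [MonoidalClosed T]
    [HasCoproducts.{0} T] [HasProducts.{0} T] [StableCat T] {E : EvenSpheres T}
  {R : T} [MonObj R] [IsCommMonObj R] {p : ℕ} [Fact p.Prime]

section basis

variable {A : T} [MonObj A] {c : Pt E R p 0} {F : Type w'} [CommRing F] [Algebra (ZMod p) F]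
  {θ₁ : HRing E (R ⊗ A) →+* F} {J : Type} (hS : ∀ n, IsSphere (E.S n)) (b : RBasis E R A J)

include hS in
/-- `bar θ₁` is bijective if it maps the basis to a basis -/
theorem bar_bijective (h : OverL c θ₁) (e : Module.Basis J (ZMod p) F)
    (he : ∀ j, θ₁ (HRing.of E (R ⊗ A) (b.k j) (b.w j)) = e j) : Function.Bijective (bar h) := by
  have h1 : bar h = ((vbasis c b hS).equiv e (Equiv.refl J)).toLinearMap := by
    refine (vbasis c b hS).ext fun j => ?_
    rw [LinearEquiv.coe_coe, Module.Basis.equiv_apply, vbasis_apply, bar_mk_of, he]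
    rfl
  rw [h1]
  exact LinearEquiv.bijective _

end basis

theorem bar_mem {A : T} [MonObj A] {c : Pt E R p 0} {F : Type w'} [CommRing F]
    [Algebra (ZMod p) F] {θ₁ : HRing E (R ⊗ A) →+* F} (h : OverL c θ₁)
    {Fg : ℤ → Submodule (ZMod p) F} (hh : Homog θ₁ Fg) {n : ℤ} {y : Vtot c A}
    (hy : y ∈ hgr c A n) : bar h y ∈ Fg n := by
  obtain ⟨f, rfl⟩ := exists_of_mem_hgr hy
  rw [bar_mk_of]
  exact hh n f

variable {P : Type w} [CommRing P] [Bialgebra (ZMod p) P] (D : CoDat E R p P)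

/-- **`bar θ₁` is colinear.** -/
theorem CoDat.bar_psi (hS : ∀ n, IsSphere (E.S n)) {A : T} [MonObj A] (hA : Good E R A)
    {F : Type w'} [CommRing F] [Algebra (ZMod p) F] {θ₁ : HRing E (R ⊗ A) →+* F}
    (h : OverL D.c θ₁) (θ₂ : HRing E (Am R 2 ⊗ A) →+* P ⊗[ZMod p] F)
    (h0 : ∀ z, θ₂ (HRing.map (inlM (Am R 2) A) z) = D.φ z ⊗ₜ 1)
    (h1 : ∀ z, θ₂ (HRing.map (Am.v R (1 : Fin 2) ▷ A) z) = 1 ⊗ₜ θ₁ z)
    (ψ : F → P ⊗[ZMod p] F) (h2 : ∀ z, θ₂ (HRing.map (Am.v R (0 : Fin 2) ▷ A) z) = ψ (θ₁ z))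
    (y : D.H A) : (bar h).lTensor P (D.psi A y) = ψ (bar h y) := by
  induction y using Vtot.ind with
  | h x =>
    rw [D.psi_mk hS hA, bar_mk]
    have h3 := bar_theta h (hA.along hS (Am.v R (1 : Fin 2))) D.over₁ θ₂ h0 h1
      (MP.push E (Am.v R (0 : Fin 2)) A x)
    rw [asR_push, h2] at h3
    exact h3

end coact

/-! ### The case `A = R` -/

section self

section inv

variable {T : Type u} [Category.{v} T] [MonoidalCategory T] [SymmetricCategory T] (R : T)
  [MonObj R] [IsCommMonObj R]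

/-- `R ⊗ R ⟶ Am R 2` -/
def amPairInv : R ⊗ R ⟶ Am R 2 := (λ_ R).inv ▷ R

instance : IsMonHom (λ_ R).inv := inferInstance

instance : IsMonHom (amPairInv R) := inferInstanceAs (IsMonHom ((λ_ R).inv ▷ R))

@[reassoc (attr := simp)]
theorem amPairInv_amPair : amPairInv R ≫ amPair R = 𝟙 _ := by
  unfold amPairInv amPair
  rw [← comp_whiskerRight, Iso.inv_hom_id, id_whiskerRight]

@[reassoc (attr := simp)]
theorem amPair_amPairInv : amPair R ≫ amPairInv R = 𝟙 _ := by
  unfold amPairInv amPair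
  rw [← comp_whiskerRight, Iso.hom_inv_id, id_whiskerRight]

instance : IsIso (amPairInv R) := ⟨amPair R, amPairInv_amPair R, amPair_amPairInv R⟩

theorem inlM_amPairInv : inlM R R ≫ amPairInv R = Am.v R (0 : Fin 2) := by
  rw [← v_zero_amPair, Category.assoc, amPair_amPairInv, Category.comp_id]

theorem inrM_amPairInv : inrM R R ≫ amPairInv R = Am.v R (1 : Fin 2) := by
  rw [← v_one_amPair, Category.assoc, amPair_amPairInv, Category.comp_id]

theorem map_01_eq : Am.map R ![(0 : Fin 3), 1] = inlM (Am R 2) R := by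
  rw [← Am.map_castSucc]
  congr 1
  funext i
  fin_cases i <;> rfl

/-- the cofaces which fix the last vertex -/
theorem amPair_v_whisker (i : Fin 2) :
    amPair R ≫ Am.v R i ▷ R = Am.map R ![i.castSucc, (2 : Fin 3)] := by
  symm
  apply Am.map_eq_of
  intro j
  fin_cases j
  · change Am.v R (0 : Fin 2) ≫ amPair R ≫ Am.v R i ▷ R = Am.v R i.castSucc
    rw [← Category.assoc, v_zero_amPair, inlM_whiskerRight, Am.v_castSucc]
  · change Am.v R (1 : Fin 2) ≫ amPair R ≫ Am.v R i ▷ R = Am.v R (2 : Fin 3)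
    rw [← Category.assoc, v_one_amPair, inrM_whiskerRight]
    exact (Am.v_last R 2).symm

end inv

section H

variable {T : Type u} [Category.{v} T] [Preadditive T] [MonoidalCategory T]
  [MonoidalPreadditive T] [SymmetricCategory T] {E : EvenSpheres T} {R : T} [MonObj R]
  [IsCommMonObj R] {p N : ℕ} [Fact p.Prime] {c : Pt E R p N} {F : Type w'} [CommRing F]
  [Algebra (ZMod p) F] {θ₁ : HRing E (Am R 2) →+* F}

theorem HRing_map_map' {A B C : T} [MonObj A] [MonObj B] [MonObj C] (f : A ⟶ B) [IsMonHom f]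
    (g : B ⟶ C) [IsMonHom g] (h : A ⟶ C) [IsMonHom h] (e : f ≫ g = h) (a : HRing E A) :
    HRing.map g (HRing.map f a) = HRing.map h a := by
  subst e
  rw [HRing.map_comp]
  rfl

theorem overL_self (h : ∀ a, θ₁ (HRing.map (Am.v R (0 : Fin 2)) a) =
    algebraMap (ZMod p) F (c.χ a)) : OverL c (θ₁.comp (HRing.map (amPairInv R))) := by
  intro a
  rw [RingHom.comp_apply, HRing_map_map' (inlM R R) (amPairInv R) (Am.v R (0 : Fin 2))
    (inlM_amPairInv R), h]

/-- the map `H R ⟶ F` -/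
def selfBar (h : ∀ a, θ₁ (HRing.map (Am.v R (0 : Fin 2)) a) = algebraMap (ZMod p) F (c.χ a)) :
    Vtot c R →ₗ[ZMod p] F := bar (overL_self h)

theorem selfBar_mk_of (h : ∀ a, θ₁ (HRing.map (Am.v R (0 : Fin 2)) a) =
    algebraMap (ZMod p) F (c.χ a)) (n : ℤ) (f : E.S n ⟶ R ⊗ R) :
    selfBar h (Vtot.mk c R (MP.of E R R n f)) = θ₁ (HRing.of E (Am R 2) n (f ≫ amPairInv R)) := by
  unfold selfBar
  rw [bar_mk_of, RingHom.comp_apply, HRing.map_of]

theorem selfBar_surjective (h : ∀ a, θ₁ (HRing.map (Am.v R (0 : Fin 2)) a) =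
    algebraMap (ZMod p) F (c.χ a)) (hs : Function.Surjective θ₁) :
    Function.Surjective (selfBar h) := by
  refine bar_surjective _ fun y => ?_
  obtain ⟨x, rfl⟩ := hs y
  refine ⟨HRing.map (amPair R) x, ?_⟩
  rw [RingHom.comp_apply, HRing_map_map' (amPair R) (amPairInv R) (𝟙 _) (amPair_amPairInv R),
    HRing.map_id]
  rfl

end H

section Hcoact

variable {T : Type u} [Category.{v} T] [Preadditive T] [HasZeroObject T]
    [HasShift T ℤ] [∀ n : ℤ, (shiftFunctor T n).Additive] [Pretriangulated T] [IsTriangulated T]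
    [MonoidalCategory T] [SymmetricCategory T] [TensorTriangulated T] [MonoidalClosed T]
    [HasCoproducts.{0} T] [HasProducts.{0} T] [StableCat T] {E : EvenSpheres T}
  {R : T} [MonObj R] [IsCommMonObj R] {p : ℕ} [Fact p.Prime]

theorem selfBar_mem {c : Pt E R p 0} {F : Type w'} [CommRing F] [Algebra (ZMod p) F]
    {θ₁ : HRing E (Am R 2) →+* F} (h : ∀ a, θ₁ (HRing.map (Am.v R (0 : Fin 2)) a) =
    algebraMap (ZMod p) F (c.χ a)) {Fg : ℤ → Submodule (ZMod p) F} (hh : Homog θ₁ Fg) {n : ℤ}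
    {y : Vtot c R} (hy : y ∈ hgr c R n) : selfBar h y ∈ Fg n := by
  refine bar_mem _ (fun n z => ?_) hy
  rw [RingHom.comp_apply, HRing.map_of]
  exact hh n _

theorem selfBar_bijective (hS : ∀ n, IsSphere (E.S n)) {c : Pt E R p 0} {F : Type w'}
    [CommRing F] [Algebra (ZMod p) F] {θ₁ : HRing E (Am R 2) →+* F}
    (h : ∀ a, θ₁ (HRing.map (Am.v R (0 : Fin 2)) a) = algebraMap (ZMod p) F (c.χ a)) {J : Type}
    (b : RBasis E R R J) (e : Module.Basis J (ZMod p) F)
    (he : ∀ j, θ₁ (HRing.of E (Am R 2) (b.k j) (b.w j ≫ amPairInv R)) = e j) :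
    Function.Bijective (selfBar h) := by
  refine bar_bijective hS b _ e fun j => ?_
  rw [RingHom.comp_apply, HRing.map_of]
  exact he j

variable {P : Type w} [CommRing P] [Bialgebra (ZMod p) P] (D : CoDat E R p P)

/-- **`selfBar θ₁ : H R ⟶ F` is colinear.** -/
theorem CoDat.selfBar_psi (hS : ∀ n, IsSphere (E.S n)) (hR : Good E R R) {F : Type w'}
    [CommRing F] [Algebra (ZMod p) F] {θ₁ : HRing E (Am R 2) →+* F}
    (h : ∀ a, θ₁ (HRing.map (Am.v R (0 : Fin 2)) a) = algebraMap (ZMod p) F (D.c.χ a))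
    (θ₂ : HRing E (Am R 3) →+* P ⊗[ZMod p] F)
    (h01 : ∀ z, θ₂ (HRing.map (Am.map R ![0, 1]) z) = D.φ z ⊗ₜ 1)
    (h12 : ∀ z, θ₂ (HRing.map (Am.map R ![1, 2]) z) = 1 ⊗ₜ θ₁ z)
    (ψ : F → P ⊗[ZMod p] F) (h02 : ∀ z, θ₂ (HRing.map (Am.map R ![0, 2]) z) = ψ (θ₁ z))
    (y : D.H R) : (selfBar h).lTensor P (D.psi R y) = ψ (selfBar h y) := by
  have e1 : ∀ z : HRing E (R ⊗ R), HRing.map (Am.map R ![(1 : Fin 3), 2])
      (HRing.map (amPairInv R) z) = HRing.map (Am.v R (1 : Fin 2) ▷ R) z := fun z => by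
    refine HRing_map_map' _ _ _ ?_ z
    have h3 := amPair_v_whisker R (1 : Fin 2)
    change amPair R ≫ Am.v R (1 : Fin 2) ▷ R = Am.map R ![(1 : Fin 3), 2] at h3
    rw [← h3, amPairInv_amPair_assoc]
  have e0 : ∀ z : HRing E (R ⊗ R), HRing.map (Am.map R ![(0 : Fin 3), 2])
      (HRing.map (amPairInv R) z) = HRing.map (Am.v R (0 : Fin 2) ▷ R) z := fun z => by
    refine HRing_map_map' _ _ _ ?_ z
    have h3 := amPair_v_whisker R (0 : Fin 2)
    change amPair R ≫ Am.v R (0 : Fin 2) ▷ R = Am.map R ![(0 : Fin 3), 2] at h3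
    rw [← h3, amPairInv_amPair_assoc]
  refine D.bar_psi hS hR (overL_self h) θ₂ (fun z => ?_) (fun z => ?_) ψ (fun z => ?_) y
  · rw [← h01]
    congr 1
    exact DFunLike.congr_fun (HRing_map_congr (map_01_eq R).symm) z
  · rw [← e1, h12]
    rfl
  · rw [← e0, h02]
    rfl

/-- **the map `q : H R ⟶ P`** -/
def CoDat.q : D.H R →ₗ[ZMod p] P := selfBar D.φ_v₀

theorem CoDat.q_mk_of (n : ℤ) (f : E.S n ⟶ R ⊗ R) :
    D.q (Vtot.mk D.c R (MP.of E R R n f)) = D.φ (HRing.of E (Am R 2) n (f ≫ amPairInv R)) :=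
  selfBar_mk_of D.φ_v₀ n f

theorem CoDat.q_surjective (hs : Function.Surjective D.φ) : Function.Surjective D.q :=
  selfBar_surjective D.φ_v₀ hs

/-- **`q` is colinear** -/
theorem CoDat.colin_q (hS : ∀ n, IsSphere (E.S n)) (hR : Good E R R) :
    Vale.Agent.P093.N.Co.Colin (D.psi R) (Coalgebra.comul (R := ZMod p) (A := P)) D.q := by
  apply LinearMap.ext
  intro y
  exact (D.selfBar_psi hS hR D.φ_v₀ D.φ₂ D.φ₂_01 D.φ₂_12 _ D.φ₂_02 y).symm

theorem CoDat.q_mem {Pg : ℤ → Submodule (ZMod p) P} (hh : Homog D.φ Pg) {n : ℤ} {y : D.H R}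
    (hy : y ∈ hgr D.c R n) : D.q y ∈ Pg n := selfBar_mem D.φ_v₀ hh hy

end Hcoact

end self

end Vale.Agent.P093.N.HH
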