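import Vale.Agent.P093.N.Nak1
import Vale.Agent.P093.N.HAlg
import Vale.Agent.P251.X.HomV
import Vale.Agent.P251.X.Push

/-!
# P093, block N:H, part 1: the map `theta`

`c : Pt E R p 0` : a ring homomorphism `c.χ : π_{2*} R ⟶ 𝔽_p` concentrated in degree `0`,
`H X = Vtot c X = π_{2*}(R ⊗ X) / (ker c.χ)`.

For a monoid map `r : R ⟶ B` and a ring homomorphism `φ : π_{2*} B ⟶ A'` which is `c.χ` on
`π_{2*} R` the map `theta c r φ X : π_{2*}(B ⊗ X) ⟶ A' ⊗ H X` is characterised (for good `X`) by
`theta (z • push r x) = φ z ⊗ [x]`.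
-/

open CategoryTheory MonoidalCategory Limits Pretriangulated MonObj TensorProduct

set_option linter.unusedSectionVars false

universe v u w

noncomputable section

namespace Vale.Agent.P093.N.HH

open Vale.Agent.P251.T Vale.Agent.P251.M Vale.Agent.P251.M.EvenSpheres Vale.Agent.P251.S
  Vale.Agent.P251.X

section basic

variable {T : Type u} [Category.{v} T] [Preadditive T] [MonoidalCategory T]
  [MonoidalPreadditive T] [SymmetricCategory T] {E : EvenSpheres T} {R : T} [MonObj R]
  {p N : ℕ} (c : Pt E R p N)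

/-- The modules `π_{2*}(R ⊗ X)` and `π_{2*}(B ⊗ X)` have corresponding bases. -/
def Along (E : EvenSpheres T) {R B : T} [MonObj R] [MonObj B] (r : R ⟶ B) (X : T) : Prop :=
  ∃ (J : Type) (b : Module.Basis J (HRing E R) (MP E R X))
    (b' : Module.Basis J (HRing E B) (MP E B X)), ∀ j, MP.push E r X (b j) = b' j

variable {B : T} [MonObj B] (r : R ⟶ B) {A' : Type w} [CommRing A'] [Algebra (ZMod p) A']
  (φ : HRing E B →+* A')

/-- `φ` extends `c.χ` -/
def Over [IsMonHom r] : Prop := ∀ a, φ (HRing.map r a) = algebraMap (ZMod p) A' (c.χ a)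

/-- the characterisation of `theta` -/
def IsTheta (X : T) (θ : MP E B X →+ A' ⊗[ZMod p] Vtot c X) : Prop :=
  ∀ (z : HRing E B) (x : MP E R X), θ (z • MP.push E r X x) = φ z ⊗ₜ Vtot.mk c X x

open Classical in
/-- the map `π_{2*}(B ⊗ X) ⟶ A' ⊗ H X` -/
def theta (X : T) : MP E B X →+ A' ⊗[ZMod p] Vtot c X :=
  if h : ∃ θ, IsTheta c r φ X θ then h.choose else 0

variable {r} {X Y : T}

/-- additive maps out of `π_{2*}(B ⊗ X)` are determined by their values on `z • push r x` -/
theorem Along.ext (h : Along E r X) {G : Type*} [AddCommMonoid G] {f g : MP E B X →+ G}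
    (hfg : ∀ (z : HRing E B) (x : MP E R X), f (z • MP.push E r X x) = g (z • MP.push E r X x)) :
    f = g := by
  obtain ⟨J, b, b', hb⟩ := h
  refine addHom_ext_basis b' fun z j => ?_
  rw [← hb]
  exact hfg z (b j)

variable [Fact p.Prime] {φ} [IsMonHom r]

theorem Along.exists_isTheta (h : Along E r X) (hφ : Over c r φ) : ∃ θ, IsTheta c r φ X θ := by
  obtain ⟨J, b, b', hb⟩ := h
  refine ⟨thetaA (k := ZMod p) b b' (Vtot.mk c X) φ, fun z x => ?_⟩
  exact thetaA_smul_push (k := ZMod p) (ε := c.χ) b b' (Vtot.mk c X) φ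
    (fun a m => Vtot.mk_smul a m) (HRing.map r) hφ (MP.push E r X)
    (fun a m => MP.push_smul r a m) hb z x

theorem theta_spec (h : Along E r X) (hφ : Over c r φ) : IsTheta c r φ X (theta c r φ X) := by
  have h1 := h.exists_isTheta c hφ
  unfold theta
  rw [dif_pos h1]
  exact h1.choose_spec

theorem theta_smul_push (h : Along E r X) (hφ : Over c r φ) (z : HRing E B) (x : MP E R X) :
    theta c r φ X (z • MP.push E r X x) = φ z ⊗ₜ Vtot.mk c X x :=
  theta_spec c h hφ z x

theorem theta_push (h : Along E r X) (hφ : Over c r φ) (x : MP E R X) :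
    theta c r φ X (MP.push E r X x) = 1 ⊗ₜ Vtot.mk c X x := by
  have h1 := theta_smul_push c h hφ 1 x
  rwa [one_smul, map_one] at h1

theorem IsTheta.eq_theta {θ : MP E B X →+ A' ⊗[ZMod p] Vtot c X} (h : Along E r X)
    (hθ : IsTheta c r φ X θ) : θ = theta c r φ X := by
  have h1 : ∃ θ, IsTheta c r φ X θ := ⟨θ, hθ⟩
  have h2 : IsTheta c r φ X (theta c r φ X) := by
    unfold theta
    rw [dif_pos h1]
    exact h1.choose_spec
  exact h.ext fun z x => (hθ z x).trans (h2 z x).symm

/-- `theta` is `φ`-semilinear -/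
theorem theta_smul (h : Along E r X) (hφ : Over c r φ) (z : HRing E B) (y : MP E B X) :
    theta c r φ X (z • y) = φ z • theta c r φ X y := by
  have h1 : (theta c r φ X).comp (DistribSMul.toAddMonoidHom _ z) =
      (DistribSMul.toAddMonoidHom _ (φ z)).comp (theta c r φ X) := by
    refine h.ext fun z' x => ?_
    change theta c r φ X (z • z' • MP.push E r X x) = φ z • theta c r φ X (z' • MP.push E r X x)
    rw [smul_smul, theta_smul_push c h hφ, theta_smul_push c h hφ, map_mul,
      TensorProduct.smul_tmul', smul_eq_mul]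
  exact DFunLike.congr_fun h1 y

/-- naturality in `X` -/
theorem theta_map (hX : Along E r X) (hY : Along E r Y) (hφ : Over c r φ) (f : X ⟶ Y)
    (y : MP E B X) : theta c r φ Y (MP.map E B f y) =
      (Vtot.map c f).lTensor A' (theta c r φ X y) := by
  have h1 : (theta c r φ Y).comp (MP.map E B f).toAddMonoidHom =
      ((Vtot.map c f).lTensor A').toAddMonoidHom.comp (theta c r φ X) := by
    refine hX.ext fun z x => ?_
    change theta c r φ Y (MP.map E B f (z • MP.push E r X x)) =
      (Vtot.map c f).lTensor A' (theta c r φ X (z • MP.push E r X x))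
    rw [map_smul, MP.map_push, theta_smul_push c hY hφ, theta_smul_push c hX hφ,
      LinearMap.lTensor_tmul, Vtot.map_mk]
  exact DFunLike.congr_fun h1 y

/-- naturality in `B` -/
theorem theta_change {B' : T} [MonObj B'] {r' : R ⟶ B'} [IsMonHom r'] {A'' : Type*}
    [CommRing A''] [Algebra (ZMod p) A''] {φ' : HRing E B' →+* A''} (g : B ⟶ B') [IsMonHom g]
    (hg : r ≫ g = r') (h : A' →ₐ[ZMod p] A'') (hh : ∀ z, φ' (HRing.map g z) = h (φ z))
    (hX : Along E r X) (hX' : Along E r' X) (hφ : Over c r φ) (hφ' : Over c r' φ')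
    (y : MP E B X) : theta c r' φ' X (MP.push E g X y) =
      h.toLinearMap.rTensor (Vtot c X) (theta c r φ X y) := by
  have h1 : (theta c r' φ' X).comp (MP.push E g X) =
      (h.toLinearMap.rTensor (Vtot c X)).toAddMonoidHom.comp (theta c r φ X) := by
    refine hX.ext fun z x => ?_
    change theta c r' φ' X (MP.push E g X (z • MP.push E r X x)) =
      h.toLinearMap.rTensor (Vtot c X) (theta c r φ X (z • MP.push E r X x))
    rw [MP.push_smul, MP.push_push, theta_smul_push c hX hφ]
    subst hg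
    rw [theta_smul_push c hX' hφ', LinearMap.rTensor_tmul, hh]
    rfl
  exact DFunLike.congr_fun h1 y

end basic

end Vale.Agent.P093.N.HH
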