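import Vale.Agent.P093.N.Hur
import Vale.Agent.P093.N.PLocRight
import Vale.Agent.P251.I.M

/-!
# P093, part N (Step 1): the Hurewicz lemma for `MUData`

Direct forms of `Hur.lean` for the ring `D.R` of `D : MUData T` and `D.R ⊗ S_(p)`.

* `conn_R`, `conn_Rp` : `D.R` and `D.R ⊗ S_(p)` are connective;
* `conn_of_conn_R`, `conn_of_conn_Rp` : bounded below objects are as connected as `R ⊗ X`;
* `conn_of_rbasis_MU`, `conn_of_rbasis_Rp`, `eq_zero_of_rbasis_Rp`.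
-/

open CategoryTheory MonoidalCategory MonObj Limits Pretriangulated

set_option linter.unusedSectionVars false

universe v u

namespace Vale.Agent.P093.Nak

open Vale.Agent.P251.M hiding IsCpt
open Vale.Agent.P251.T Vale.Agent.P251.S Vale.Agent.P251.I Vale.Agent.P093.PLoc
  Vale.Agent.P093.N.LR

variable {T : Type u} [Category.{v} T] [Preadditive T] [HasZeroObject T]
    [HasShift T ℤ] [∀ n : ℤ, (shiftFunctor T n).Additive] [Pretriangulated T] [IsTriangulated T]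
    [MonoidalCategory T] [SymmetricCategory T] [TensorTriangulated T] [MonoidalClosed T]
    [HasCoproducts.{0} T] [HasProducts.{0} T] [StableCat T] (D : MUData T)

lemma exists_cofibre_unit : ∃ (J : T) (ρ : D.R ⟶ J) (δ : J ⟶ (𝟙_ T)⟦(1 : ℤ)⟧),
    Triangle.mk (η[D.R] : 𝟙_ T ⟶ D.R) ρ δ ∈ distTriang T ∧ BigCell T 2 J := by
  obtain ⟨J, ρ, δ, h⟩ := distinguished_cocone_triangle (η[D.R] : 𝟙_ T ⟶ D.R)
  exact ⟨J, ρ, δ, h, D.conn J ρ δ h⟩

lemma conn_R : Conn 0 D.R := by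
  obtain ⟨J, ρ, δ, h, hJ⟩ := exists_cofibre_unit D
  have h1 : Conn 2 J := hJ.conn D.conn_unit fun Y k f => StableCat.compact k Y f
  exact Conn.ext _ h D.conn_unit (h1.mono (by omega))

lemma conn_Rp (p : ℕ) : Conn 0 (D.R ⊗ Sp T p) := conn_tensor_Sp PLoc.isCpt_unit (conn_R D) p

/-- **Hurewicz** : a bounded below `X` is as connected as `R ⊗ X`. -/
theorem conn_of_conn_R {X : T} {m n : ℤ} (hX : Conn m X) (hRX : Conn n (D.R ⊗ X)) : Conn n X := by
  obtain ⟨J, ρ, δ, h, hJ⟩ := exists_cofibre_unit D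
  exact conn_of_null PLoc.isCpt_unit h hJ hX hRX

/-- Hurewicz, `p`-local form. -/
theorem conn_of_conn_Rp {p : ℕ} (hp : p ≠ 1) {X : T} (hX : IsPLocal p X) {m n : ℤ}
    (h0 : Conn m X) (hRX : Conn n ((D.R ⊗ Sp T p) ⊗ X)) : Conn n X := by
  have h1 : IsIso (etaX p X) := hX.isIso_etaX hp
  exact conn_of_conn_R D h0
    (Conn.of_iso (α_ D.R (Sp T p) X ≪≫ whiskerLeftIso D.R (asIso (etaX p X)).symm) hRX)

/-- A bounded below `X` with an `R`-basis in degrees `≥ B` is `(2 B)`-connective. -/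
theorem conn_of_rbasis_MU {X : T} {m : ℤ} (h0 : Conn m X) {K : Type}
    (b : RBasis (stdEven T) D.R X K) {B : ℤ} (hB : ∀ j, B ≤ b.k j) : Conn (2 * B) X :=
  conn_of_conn_R D h0 (b.conn PLoc.isCpt_unit (conn_R D) hB)

/-- A `p`-local bounded below `X` with an `(R ⊗ S_(p))`-basis in degrees `≥ B` is
`(2 B)`-connective. -/
theorem conn_of_rbasis_Rp {p : ℕ} (hp : p ≠ 1) [MonObj (D.R ⊗ Sp T p)] {X : T}
    (hX : IsPLocal p X) {m : ℤ} (h0 : Conn m X) {K : Type}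
    (b : RBasis (stdEven T) (D.R ⊗ Sp T p) X K) {B : ℤ} (hB : ∀ j, B ≤ b.k j) :
    Conn (2 * B) X :=
  conn_of_conn_Rp D hp hX h0 (b.conn PLoc.isCpt_unit (conn_Rp D p) hB)

/-- maps from finite complexes of dimension `< 2 B` vanish -/
theorem eq_zero_of_rbasis_Rp {p : ℕ} (hp : p ≠ 1) [MonObj (D.R ⊗ Sp T p)] {X : T}
    (hX : IsPLocal p X) {m : ℤ} (h0 : Conn m X) {K : Type}
    (b : RBasis (stdEven T) (D.R ⊗ Sp T p) X K) {B : ℤ} (hB : ∀ j, B ≤ b.k j) {n : ℤ}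
    (hn : n < 2 * B) {W : T} (hW : DimLE n W) (f : W ⟶ X) : f = 0 :=
  DimLE.hom_eq_zero hn hW (conn_of_rbasis_Rp D hp hX h0 b hB) f

end Vale.Agent.P093.Nak
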