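import Vale.Agent.P093.N.RealDefs
import Vale.Agent.P251.M.CofIn

/-!
# P093, part N (block 3c, REAL): finite direct sums of copies of an object

* `Sums.of_retract` : retracts of finite direct sums of copies of `M`, when `End M` is local;
* `Sums.attach` : attaching several cells of the same dimension at once.
-/

open CategoryTheory MonoidalCategory Limits Pretriangulated ZeroObject
open Vale.Agent.P251.G Vale.Agent.P251.G.LC Vale.Agent.P251.H Vale.Agent.P251.M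

universe v u

namespace Vale.Agent.P093.N.Real

section Preadd

variable {C : Type u} [Category.{v} C] [Preadditive C]

/-- `1 - y x` is invertible when `1 - x y` is. -/
theorem isIso_one_sub_comp {X Y : C} (x : X ⟶ Y) (y : Y ⟶ X) (h : IsIso (𝟙 X - x ≫ y)) :
    IsIso (𝟙 Y - y ≫ x) := by
  have h1 : (𝟙 X - x ≫ y) ≫ inv (𝟙 X - x ≫ y) = 𝟙 X := IsIso.hom_inv_id _
  have h2 : inv (𝟙 X - x ≫ y) ≫ (𝟙 X - x ≫ y) = 𝟙 X := IsIso.inv_hom_id _
  generalize inv (𝟙 X - x ≫ y) = c at h1 h2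
  rw [Preadditive.sub_comp, Category.id_comp, sub_eq_iff_eq_add, Category.assoc] at h1
  rw [Preadditive.comp_sub, Category.comp_id, sub_eq_iff_eq_add] at h2
  refine ⟨𝟙 Y + y ≫ c ≫ x, ?_, ?_⟩
  · have h3 : y ≫ c ≫ x = y ≫ x + y ≫ x ≫ y ≫ c ≫ x := by
      conv_lhs => rw [h1]
      simp
    rw [Preadditive.sub_comp, Category.id_comp, Preadditive.comp_add, Category.comp_id,
      Category.assoc]
    conv_lhs => enter [1, 2]; rw [h3]
    abel
  · have h3 : y ≫ c ≫ x = y ≫ x + y ≫ c ≫ x ≫ y ≫ x := by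
      conv_lhs => rw [h2]
      simp
    rw [Preadditive.comp_sub, Category.comp_id, Preadditive.add_comp, Category.id_comp,
      Category.assoc, Category.assoc]
    conv_lhs => enter [1, 2]; rw [h3]
    abel

end Preadd

variable {T : Type u} [Category.{v} T] [Preadditive T] [HasZeroObject T]
  [HasShift T ℤ] [∀ n : ℤ, (shiftFunctor T n).Additive] [Pretriangulated T]

/-- A distinguished triangle with compatible splittings. -/
theorem split_id' {A W U : T} {i : A ⟶ W} {q : W ⟶ U} {h : U ⟶ A⟦(1 : ℤ)⟧} (D : Dist i q h)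
    (r : W ⟶ A) (s : U ⟶ W) (hir : i ≫ r = 𝟙 A) (hsq : s ≫ q = 𝟙 U) (hsr : s ≫ r = 0) :
    r ≫ i + q ≫ s = 𝟙 W := by
  obtain ⟨e', he'⟩ := D.lift₂ (𝟙 W - r ≫ i - q ≫ s) (by
    rw [Preadditive.sub_comp, Preadditive.sub_comp, Category.id_comp, Category.assoc,
      Category.assoc, D.zero₁₂, hsq, comp_zero, Category.comp_id, sub_zero, sub_self])
  have h1 : (𝟙 W - r ≫ i - q ≫ s) ≫ r = 0 := by
    rw [Preadditive.sub_comp, Preadditive.sub_comp, Category.id_comp, Category.assoc,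
      Category.assoc, hir, hsr, comp_zero, Category.comp_id, sub_zero, sub_self]
  have h2 : e' = 0 := by
    rw [← he', Category.assoc, hir, Category.comp_id] at h1
    exact h1
  rw [h2, zero_comp] at he'
  have h3 : 𝟙 W - (r ≫ i + q ≫ s) = 0 := by rw [he']; abel
  exact (sub_eq_zero.mp h3).symm

/-- A split mono in a pretriangulated category: complement. -/
theorem exists_complement {M P : T} (i : M ⟶ P) (t : P ⟶ M) (hit : i ≫ t = 𝟙 M) :
    ∃ (Q : T) (q : P ⟶ Q) (s : Q ⟶ P), i ≫ q = 0 ∧ s ≫ q = 𝟙 Q ∧ s ≫ t = 0 ∧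
      t ≫ i + q ≫ s = 𝟙 P := by
  obtain ⟨Q, q, h, D⟩ := exists_cone i
  have hh : h = 0 := by
    have h1 := D.zero₃₁
    have h2 : h ≫ i⟦(1 : ℤ)⟧' ≫ t⟦(1 : ℤ)⟧' = 0 := by
      rw [← Category.assoc, h1, zero_comp]
    rwa [← Functor.map_comp, hit, CategoryTheory.Functor.map_id, Category.comp_id] at h2
  obtain ⟨s, hs⟩ := D.lift₃ (𝟙 Q) (by rw [hh, comp_zero])
  refine ⟨Q, q, s - s ≫ t ≫ i, D.zero₁₂, ?_, ?_, ?_⟩
  · rw [Preadditive.sub_comp, hs, Category.assoc, Category.assoc, D.zero₁₂]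
    simp
  · rw [Preadditive.sub_comp, Category.assoc, Category.assoc, hit, Category.comp_id, sub_self]
  · apply split_id' D t _ hit
    · rw [Preadditive.sub_comp, hs, Category.assoc, Category.assoc, D.zero₁₂]
      simp
    · rw [Preadditive.sub_comp, Category.assoc, Category.assoc, hit, Category.comp_id, sub_self]

/-- The biproduct decomposition given by a split mono. -/
theorem exists_iso_biprod {M P : T} (i : M ⟶ P) (t : P ⟶ M) (hit : i ≫ t = 𝟙 M) :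
    ∃ (Q : T) (q : P ⟶ Q) (s : Q ⟶ P) (_ : P ≅ M ⊞ Q), i ≫ q = 0 ∧ s ≫ q = 𝟙 Q ∧ s ≫ t = 0 ∧
      t ≫ i + q ≫ s = 𝟙 P := by
  obtain ⟨Q, q, s, h1, h2, h3, h4⟩ := exists_complement i t hit
  refine ⟨Q, q, s, ⟨biprod.lift t q, biprod.desc i s, ?_, ?_⟩, h1, h2, h3, h4⟩
  · rw [biprod.lift_desc, h4]
  · ext <;> simp [hit, h1, h2, h3]

namespace Sums

variable {M : T}

theorem of_iso {B B' : T} (e : B ≅ B') (h : Sums M B) : Sums M B' := by
  cases h with
  | zero _ hB => exact zero B' (hB.of_iso e.symm)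
  | cons _ Q e' hQ => exact cons B' Q (e.symm ≪≫ e') hQ

theorem single : Sums M M := by
  refine cons M 0 ⟨biprod.inl, biprod.fst, ?_, ?_⟩ (zero _ (isZero_zero T))
  · simp
  · ext <;> first
      | simp; done
      | exact (isZero_zero T).eq_of_src _ _
      | exact (isZero_zero T).eq_of_tgt _ _

theorem biprod {B B' : T} (h : Sums M B) (h' : Sums M B') : Sums M (B ⊞ B') := by
  induction h with
  | zero B hB =>
    refine h'.of_iso ⟨biprod.inr, biprod.snd, ?_, ?_⟩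
    · simp
    · ext
      · exact hB.eq_of_src _ _
      · exact hB.eq_of_src _ _
      · exact hB.eq_of_tgt _ _
      · simp
  | cons B Q e _ ih =>
    exact cons _ _ (biprod.mapIso e (Iso.refl B') ≪≫ biprod.associator M Q B') ih

/-- additive functors preserve `Sums` -/
theorem map {T' : Type*} [Category T'] [Preadditive T'] [HasZeroObject T']
    [HasShift T' ℤ] [∀ n : ℤ, (shiftFunctor T' n).Additive] [Pretriangulated T']
    (F : T ⥤ T') [F.Additive] {B : T} (h : Sums M B) : Sums (F.obj M) (F.obj B) := by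
  induction h with
  | zero B hB => exact zero _ (F.map_isZero hB)
  | cons B Q e _ ih =>
    refine cons _ _ (F.mapIso e ≪≫ ⟨biprod.lift (F.map biprod.fst) (F.map biprod.snd),
      biprod.desc (F.map biprod.inl) (F.map biprod.inr), ?_, ?_⟩) ih
    · rw [biprod.lift_desc, ← F.map_comp, ← F.map_comp, ← F.map_add, biprod.total, F.map_id]
    · ext <;> simp [← F.map_comp]

theorem shift {B : T} (h : Sums M B) (n : ℤ) : Sums (M⟦n⟧) (B⟦n⟧) := h.map (shiftFunctor T n)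

theorem congr {M' B : T} (e : M ≅ M') (h : Sums M B) : Sums M' B := by
  induction h with
  | zero B hB => exact zero _ hB
  | cons B Q e' _ ih => exact cons _ _ (e' ≪≫ biprod.mapIso e (Iso.refl Q)) ih

/-- **Retracts of finite sums of copies of an object with local endomorphism ring.** -/
theorem of_retract (hM : ∀ a : M ⟶ M, IsIso a ∨ IsIso (𝟙 M - a)) {B : T} (hB : Sums M B)
    {P : T} (i : P ⟶ B) (r : B ⟶ P) (hir : i ≫ r = 𝟙 P) : Sums M P := by
  induction hB generalizing P with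
  | zero B hB =>
    refine zero P ?_
    rw [IsZero.iff_id_eq_zero, ← hir, hB.eq_of_tgt i 0, zero_comp]
  | cons B Q e hQ ih =>
    let iM : P ⟶ M := i ≫ e.hom ≫ biprod.fst
    let iQ : P ⟶ Q := i ≫ e.hom ≫ biprod.snd
    let rM : M ⟶ P := biprod.inl ≫ e.inv ≫ r
    let rQ : Q ⟶ P := biprod.inr ≫ e.inv ≫ r
    have key : iM ≫ rM + iQ ≫ rQ = 𝟙 P := by
      have h1 : iM ≫ rM + iQ ≫ rQ = i ≫ e.hom ≫
          (biprod.fst ≫ biprod.inl + biprod.snd ≫ biprod.inr) ≫ e.inv ≫ r := by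
        simp only [iM, rM, iQ, rQ, Category.assoc, Preadditive.add_comp, Preadditive.comp_add]
      rw [h1, biprod.total, Category.id_comp, Iso.hom_inv_id_assoc, hir]
    rcases hM (rM ≫ iM) with h | h
    · obtain ⟨P', q, s, e', h1, h2, h3, h4⟩ := exists_iso_biprod rM (iM ≫ inv (rM ≫ iM))
        (by rw [← Category.assoc]; exact IsIso.hom_inv_id _)
      refine cons P P' e' (ih (s ≫ iQ) (rQ ≫ q) ?_)
      have h5 : iQ ≫ rQ = 𝟙 P - iM ≫ rM := by rw [← key]; abel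
      calc (s ≫ iQ) ≫ rQ ≫ q = s ≫ (iQ ≫ rQ) ≫ q := by simp
        _ = s ≫ q - s ≫ iM ≫ rM ≫ q := by rw [h5]; simp
        _ = 𝟙 P' := by rw [h1, h2]; simp
    · have h5 : IsIso (iQ ≫ rQ) := by
        have h6 : iQ ≫ rQ = 𝟙 P - iM ≫ rM := by rw [← key]; abel
        rw [h6]
        exact isIso_one_sub_comp rM iM h
      exact ih iQ (rQ ≫ inv (iQ ≫ rQ)) (by rw [← Category.assoc]; exact IsIso.hom_inv_id _)

end Sums

section attach

theorem Cells.of_iso {L X Y : T} (e : X ≅ Y) (h : Cells L X) : Cells L Y := by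
  cases h with
  | zero _ hX => exact Cells.zero Y (hX.of_iso e.symm)
  | @attach W _ k g q h D hW =>
    refine Cells.attach k (g ≫ e.hom) (e.inv ≫ q) h ?_ hW
    refine isomorphic_distinguished _ D _ (Triangle.isoMk _ _ (Iso.refl W) e.symm
      (Iso.refl _) ?_ ?_ ?_)
    · change (g ≫ e.hom) ≫ e.inv = 𝟙 W ≫ g
      simp
    · change (e.inv ≫ q) ≫ 𝟙 _ = e.inv ≫ q
      simp
    · change h ≫ (𝟙 W)⟦(1 : ℤ)⟧' = 𝟙 _ ≫ h
      simp

/-- unshifting a triangle -/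
theorem dist_unshift {X Y Z : T} (f : X ⟶ Y) {b : Y⟦(1 : ℤ)⟧ ⟶ Z⟦(1 : ℤ)⟧}
    {c : Z⟦(1 : ℤ)⟧ ⟶ (X⟦(1 : ℤ)⟧)⟦(1 : ℤ)⟧} (D : Dist (f⟦(1 : ℤ)⟧') b c) :
    ∃ (g : Y ⟶ Z) (h : Z ⟶ X⟦(1 : ℤ)⟧), Dist f g h := by
  obtain ⟨W, g, h, D'⟩ := exists_cone f
  have D1 := D'.rot.rot.rot
  let n : Y⟦(1 : ℤ)⟧ ≅ Y⟦(1 : ℤ)⟧ := ⟨-𝟙 _, -𝟙 _, by simp, by simp⟩
  obtain ⟨e, -, -⟩ := exists_iso_of_arrow_iso _ _ D1 D
    (Arrow.isoMk (Iso.refl _) n (by
      change 𝟙 _ ≫ f⟦(1 : ℤ)⟧' = (-f⟦(1 : ℤ)⟧') ≫ (-𝟙 _)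
      simp))
  have e1 : W⟦(1 : ℤ)⟧ ≅ Z⟦(1 : ℤ)⟧ := Triangle.π₃.mapIso e
  obtain ⟨e2⟩ := nonempty_iso_of_shift 1 ⟨e1⟩
  refine ⟨g ≫ e2.hom, e2.inv ≫ h, D'.of_iso₃ e2.inv ?_ rfl⟩
  simp

/-- Attaching several cells of the same dimension at once. -/
theorem Sums.attach [IsTriangulated T] {L : T} {k : ℤ} {B : T} (hB : Sums (L⟦2 * k⟧) B) {X Y : T}
    {g : X ⟶ Y} {q : Y ⟶ B} {h : B ⟶ X⟦(1 : ℤ)⟧} (D : Dist g q h) (hX : Cells L X) :
    Cells L Y := by
  induction hB generalizing X Y with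
  | zero B hB =>
    have : IsIso g := (Triangle.isZero₃_iff_isIso₁ _ D).1 hB
    exact hX.of_iso (asIso g)
  | cons B Q e hQ ih =>
    obtain ⟨Y', y, z, D1⟩ := exists_mid (biprod.inl ≫ e.inv ≫ h)
    have D2 : Dist (biprod.inl ≫ e.inv : L⟦2 * k⟧ ⟶ B) (e.hom ≫ biprod.snd) 0 := by
      refine isomorphic_distinguished _ (binaryBiproductTriangle_distinguished (L⟦2 * k⟧) Q) _
        (Triangle.isoMk _ _ (Iso.refl _) e (Iso.refl _) ?_ ?_ ?_)
      · change (biprod.inl ≫ e.inv) ≫ e.hom = 𝟙 _ ≫ biprod.inl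
        simp
      · change (e.hom ≫ biprod.snd) ≫ 𝟙 _ = e.hom ≫ biprod.snd
        simp
      · change (0 : Q ⟶ _) ≫ _ = 𝟙 _ ≫ 0
        simp
    obtain ⟨m₁, m₃, -, -, -, -, O⟩ := exists_octa (by simp) D2 D.rot.rot D1.rot.rot
    obtain ⟨w, rfl⟩ := (shiftFunctor T (1 : ℤ)).map_surjective m₃
    obtain ⟨a, b, D3⟩ := dist_unshift w O.rot
    exact ih D3 (Cells.attach k y z _ D1 hX)

end attach

end Vale.Agent.P093.N.Real
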