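import Vale.Agent.P093.N.RealSkel
import Vale.Agent.P093.N.RealSums
import Vale.Agent.P251.M.EvenCell

/-!
# P093, block N3-K (part R1a): retracts of `V ⊗ L`, `V` a finite even complex, `L = S_(p)`

The general theorem of `RealSkel` for the family `d ↦ L⟦2 d⟧`.
-/

open CategoryTheory Limits Pretriangulated Preadditive ObjectProperty MonoidalCategory

universe v u

set_option linter.unusedSectionVars false

namespace Vale.Agent.P093.N.RealSkel

open Vale.Agent.P251.T Vale.Agent.P251.M Vale.Agent.P251.H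

section Pre

variable {T : Type u} [Category.{v} T] [Preadditive T] [HasZeroObject T]
    [HasShift T ℤ] [∀ n : ℤ, (shiftFunctor T n).Additive] [Pretriangulated T]

/-- `(f : X⟦a⟧ ⟶ Y⟦b⟧) = 0` if every map `X⟦c⟧ ⟶ Y` is zero, `c + b = a`. -/
lemma eq_zero_of_unshift {X Y : T} (a b c : ℤ) (h : c + b = a) (hX : ∀ f : X⟦c⟧ ⟶ Y, f = 0)
    (f : X⟦a⟧ ⟶ Y⟦b⟧) : f = 0 := by
  have e : X⟦a⟧ ≅ (X⟦c⟧)⟦b⟧ := (shiftFunctorAdd' T c b a h).app X
  obtain ⟨g, hg⟩ := (shiftFunctor T b).map_surjective (e.inv ≫ f)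
  rw [hX g, Functor.map_zero] at hg
  rw [← cancel_epi e.inv, ← hg, comp_zero]

/-- the family of the even shifts of `L` -/
abbrev sph (L : T) : ℤ → T := fun d => L⟦2 * d⟧

lemma vanish_sph {L : T} (h : ∀ n : ℤ, n < 0 → ∀ f : L⟦n⟧ ⟶ L, f = 0) : Vanish (sph L) := by
  intro n d d' hd f
  have e : (L⟦2 * d⟧)⟦n⟧ ≅ L⟦2 * d + n⟧ := ((shiftFunctorAdd' T (2 * d) n _ rfl).app L).symm
  have h1 : e.inv ≫ f = 0 :=
    eq_zero_of_unshift (2 * d + n) (2 * d') (2 * d + n - 2 * d') (by ring)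
      (h _ (by omega)) (e.inv ≫ f)
  rw [← cancel_epi e.inv, h1, comp_zero]

lemma loc_shift {L : T} (h : ∀ a : L ⟶ L, IsIso a ∨ IsIso (𝟙 L - a)) (n : ℤ)
    (a : L⟦n⟧ ⟶ L⟦n⟧) : IsIso a ∨ IsIso (𝟙 (L⟦n⟧) - a) := by
  obtain ⟨b, rfl⟩ := (shiftFunctor T n).map_surjective a
  rcases h b with hb | hb
  · exact Or.inl inferInstance
  · right
    have h1 : 𝟙 (L⟦n⟧) - b⟦n⟧' = (𝟙 L - b)⟦n⟧' := by
      rw [Functor.map_sub, CategoryTheory.Functor.map_id]
    rw [h1]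
    infer_instance

lemma loc_sph {L : T} (h : ∀ a : L ⟶ L, IsIso a ∨ IsIso (𝟙 L - a)) : Loc (sph L) :=
  fun d a => loc_shift h (2 * d) a

lemma Cell.single (S : ℤ → T) (d : ℤ) : Cell S [d] (S d) := by
  obtain ⟨Z, hZ⟩ := HasZeroObject.zero (C := T)
  refine .cons d [] Z (S d) 0 (𝟙 _) 0 ?_ (.zero _ hZ)
  rw [Triangle.distinguished_iff_of_isZero₁ _ hZ]
  exact (inferInstance : IsIso (𝟙 (S d)))

lemma Cell.cells {L X : T} {l : List ℤ} (h : Cell (sph L) l X) : Real.Cells L X := by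
  induction h with
  | zero X hX => exact .zero X hX
  | cons d l A X f g h hT _ ih => exact .attach d f g h hT ih

lemma exists_cell_of_cells {L X : T} (h : Real.Cells L X) : ∃ l, Cell (sph L) l X := by
  induction h with
  | zero X hX => exact ⟨_, .zero X hX⟩
  | attach k g q h D _ ih =>
    obtain ⟨l, hl⟩ := ih
    exact ⟨_, .cons k l _ _ g q h D hl⟩

end Pre

section Tens

variable {T : Type u} [Category.{v} T] [Preadditive T] [HasZeroObject T]
    [HasShift T ℤ] [∀ n : ℤ, (shiftFunctor T n).Additive] [Pretriangulated T]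
    [IsTriangulated T] [MonoidalCategory T] [SymmetricCategory T] [TensorTriangulated T]

/-- `V ⊗ L` is built from the cells `L⟦2 k⟧` when `V` is a finite even complex. -/
lemma exists_cell_tensor {d : ℤ} {V : T} (hV : EvenCell T d V) (L : T) :
    ∃ l : List ℤ, (∀ k ∈ l, d ≤ k) ∧ Cell (sph L) l (V ⊗ L) := by
  suffices h : ∃ l : List ℤ, (∀ k ∈ l, d ≤ k) ∧ Cell (sph L) l (L ⊗ V) by
    obtain ⟨l, hl, h⟩ := h
    exact ⟨l, hl, h.of_iso (β_ L V)⟩
  induction hV with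
  | zero X hX => exact ⟨[], by simp, .zero _ ((tensorLeft L).map_isZero hX)⟩
  | sphere k hk =>
    exact ⟨[k], by simpa using hk, (Cell.single (sph L) k).of_iso (tensorUnitShiftIso L (2 * k)).symm⟩
  | ext Δ hΔ _ _ ih₁ ih₃ =>
    obtain ⟨l, hl, h⟩ := ih₁
    obtain ⟨l', hl', h'⟩ := ih₃
    refine ⟨l' ++ l, ?_, h.ext h' _ _ _ (TensorTriangulated.distinguished L Δ hΔ)⟩
    intro k hk
    rcases List.mem_append.1 hk with hk | hk
    · exact hl' k hk
    · exact hl k hk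

variable [HasCoproducts.{0} T]

/-- **R1a.** A retract of `V ⊗ L`, `V` a finite even complex, is built by attaching cells `L⟦2 k⟧`
one at a time, in increasing order of dimensions. -/
theorem exists_cell_of_retract {L : T} (h0 : ∀ n : ℤ, n < 0 → ∀ f : L⟦n⟧ ⟶ L, f = 0)
    (hloc : ∀ a : L ⟶ L, IsIso a ∨ IsIso (𝟙 L - a)) {d : ℤ} {V Fy : T} (hV : EvenCell T d V)
    (i : Fy ⟶ V ⊗ L) (r : V ⊗ L ⟶ Fy) (hir : i ≫ r = 𝟙 Fy) :
    ∃ l : List ℤ, (∀ k ∈ l, d ≤ k) ∧ l.Pairwise (· ≥ ·) ∧ Cell (sph L) l Fy := by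
  obtain ⟨l, hl, h⟩ := exists_cell_tensor hV L
  obtain ⟨b, hb⟩ : ∃ b : ℤ, ∀ k ∈ l, k < b := by
    clear hl h
    induction l with
    | nil => exact ⟨0, by simp⟩
    | cons x l ih =>
      obtain ⟨b, hb⟩ := ih
      refine ⟨max b (x + 1), ?_⟩
      intro k hk
      rcases List.mem_cons.1 hk with rfl | hk
      · exact lt_of_lt_of_le (lt_add_one _) (le_max_right _ _)
      · exact lt_of_lt_of_le (hb k hk) (le_max_left _ _)
  obtain ⟨l', h1, h2, h3⟩ := Cell.exists_of_retract (vanish_sph h0) (loc_sph hloc) h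
    (a := d) (b := b) (fun k hk => ⟨hl k hk, hb k hk⟩) i r hir
  exact ⟨l', fun k hk => (h1 k hk).1, h2, h3⟩

/-- **R1a** in the format of `RealDefs`. -/
theorem cells_of_retract {L : T} (h0 : ∀ n : ℤ, n < 0 → ∀ f : L⟦n⟧ ⟶ L, f = 0)
    (hloc : ∀ a : L ⟶ L, IsIso a ∨ IsIso (𝟙 L - a)) {d : ℤ} {V Fy : T} (hV : EvenCell T d V)
    (i : Fy ⟶ V ⊗ L) (r : V ⊗ L ⟶ Fy) (hir : i ≫ r = 𝟙 Fy) : Real.Cells L Fy := by
  obtain ⟨l, -, -, h⟩ := exists_cell_of_retract h0 hloc hV i r hir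
  exact h.cells

end Tens

end Vale.Agent.P093.N.RealSkel
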