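import Vale.Agent.P093.N.RealSpace
import Vale.Agent.P093.N.RealSkelT
import Vale.Agent.P093.N.PLocRight

/-!
# P093, part N (block 3c, REAL): the main theorem

A nonzero retract `Y` of `V ⊗ S_(p)`, `V` a finite even complex, is, up to an even shift,
`S X ⊗ S_(p)` for a space `X` with `n > 0` cells, all of even dimension.
-/

open CategoryTheory MonoidalCategory Limits Pretriangulated ZeroObject
open Vale.Agent.P251.G Vale.Agent.P251.G.LC Vale.Agent.P251.H Vale.Agent.P251.M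
  Vale.Agent.P251.T Vale.Agent.P251.I Vale.Agent.P093.PLoc

universe v u

set_option linter.unusedSectionVars false

namespace Vale.Agent.P093.N.Real

section

variable {T : Type u} [Category.{v} T] [Preadditive T] [HasZeroObject T]
  [HasShift T ℤ] [∀ n : ℤ, (shiftFunctor T n).Additive] [Pretriangulated T]
  [MonoidalCategory T] [SymmetricCategory T] [TensorTriangulated T] (F : SpaceFunctor T)

/-- a space without cells goes to zero -/
theorem EvSp.isZero {X : LC} {n : ℕ} (h : EvSp X n) (hn : n = 0) :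
    IsZero (F.S.obj ⟨X, h.fc⟩) := by
  induction h with
  | empty => exact F.isZero (inferInstanceAs (IsEmpty Empty))
  | @susp X n k hX ih =>
    let X' : FCat := ⟨X, hX.fc⟩
    have h1 : IsZero (F.S.obj X') := ih hn
    have h2 : IsZero (F.S.obj X' ⊗ F.S.obj (SphF (2 * k))) := by
      rw [IsZero.iff_id_eq_zero, ← MonoidalCategory.id_whiskerRight,
        (IsZero.iff_id_eq_zero _).1 h1, MonoidalPreadditive.zero_whiskerRight]
    exact h2.of_iso (sProd F X' (SphF (2 * k)))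
  | cone a f hX ih => exact absurd hn (Nat.succ_ne_zero _)

theorem isZero_of_isZero_shift {Y : T} (n : ℤ) (h : IsZero (Y⟦n⟧)) : IsZero Y := by
  rw [IsZero.iff_id_eq_zero] at h ⊢
  apply (shiftFunctor T n).map_injective
  rw [CategoryTheory.Functor.map_id, h, CategoryTheory.Functor.map_zero]

theorem Realized.exists_shift {L Y : T} (h : Realized F L Y) (hY : ¬ IsZero Y) :
    ∃ (X : LC) (n : ℕ) (t : ℤ) (h : EvSp X n), 0 < n ∧
      Nonempty (F.S.obj ⟨X, h.fc⟩ ⊗ L ≅ Y⟦2 * t⟧) := by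
  obtain ⟨X, n, hX, t, ⟨e⟩⟩ := h
  have e' : F.S.obj ⟨X, hX.fc⟩ ⊗ L ≅ Y⟦2 * (t : ℤ)⟧ :=
    e ≪≫ β_ _ _ ≪≫ whiskerLeftIso Y (sphIso F (2 * t)) ≪≫ tensorUnitShiftIso Y _ ≪≫
      eqToIso (by push_cast; rfl)
  refine ⟨X, n, t, hX, ?_, ⟨e'⟩⟩
  rw [Nat.pos_iff_ne_zero]
  intro hn
  apply hY
  apply isZero_of_isZero_shift (2 * (t : ℤ))
  refine IsZero.of_iso ?_ e'.symm
  rw [IsZero.iff_id_eq_zero, ← MonoidalCategory.id_whiskerRight,
    (IsZero.iff_id_eq_zero _).1 (hX.isZero F hn), MonoidalPreadditive.zero_whiskerRight]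

end

section

variable {T : Type u} [Category.{v} T] [Preadditive T] [HasZeroObject T]
    [HasShift T ℤ] [∀ n : ℤ, (shiftFunctor T n).Additive] [Pretriangulated T] [IsTriangulated T]
    [MonoidalCategory T] [SymmetricCategory T] [TensorTriangulated T] [MonoidalClosed T]
    [HasCoproducts.{0} T] [HasProducts.{0} T] [StableCat T]

theorem isPLoc_Sp {p : ℕ} (hp : p ≠ 1) : IsPLoc p (Sp T p) (PLoc.eta T p) where
  idem := isIso_Sp_whiskerLeft_eta hp
  inv := isPLocal_Sp hp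
  fac n X f := by
    obtain ⟨q, g, hq, hg⟩ := exists_lift_right (isCpt_sph n) f
    exact ⟨q, hq, g, hg.symm⟩
  ker n X g hg := exists_zero_right (isCpt_sph n) g hg

theorem hom_Sp_eq_zero (F : SpaceFunctor T) {p : ℕ} (hp : p ≠ 1) (n : ℤ) (hn : n < 0)
    (f : (Sp T p)⟦n⟧ ⟶ Sp T p) : f = 0 := by
  let e : (𝟙_ T)⟦n⟧ ⊗ Sp T p ≅ (Sp T p)⟦n⟧ := β_ _ _ ≪≫ tensorUnitShiftIso (Sp T p) n
  rw [← cancel_epi e.hom, comp_zero]
  apply (isPLocal_Sp hp).hom_ext_right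
  rw [comp_zero]
  obtain ⟨q, g, hq, hg⟩ := exists_lift_right (X := 𝟙_ T) (isCpt_sph n)
    ((etaR p ((𝟙_ T)⟦n⟧) ≫ e.hom ≫ f) ≫ (λ_ (Sp T p)).inv)
  rw [unit_conn F n hn g, zero_comp] at hg
  have h1 : (q : ℤ) • (etaR p ((𝟙_ T)⟦n⟧) ≫ e.hom ≫ f) = 0 := by
    rw [← cancel_mono (λ_ (Sp T p)).inv, Preadditive.zsmul_comp, zero_comp]
    exact hg.symm
  exact (isPLocal_Sp hp).eq_zero (by simpa using hq) h1

/-- **REAL.** -/
theorem exists_real (F : SpaceFunctor T) {p : ℕ} (hp : p.Prime) (d : ℤ) (V Y : T)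
    (i : Y ⟶ V ⊗ Sp T p) (r : V ⊗ Sp T p ⟶ Y) (hV : EvenCell T d V) (hir : i ≫ r = 𝟙 Y)
    (hY : ¬ IsZero Y) :
    ∃ (X : LC) (n : ℕ) (t : ℤ) (h : EvSp X n), 0 < n ∧
      Nonempty (F.S.obj ⟨X, h.fc⟩ ⊗ Sp T p ≅ Y⟦2 * t⟧) := by
  have hL : IsPLoc p (Sp T p) (PLoc.eta T p) := isPLoc_Sp hp.ne_one
  have h1 : Cells (Sp T p) Y := RealSkel.cells_of_retract (hom_Sp_eq_zero F hp.ne_one)
    (hL.local_end hp F) hV i r hir
  exact (h1.realized F hL).exists_shift F hY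

end

end Vale.Agent.P093.N.Real
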