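import Vale.Agent.P093.N.Final
import Vale.Agent.P093.N.FinalYoung
import Vale.Agent.P093.N.FinalW
import Vale.Agent.P093.N.Real
import Vale.Agent.P093.N1.StepFin
import Vale.Agent.P093.N1.TowerIn
import Vale.Agent.P093.N2.ChiMain
import Vale.Agent.P093.N2.EctFin
import Vale.Agent.P093.N3W.Main
import Vale.Agent.P093.N4.Big
import Vale.Agent.P093.N4.ThSplitU
import Vale.Agent.P093.N4.GoodTh
import Vale.Agent.P093.L192.LR
import Vale.Agent.P251.H.Exists
import Vale.Agent.P251.St.OfFunctor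

/-!
# P093, part N: the final theorem

`partN` : `ThGood C w → U.LR C w`.
-/

open CategoryTheory MonoidalCategory Limits Pretriangulated

set_option linter.unusedSectionVars false

universe v u

namespace Vale.Agent.P093.N.Fin

open Vale.Agent.P251.T Vale.Agent.P251.S Vale.Agent.P251.M Vale.Agent.P251.I
open Vale.Agent.P251.G Vale.Agent.P251.G.LC
open Vale.Agent.P093.N.TT Vale.Agent.P093.N.LR
open Vale.Agent.P251.St (Space SHCat Susp)

section

variable {T : Type u} [Category.{v} T] [Preadditive T] [HasZeroObject T]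
    [HasShift T ℤ] [∀ n : ℤ, (shiftFunctor T n).Additive] [Pretriangulated T] [IsTriangulated T]
    [MonoidalCategory T] [SymmetricCategory T] [TensorTriangulated T] [MonoidalClosed T]
    [HasCoproducts.{0} T] [HasProducts.{0} T] [StableCat T]

/-- The inputs of `avl`, except REAL. -/
structure Inputs (F : SpaceFunctor T) (U : UTri T) : Prop where
  vl : ∀ p : ℕ, p.Prime → ∀ b : ℕ, VlIn U p b
  ect : ∀ p : ℕ, p.Prime → EctIn F p
  dual : DualIn F
  big : ∀ b : ℕ, BigIn U b

theorem realIn (F : SpaceFunctor T) {p : ℕ} (hp : p.Prime) : RealIn F p :=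
  fun d V Y i r hV hir hY => Real.exists_real F hp d V Y i r hV hir hY

theorem Inputs.avl {F : SpaceFunctor T} {U : UTri T} (h : Inputs F U) (b : ℕ) :
    AVL U DimLE (b : ℤ) :=
  Fin.avl (Int.natCast_nonneg b) (fun p hp => h.vl p hp b) (fun _ hp => realIn F hp) h.ect h.dual
    (h.big b)

theorem dualIn (F : SpaceFunctor T) [LocallySmall.{0} T] : DualIn F :=
  fun X m hX W Z y hy => N2.zsmul_eq_zero F X m hX W Z y hy

/-- The last two inputs: the resolution step of Step 1, the objects `W` of Step 3. -/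
structure Last (D : MUData T) : Prop where
  step : ∀ (p : ℕ) [Fact p.Prime] (h : PhiT.IsMULoc D (N1.toRp D p) p) (m : ℕ) (B : ℤ) (X : T),
    TowObj h m B X → N1.HasStep (UTri.ofMon D.R)
      (TowObj h m (B + (((p - 1) * p ^ m : ℕ) : ℤ))) X
  wobj : ∀ (p : ℕ) [Fact p.Prime] (h : PhiT.IsMULoc D (N1.toRp D p) p) (m : ℕ),
    ∃ W : T, WObj h m W

/-- The objects `W`, from the finite stages of `MU`. -/
theorem wobj {F : SpaceFunctor T} {e : F.S.obj CCF ≅ (stdEven T).L} {D : MUData T}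
    (H : MUUniv e D) (hs : N3W.HasStages D) {p : ℕ} [Fact p.Prime]
    (h : PhiT.IsMULoc D (N1.toRp D p) p) (m : ℕ) : ∃ W : T, WObj h m W := by
  have hp : 0 < p ^ m := pow_pos (Fact.out : p.Prime).pos m
  obtain ⟨C, x, w, hC, -, h0, h1⟩ := hs (p ^ m)
  exact wobj_of H h m hC x w ⟨⟨0, hp⟩, h0 _ rfl⟩ fun i hi => ⟨⟨i + 1, by omega⟩, h1 _ i rfl⟩

theorem last {F : SpaceFunctor T} {e : F.S.obj CCF ≅ (stdEven T).L} {D : MUData T}
    (H : MUUniv e D) (hs : N3W.HasStages D) : Last D :=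
  ⟨fun _ _ h m B X hX => N1.hstep H h m B X hX, fun _ _ h m => wobj H hs h m⟩

theorem Last.inputs [LocallySmall.{0} T] {F : SpaceFunctor T} {D : MUData T} (h : Last D)
    (hM : N0.MUAll D) : Inputs F (UTri.ofMon D.R) := by
  have hL : ∀ (p : ℕ) [Fact p.Prime], PhiT.IsMULoc D (N1.toRp D p) p := fun p _ =>
    PhiT.isMULoc_inlM hM p
  have hT : ∀ (p : ℕ) [Fact p.Prime], TowerIn (hL p) := fun p _ => towerIn_of (h.step p (hL p))
  refine ⟨fun p hp b => ?_, fun p hp => N2.ectIn F hp, dualIn F,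
    bigIn_of hL hT fun p _ => N4.Big.towObj_Sp (hL p)⟩
  have : Fact p.Prime := ⟨hp⟩
  exact vlIn_of (hL p) (hT p) (youngIn_of_W F (hL p) (h.wobj p (hL p))) b

end

/-- **Part N.** -/
theorem partN {t : ℕ} (C : Space) (w : (Fin t → ℝ) → C.carrier) (hG : Final.ThGood C w) :
    U.LR C w := by
  obtain ⟨T, ⟨F₀⟩, -⟩ := Vale.Agent.P251.H.exists_stable
  let Φ : Susp T := Vale.Agent.P251.St.ofSpaceFunctor F₀
  let F := Φ.toSpaceFunctor
  obtain ⟨D, h1, h2, h3, h4⟩ := N3W.exists_muAll_stages F (lineIso F)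
  have hw := N4.isClosedEmbedding_of_thGood hG
  have hC := N4.fc_of_thGood hG
  have hI : Inputs F (UTri.ofMon D.R) := (last h1 h4).inputs h2
  exact L192.lr_of_avl C w hw hC Φ (fun b => hI.avl b) (N4.spl_of_thGood h3 hG hw _)

end Vale.Agent.P093.N.Fin
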