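import Vale.Agent.P251.X.VDefs
import Vale.Agent.P251.M.GBasis
import Vale.Agent.P251.M.Conn

/-!
# P093, block N:NAK, part 1: `R`-bases

`T` a stable homotopy category (P251), `R` a monoid in `T`, `E` even spheres.

* `lin M f : R ⊗ X ⟶ N` : the `R`-linear extension of `f : X ⟶ N`, `N` an `R`-module;
* `RBasis E R X J` : classes `w_j : S^{2 k_j} ⟶ R ⊗ X` such that
  `∐_j R ⊗ S^{2 k_j} ⟶ R ⊗ X` is an isomorphism;
* `RBasis.exists_unique_realize` : `[X, N] = ∏_j π_{2 k_j} N` for every `R`-module `N`.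
-/

open CategoryTheory MonoidalCategory MonObj Limits Pretriangulated

set_option linter.unusedSectionVars false

universe v u

noncomputable section

namespace Vale.Agent.P093.Nak

open Vale.Agent.P251.S Vale.Agent.P251.T Vale.Agent.P251.M Vale.Agent.P251.M.EvenSpheres
  Vale.Agent.P251.X

section Lin

variable {T : Type u} [Category.{v} T] [MonoidalCategory T] {R : T} [MonObj R]

/-- The `R`-linear extension `R ⊗ X ⟶ N` of `f : X ⟶ N`. -/
def lin {N X : T} (M : ModStr R N) (f : X ⟶ N) : R ⊗ X ⟶ N := (R ◁ f) ≫ M.act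

variable (R) in
/-- The unit map `X ⟶ R ⊗ X`. -/
def un (X : T) : X ⟶ R ⊗ X := (λ_ X).inv ≫ (η[R] ▷ X)

variable {N N' X Y : T} (M : ModStr R N) (M' : ModStr R N')

@[reassoc]
lemma un_naturality (f : X ⟶ Y) : f ≫ un R Y = un R X ≫ (R ◁ f) := by
  unfold un
  rw [leftUnitor_inv_naturality_assoc, whisker_exchange, Category.assoc]

@[reassoc (attr := simp)]
lemma un_act : un R N ≫ M.act = 𝟙 N := by
  unfold un
  rw [Category.assoc, M.one_act, Iso.inv_hom_id]

@[reassoc (attr := simp)]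
lemma un_lin (f : X ⟶ N) : un R X ≫ lin M f = f := by
  unfold lin
  rw [← un_naturality_assoc, un_act, Category.comp_id]

lemma lin_isLinear (f : X ⟶ N) : (ModStr.free R X).IsLinear M (lin M f) := by
  change ((α_ R R X).inv ≫ (μ[R] ▷ X)) ≫ (R ◁ f) ≫ M.act = (R ◁ ((R ◁ f) ≫ M.act)) ≫ M.act
  rw [Category.assoc, ← whisker_exchange_assoc, M.mul_act, whiskerLeft_comp, Category.assoc,
    tensor_whiskerLeft]
  simp

/-- A linear map out of `R ⊗ X` is the linear extension of its restriction to `X`. -/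
lemma lin_un (g : R ⊗ X ⟶ N) (hg : (ModStr.free R X).IsLinear M g) : lin M (un R X ≫ g) = g := by
  have h1 : R ◁ un R X ≫ (ModStr.free R X).act = 𝟙 (R ⊗ X) := by
    change R ◁ ((λ_ X).inv ≫ (η[R] ▷ X)) ≫ (α_ R R X).inv ≫ (μ[R] ▷ X) = _
    rw [whiskerLeft_comp, Category.assoc, associator_inv_naturality_middle_assoc,
      ← comp_whiskerRight, MonObj.mul_one]
    simp
  unfold lin
  have h2 : (ModStr.free R X).act ≫ g = (R ◁ g) ≫ M.act := hg
  rw [whiskerLeft_comp, Category.assoc, ← h2, reassoc_of% h1]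

lemma lin_ext {g g' : R ⊗ X ⟶ N} (hg : (ModStr.free R X).IsLinear M g)
    (hg' : (ModStr.free R X).IsLinear M g') (h : un R X ≫ g = un R X ≫ g') : g = g' := by
  rw [← lin_un M g hg, ← lin_un M g' hg', h]

@[reassoc]
lemma whiskerLeft_lin (g : Y ⟶ X) (f : X ⟶ N) : (R ◁ g) ≫ lin M f = lin M (g ≫ f) := by
  unfold lin
  rw [whiskerLeft_comp, Category.assoc]

lemma lin_comp (f : X ⟶ N) (g : N ⟶ N') (hg : M.IsLinear M' g) :
    lin M f ≫ g = lin M' (f ≫ g) := by
  unfold lin
  have h2 : M.act ≫ g = (R ◁ g) ≫ M'.act := hg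
  rw [Category.assoc, h2, whiskerLeft_comp, Category.assoc]

@[reassoc]
lemma lin_lin (f : X ⟶ N) (g : Y ⟶ R ⊗ X) :
    lin (ModStr.free R X) g ≫ lin M f = lin M (g ≫ lin M f) :=
  lin_comp (ModStr.free R X) M g (lin M f) (lin_isLinear M f)

lemma isLinear_comp {N'' : T} {M'' : ModStr R N''} {f : N ⟶ N'} {g : N' ⟶ N''}
    (hf : M.IsLinear M' f) (hg : M'.IsLinear M'' g) : M.IsLinear M'' (f ≫ g) := by
  have hf' : M.act ≫ f = (R ◁ f) ≫ M'.act := hf
  have hg' : M'.act ≫ g = (R ◁ g) ≫ M''.act := hg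
  change M.act ≫ f ≫ g = (R ◁ (f ≫ g)) ≫ M''.act
  rw [reassoc_of% hf', hg', whiskerLeft_comp, Category.assoc]

lemma isLinear_whiskerLeft (f : X ⟶ Y) :
    (ModStr.free R X).IsLinear (ModStr.free R Y) (R ◁ f) := by
  change ((α_ R R X).inv ≫ (μ[R] ▷ X)) ≫ R ◁ f = R ◁ R ◁ f ≫ (α_ R R Y).inv ≫ (μ[R] ▷ Y)
  rw [associator_inv_naturality_right_assoc, whisker_exchange, Category.assoc]

lemma isLinear_inv {f : N ⟶ N'} [IsIso f] (hf : M.IsLinear M' f) : M'.IsLinear M (inv f) := by
  have hf' : M.act ≫ f = (R ◁ f) ≫ M'.act := hf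
  change M'.act ≫ inv f = (R ◁ inv f) ≫ M.act
  rw [IsIso.comp_inv_eq, Category.assoc, hf', ← whiskerLeft_comp_assoc, IsIso.inv_hom_id]
  simp

end Lin

section Basis

variable {T : Type u} [Category.{v} T] [MonoidalCategory T] [SymmetricCategory T]
  [HasCoproducts.{0} T] (E : EvenSpheres T) (R : T) [MonObj R]

/-- An `R`-basis of `R ⊗ X` consisting of classes of even degree. -/
structure RBasis (X : T) (J : Type) where
  /-- the (half) degrees -/
  k : J → ℤ
  /-- the classes -/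
  w (j : J) : E.S (k j) ⟶ R ⊗ X
  isIso : IsIso (Sigma.desc fun j => lin (ModStr.free R X) (w j))

/-- finitely many elements in each degree, none below some degree -/
def RBasis.FinType {E : EvenSpheres T} {R : T} [MonObj R] {X : T} {J : Type}
    (b : RBasis E R X J) : Prop :=
  (∃ B : ℤ, ∀ j, B ≤ b.k j) ∧ ∀ n : ℤ, {j | b.k j = n}.Finite

end Basis

section Closed

variable {T : Type u} [Category.{v} T] [MonoidalCategory T] [SymmetricCategory T]
  [MonoidalClosed T] [HasCoproducts.{0} T] {E : EvenSpheres T} {R : T} [MonObj R]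

/-- `∐ R ⊗ S_j ≅ R ⊗ ∐ S_j` -/
lemma isIso_sigmaComparison {J : Type} (S : J → T) :
    IsIso (sigmaComparison (tensorLeft R) S) := by
  have : (tensorLeft R).IsLeftAdjoint := ⟨_, ⟨ihom.adjunction R⟩⟩
  infer_instance

lemma sigmaComparison_lin {N : T} (M : ModStr R N) {J : Type} {S : J → T} (w : ∀ j, S j ⟶ N) :
    sigmaComparison (tensorLeft R) S ≫ lin M (Sigma.desc w) =
      Sigma.desc fun j => lin M (w j) := by
  refine Sigma.hom_ext _ _ fun j => ?_
  rw [ι_comp_sigmaComparison_assoc, Sigma.ι_desc]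
  change (R ◁ Sigma.ι S j) ≫ lin M (Sigma.desc w) = _
  rw [whiskerLeft_lin, Sigma.ι_desc]

lemma isIso_desc_iff {N : T} (M : ModStr R N) {J : Type} {S : J → T} (w : ∀ j, S j ⟶ N) :
    IsIso (Sigma.desc fun j => lin M (w j)) ↔ IsIso (lin M (Sigma.desc w)) := by
  have := isIso_sigmaComparison (R := R) S
  rw [← sigmaComparison_lin]
  exact ⟨fun h => (isIso_comp_left_iff _ _).1 h, fun h => (isIso_comp_left_iff _ _).2 h⟩

namespace RBasis

variable {X : T} {J : Type} (b : RBasis E R X J)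

lemma isIso' : IsIso (lin (ModStr.free R X) (Sigma.desc b.w)) :=
  (isIso_desc_iff _ _).1 b.isIso

/-- two linear maps out of `R ⊗ X` which agree on the basis are equal -/
lemma hom_ext {N : T} (M : ModStr R N) {g g' : R ⊗ X ⟶ N}
    (hg : (ModStr.free R X).IsLinear M g) (hg' : (ModStr.free R X).IsLinear M g')
    (h : ∀ j, b.w j ≫ g = b.w j ≫ g') : g = g' := by
  have := b.isIso'
  rw [← cancel_epi (lin (ModStr.free R X) (Sigma.desc b.w)), lin_comp _ M _ _ hg,
    lin_comp _ M _ _ hg']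
  congr 1
  refine Sigma.hom_ext _ _ fun j => ?_
  rw [Sigma.ι_desc_assoc, Sigma.ι_desc_assoc, h]

/-- two maps `X ⟶ N` into an `R`-module which agree on the basis are equal -/
lemma hom_ext' {N : T} (M : ModStr R N) {f f' : X ⟶ N}
    (h : ∀ j, b.w j ≫ lin M f = b.w j ≫ lin M f') : f = f' := by
  have h1 := b.hom_ext M (lin_isLinear M f) (lin_isLinear M f') h
  rw [← un_lin M f, h1, un_lin]

/-- the linear map with given values on the basis -/
def linMap {N : T} (M : ModStr R N) (m : ∀ j, E.S (b.k j) ⟶ N) : R ⊗ X ⟶ N :=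
  have := b.isIso'
  inv (lin (ModStr.free R X) (Sigma.desc b.w)) ≫ lin M (Sigma.desc m)

lemma linMap_isLinear {N : T} (M : ModStr R N) (m : ∀ j, E.S (b.k j) ⟶ N) :
    (ModStr.free R X).IsLinear M (b.linMap M m) := by
  have := b.isIso'
  exact isLinear_comp _ _ (isLinear_inv _ _ (lin_isLinear (ModStr.free R X) (Sigma.desc b.w)))
    (lin_isLinear M (Sigma.desc m))

@[reassoc (attr := simp)]
lemma w_linMap {N : T} (M : ModStr R N) (m : ∀ j, E.S (b.k j) ⟶ N) (j : J) :
    b.w j ≫ b.linMap M m = m j := by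
  have := b.isIso'
  have h1 : lin (ModStr.free R X) (Sigma.desc b.w) ≫ b.linMap M m = lin M (Sigma.desc m) := by
    unfold linMap
    simp
  have h2 := congrArg (fun z => Sigma.ι (fun j => E.S (b.k j)) j ≫ un R _ ≫ z) h1
  rw [un_lin_assoc, un_lin, Sigma.ι_desc_assoc, Sigma.ι_desc] at h2
  exact h2

/-- REALISATION: the map `X ⟶ N` with given values on the basis. -/
def realize {N : T} (M : ModStr R N) (m : ∀ j, E.S (b.k j) ⟶ N) : X ⟶ N :=
  un R X ≫ b.linMap M m

lemma lin_realize {N : T} (M : ModStr R N) (m : ∀ j, E.S (b.k j) ⟶ N) :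
    lin M (b.realize M m) = b.linMap M m :=
  lin_un M _ (b.linMap_isLinear M m)

@[reassoc (attr := simp)]
lemma w_lin_realize {N : T} (M : ModStr R N) (m : ∀ j, E.S (b.k j) ⟶ N) (j : J) :
    b.w j ≫ lin M (b.realize M m) = m j := by
  rw [lin_realize, w_linMap]

theorem exists_unique_realize {N : T} (M : ModStr R N) (m : ∀ j, E.S (b.k j) ⟶ N) :
    ∃! f : X ⟶ N, ∀ j, b.w j ≫ lin M f = m j :=
  ⟨b.realize M m, fun j => b.w_lin_realize M m j, fun f hf => b.hom_ext' M fun j => by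
    rw [hf, w_lin_realize]⟩

/-- transport along an isomorphism -/
def ofIso {Y : T} (e : X ≅ Y) : RBasis E R Y J where
  k := b.k
  w j := b.w j ≫ R ◁ e.hom
  isIso := by
    have h1 : (Sigma.desc fun j => lin (ModStr.free R Y) (b.w j ≫ R ◁ e.hom)) =
        (Sigma.desc fun j => lin (ModStr.free R X) (b.w j)) ≫ R ◁ e.hom := by
      refine Sigma.hom_ext _ _ fun j => ?_
      rw [Sigma.ι_desc, Sigma.ι_desc_assoc, lin_comp _ (ModStr.free R Y) _ _
        (isLinear_whiskerLeft e.hom)]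
    have := b.isIso
    rw [h1]
    infer_instance

/-- reindexing -/
def reindex {K : Type} (σ : K ≃ J) : RBasis E R X K where
  k j := b.k (σ j)
  w j := b.w (σ j)
  isIso := by
    have h1 : Sigma.desc (fun j => lin (ModStr.free R X) (b.w (σ j))) =
        (Limits.Sigma.whiskerEquiv (f := fun j => R ⊗ E.S (b.k (σ j)))
          (g := fun j => R ⊗ E.S (b.k j)) σ (fun j => Iso.refl _)).hom ≫
          Sigma.desc (fun j => lin (ModStr.free R X) (b.w j)) := by
      refine Sigma.hom_ext _ _ fun j => ?_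
      simp
    have := b.isIso
    rw [h1]
    infer_instance

end RBasis

end Closed

end Vale.Agent.P093.Nak
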