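import Vale.Agent.P093.N.Nak2
import Vale.Agent.P093.N.NakAlg
import Vale.Agent.P251.X.VGraPre

/-!
# P093, block N:NAK, part 3: Nakayama's lemma in `T`

`c : Pt E R p 0`, `H X = Vtot c X`.

* `RBasis.vbasis` : the classes `[w_j]` form a basis of `H X` over `ZMod p`;
* `RBasis.nakayama` : if `X`, `Y` have `R`-bases (`Y` of finite type) and `f : X ⟶ Y` is injective
  on `H`, then for every distinguished triangle `X ⟶ Y ⟶ C ⟶ X⟦1⟧` the map `R ◁ f` has a linear
  retraction, `C` has an `R`-basis, `0 ⟶ H X ⟶ H Y ⟶ H C ⟶ 0` is exact, ...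
-/

open CategoryTheory MonoidalCategory MonObj Limits Pretriangulated

set_option linter.unusedSectionVars false

universe v u

noncomputable section

namespace Vale.Agent.P093.Nak

open Vale.Agent.P251.S Vale.Agent.P251.T Vale.Agent.P251.M Vale.Agent.P251.M.EvenSpheres
  Vale.Agent.P251.X

section Deg0

variable {T : Type u} [Category.{v} T] [Preadditive T] [MonoidalCategory T]
  [MonoidalPreadditive T] [SymmetricCategory T] (E : EvenSpheres T) (R : T) [MonObj R]

/-- the subring of elements of degree `0` -/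
def deg0 : Subring (HRing E R) where
  carrier := Set.range (HRing.of E R 0)
  zero_mem' := ⟨0, map_zero _⟩
  one_mem' := ⟨E.zero.inv ≫ η[R], of_one⟩
  add_mem' := by
    rintro _ _ ⟨a, rfl⟩ ⟨b, rfl⟩
    exact ⟨a + b, map_add _ _ _⟩
  neg_mem' := by
    rintro _ ⟨a, rfl⟩
    exact ⟨-a, map_neg _ _⟩
  mul_mem' := by
    rintro _ _ ⟨a, rfl⟩ ⟨b, rfl⟩
    exact ⟨gmul (add_zero 0) a b, (of_mul_of (add_zero 0) a b).symm⟩

variable {E R}

lemma of_mem_deg0 (a : E.S 0 ⟶ R) : HRing.of E R 0 a ∈ deg0 E R := ⟨a, rfl⟩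

lemma of_mem_deg0' {n : ℤ} (hn : n = 0) (a : E.S n ⟶ R) : HRing.of E R n a ∈ deg0 E R := by
  subst hn
  exact ⟨a, rfl⟩

variable {p : ℕ} (c : Pt E R p 0)

lemma chi_of_ne {n : ℤ} (hn : n ≠ 0) (a : E.S n ⟶ R) : c.χ (HRing.of E R n a) = 0 :=
  c.χ_of n (fun h => hn (by simpa using h)) a

/-- The hypotheses on the point `c : π_{2*} R ⟶ 𝔽_p`: `π_{2*} R = 0` in negative degrees, and
elements of degree `0` outside of the kernel are units. -/
structure LocalPt : Prop where
  isUnit (a : E.S 0 ⟶ R) : c.χ (HRing.of E R 0 a) ≠ 0 → IsUnit (HRing.of E R 0 a)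
  neg (n : ℤ) (hn : n < 0) (a : E.S n ⟶ R) : a = 0

variable {c}

lemma LocalPt.isUnit' (hc : LocalPt c) (a : HRing E R) (ha : a ∈ deg0 E R) (h : c.χ a ≠ 0) :
    IsUnit a := by
  obtain ⟨a, rfl⟩ := ha
  exact hc.isUnit a h

variable (c) in
lemma chi_surj [NeZero p] (y : ZMod p) : ∃ a ∈ deg0 E R, c.χ a = y := by
  refine ⟨(y.val : HRing E R), natCast_mem _ _, ?_⟩
  rw [map_natCast, ZMod.natCast_zmod_val]

end Deg0

section VBasis

variable {T : Type u} [Category.{v} T] [Preadditive T] [HasZeroObject T]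
    [HasShift T ℤ] [∀ n : ℤ, (shiftFunctor T n).Additive] [Pretriangulated T] [IsTriangulated T]
    [MonoidalCategory T] [SymmetricCategory T] [TensorTriangulated T] [MonoidalClosed T]
    [HasCoproducts.{0} T] [HasProducts.{0} T] [StableCat T] {E : EvenSpheres T}
    {R : T} [MonObj R] {p : ℕ}

namespace RBasis

variable {X Y : T} {J I : Type} (b : RBasis E R X J) (hS : ∀ n, IsSphere (E.S n)) (c : Pt E R p 0)

lemma chi_repr_of_mem {x : MP E R X} (hx : x ∈ c.I • (⊤ : Submodule (HRing E R) (MP E R X)))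
    (j : J) : c.χ ((b.basis hS).repr x j) = 0 := by
  refine Submodule.smul_induction_on hx (fun r hr n _ => ?_) fun x y hx hy => ?_
  · rw [map_smul, Finsupp.smul_apply, smul_eq_mul, map_mul, c.mem_I.1 hr, zero_mul]
  · rw [map_add, Finsupp.add_apply, map_add, hx, hy, add_zero]

/-- the coordinates in `H X` -/
def vcoord (j : J) : Vtot c X →ₗ[ZMod p] ZMod p :=
  AddMonoidHom.toZModLinearMap p (Vtot.desc
    { toFun := fun x => c.χ ((b.basis hS).repr x j)
      map_zero' := by simp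
      map_add' := fun x y => by simp }
    (fun x hx => b.chi_repr_of_mem hS c hx j))

lemma vcoord_mk (j : J) (x : MP E R X) :
    b.vcoord hS c j (Vtot.mk c X x) = c.χ ((b.basis hS).repr x j) := rfl

/-- the class of `w_j` in `H X` -/
def vel (j : J) : Vtot c X := Vtot.mk c X (MP.of E R X (b.k j) (b.w j))

lemma vcoord_vel [DecidableEq J] (i j : J) : b.vcoord hS c i (b.vel c j) = if j = i then 1 else 0 := by
  unfold vel
  rw [vcoord_mk, ← b.basis_apply hS, Module.Basis.repr_self, Finsupp.single_apply]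
  split_ifs
  · exact map_one _
  · exact map_zero _

include hS in
lemma vel_linearIndependent : LinearIndependent (ZMod p) (b.vel c) := by
  classical
  rw [linearIndependent_iff']
  intro s g hg i hi
  have h1 := congrArg (b.vcoord hS c i) hg
  rw [map_sum, map_zero] at h1
  rw [Finset.sum_congr rfl fun j _ => by rw [map_smul, b.vcoord_vel hS c i j]] at h1
  simpa [hi] using h1

include hS in
lemma vel_span [NeZero p] : ⊤ ≤ Submodule.span (ZMod p) (Set.range (b.vel c)) := by
  rintro x -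
  induction x using Vtot.ind with
  | h x =>
    rw [← (b.basis hS).linearCombination_repr x, Finsupp.linearCombination_apply, Finsupp.sum,
      map_sum]
    refine Submodule.sum_mem _ fun j _ => ?_
    rw [Vtot.mk_smul, basis_apply]
    exact Submodule.smul_mem _ _ (Submodule.subset_span ⟨j, rfl⟩)

/-- The basis `[w_j]` of `H X`. -/
def vbasis [NeZero p] : Module.Basis J (ZMod p) (Vtot c X) :=
  Module.Basis.mk (b.vel_linearIndependent hS c) (b.vel_span hS c)

@[simp] lemma vbasis_apply [NeZero p] (j : J) :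
    b.vbasis hS c j = Vtot.mk c X (MP.of E R X (b.k j) (b.w j)) := by
  unfold vbasis
  rw [Module.Basis.mk_apply]
  rfl

lemma vbasis_repr_mk [NeZero p] (x : MP E R X) (j : J) :
    (b.vbasis hS c).repr (Vtot.mk c X x) j = c.χ ((b.basis hS).repr x j) := by
  classical
  rw [← vcoord_mk]
  have h1 : ((Finsupp.lapply j).comp (b.vbasis hS c).repr.toLinearMap) = b.vcoord hS c j := by
    refine (b.vbasis hS c).ext fun i => ?_
    rw [LinearMap.comp_apply, LinearEquiv.coe_coe, Module.Basis.repr_self, Finsupp.lapply_apply,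
      Finsupp.single_apply, vbasis_apply]
    exact (b.vcoord_vel hS c j i).symm
  exact LinearMap.congr_fun h1 _

end RBasis

end VBasis

section Linear

variable {T : Type u} [Category.{v} T] [Preadditive T] [MonoidalCategory T]
  [MonoidalPreadditive T] {R : T} [MonObj R] {N N' : T} (M : ModStr R N) (M' : ModStr R N')

lemma isLinear_zero : M.IsLinear M' (0 : N ⟶ N') := by
  change M.act ≫ 0 = (R ◁ 0) ≫ M'.act
  rw [comp_zero, MonoidalPreadditive.whiskerLeft_zero, zero_comp]

lemma isLinear_add {f g : N ⟶ N'} (hf : M.IsLinear M' f) (hg : M.IsLinear M' g) :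
    M.IsLinear M' (f + g) := by
  have hf' : M.act ≫ f = (R ◁ f) ≫ M'.act := hf
  have hg' : M.act ≫ g = (R ◁ g) ≫ M'.act := hg
  change M.act ≫ (f + g) = (R ◁ (f + g)) ≫ M'.act
  rw [Preadditive.comp_add, hf', hg', MonoidalPreadditive.whiskerLeft_add, Preadditive.add_comp]

end Linear

section Complement

variable {T : Type u} [Category.{v} T] [Preadditive T] [HasZeroObject T]
    [HasShift T ℤ] [∀ n : ℤ, (shiftFunctor T n).Additive] [Pretriangulated T] [IsTriangulated T]
    [MonoidalCategory T] [SymmetricCategory T] [TensorTriangulated T] [MonoidalClosed T]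
    [HasCoproducts.{0} T] [HasProducts.{0} T] [StableCat T] {E : EvenSpheres T}
    {R : T} [MonObj R] {X Y C : T} {J K : Type} (b : RBasis E R X J) (f : X ⟶ Y)
    (k' : K → ℤ) (w' : ∀ i, E.S (k' i) ⟶ R ⊗ Y)

/-- the degrees of the family `w_j ≫ R ◁ f`, `w'_i` -/
def famK : J ⊕ K → ℤ := Sum.elim b.k k'

/-- the family `w_j ≫ R ◁ f`, `w'_i` of classes of `Y` -/
def famW : ∀ x : J ⊕ K, E.S (famK b k' x) ⟶ R ⊗ Y
  | Sum.inl j => b.w j ≫ R ◁ f
  | Sum.inr i => w' i

variable (h : IsIso (Sigma.desc fun x => lin (ModStr.free R Y) (famW b f k' w' x)))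

/-- the basis `w_j ≫ R ◁ f`, `w'_i` of `Y` -/
def famB : RBasis E R Y (J ⊕ K) := ⟨famK b k', famW b f k' w', h⟩

/-- values of the retraction -/
def retV : ∀ x : J ⊕ K, E.S (famK b k' x) ⟶ R ⊗ X
  | Sum.inl j => b.w j
  | Sum.inr _ => 0

/-- values of the projection to the complement -/
def prV : ∀ x : J ⊕ K, E.S (famK b k' x) ⟶ R ⊗ (∐ fun i => E.S (k' i))
  | Sum.inl _ => 0
  | Sum.inr i => Sigma.ι (fun i => E.S (k' i)) i ≫ un R _

/-- the retraction `R ⊗ Y ⟶ R ⊗ X` -/
def ret : R ⊗ Y ⟶ R ⊗ X := (famB b f k' w' h).linMap (ModStr.free R X) (retV b k')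

/-- the projection `R ⊗ Y ⟶ R ⊗ ∐ S (k'_i)` -/
def proj : R ⊗ Y ⟶ R ⊗ (∐ fun i => E.S (k' i)) :=
  (famB b f k' w' h).linMap (ModStr.free R _) (prV b k')

/-- the inclusion `R ⊗ ∐ S (k'_i) ⟶ R ⊗ Y` -/
def incl : R ⊗ (∐ fun i => E.S (k' i)) ⟶ R ⊗ Y := lin (ModStr.free R Y) (Sigma.desc w')

lemma ret_isLinear : (ModStr.free R Y).IsLinear (ModStr.free R X) (ret b f k' w' h) :=
  (famB b f k' w' h).linMap_isLinear _ _

lemma proj_isLinear : (ModStr.free R Y).IsLinear (ModStr.free R _) (proj b f k' w' h) :=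
  (famB b f k' w' h).linMap_isLinear _ _

lemma incl_isLinear : (ModStr.free R _).IsLinear (ModStr.free R Y) (incl (R := R) (Y := Y) k' w') :=
  lin_isLinear _ _

@[reassoc]
lemma w_map_ret (j : J) : b.w j ≫ R ◁ f ≫ ret b f k' w' h = b.w j := by
  rw [← Category.assoc]
  exact (famB b f k' w' h).w_linMap (ModStr.free R X) (retV b k') (Sum.inl j)

@[reassoc]
lemma w_map_proj (j : J) : b.w j ≫ R ◁ f ≫ proj b f k' w' h = 0 := by
  rw [← Category.assoc]
  exact (famB b f k' w' h).w_linMap (ModStr.free R _) (prV b k') (Sum.inl j)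

@[reassoc]
lemma w'_ret (i : K) : w' i ≫ ret b f k' w' h = 0 :=
  (famB b f k' w' h).w_linMap (ModStr.free R X) (retV b k') (Sum.inr i)

@[reassoc]
lemma w'_proj (i : K) : w' i ≫ proj b f k' w' h = Sigma.ι (fun i => E.S (k' i)) i ≫ un R _ :=
  (famB b f k' w' h).w_linMap (ModStr.free R _) (prV b k') (Sum.inr i)

@[reassoc]
lemma taut_incl (i : K) : (Sigma.ι (fun i => E.S (k' i)) i ≫ un R _) ≫
    incl (R := R) (Y := Y) k' w' = w' i := by
  unfold incl
  rw [Category.assoc, un_lin, Sigma.ι_desc]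

@[reassoc]
lemma map_ret : R ◁ f ≫ ret b f k' w' h = 𝟙 _ :=
  b.hom_ext (ModStr.free R X)
    (isLinear_comp _ _ (isLinear_whiskerLeft f) (ret_isLinear b f k' w' h)) (isLinear_id _)
    fun j => by rw [w_map_ret, Category.comp_id]

@[reassoc]
lemma map_proj : R ◁ f ≫ proj b f k' w' h = 0 :=
  b.hom_ext (ModStr.free R _)
    (isLinear_comp _ _ (isLinear_whiskerLeft f) (proj_isLinear b f k' w' h)) (isLinear_zero _ _)
    fun j => by rw [w_map_proj, comp_zero]

@[reassoc]
lemma incl_ret : incl k' w' ≫ ret b f k' w' h = 0 :=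
  (RBasis.taut K k').hom_ext (ModStr.free R _)
    (isLinear_comp _ _ (incl_isLinear k' w') (ret_isLinear b f k' w' h)) (isLinear_zero _ _)
    fun i => by
      change (Sigma.ι (fun i => E.S (k' i)) i ≫ un R _) ≫ incl k' w' ≫ ret b f k' w' h =
        (Sigma.ι (fun i => E.S (k' i)) i ≫ un R _) ≫ 0
      rw [Category.assoc, taut_incl_assoc, w'_ret, comp_zero]

@[reassoc]
lemma incl_proj : incl k' w' ≫ proj b f k' w' h = 𝟙 _ :=
  (RBasis.taut K k').hom_ext (ModStr.free R _)
    (isLinear_comp _ _ (incl_isLinear k' w') (proj_isLinear b f k' w' h)) (isLinear_id _)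
    fun i => by
      change (Sigma.ι (fun i => E.S (k' i)) i ≫ un R _) ≫ incl k' w' ≫ proj b f k' w' h =
        (Sigma.ι (fun i => E.S (k' i)) i ≫ un R _) ≫ 𝟙 _
      rw [Category.assoc, taut_incl_assoc, w'_proj, Category.comp_id]

lemma total : ret b f k' w' h ≫ R ◁ f + proj b f k' w' h ≫ incl k' w' = 𝟙 _ := by
  refine (famB b f k' w' h).hom_ext (ModStr.free R _)
    (isLinear_add _ _ (isLinear_comp _ _ (ret_isLinear b f k' w' h) (isLinear_whiskerLeft f))
      (isLinear_comp _ _ (proj_isLinear b f k' w' h) (incl_isLinear k' w'))) (isLinear_id _) ?_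
  rintro (j | i)
  · change (b.w j ≫ R ◁ f) ≫ _ = (b.w j ≫ R ◁ f) ≫ 𝟙 _
    rw [Preadditive.comp_add, Category.assoc, map_ret_assoc, Category.assoc, map_proj_assoc,
      zero_comp, comp_zero, add_zero, Category.comp_id]
  · change w' i ≫ _ = w' i ≫ 𝟙 _
    rw [Preadditive.comp_add, w'_ret_assoc, w'_proj_assoc, zero_comp, zero_add, Category.comp_id]
    have := taut_incl (R := R) (Y := Y) k' w' i
    rwa [Category.assoc] at this

include h in
/-- **The basis of the cofibre.** -/
theorem isIso_cofibre {g : Y ⟶ C} {δ : C ⟶ X⟦(1 : ℤ)⟧} (hΔ : Triangle.mk f g δ ∈ distTriang T) :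
    IsIso (Sigma.desc fun i => lin (ModStr.free R C) (w' i ≫ R ◁ g)) := by
  have hΔ' := TensorTriangulated.distinguished R _ hΔ
  have hfg : R ◁ f ≫ R ◁ g = 0 := by
    rw [← whiskerLeft_comp]
    have : f ≫ g = 0 := comp_distTriang_mor_zero₁₂ _ hΔ
    rw [this, MonoidalPreadditive.whiskerLeft_zero]
  have hmono : Mono (R ◁ f) := mono_of_mono_fac (map_ret b f k' w' h)
  have hepi : Epi (R ◁ g) := by
    have h1 := (Triangle.mor₃_eq_zero_iff_mono₁ _ hΔ').2 hmono
    exact (Triangle.mor₃_eq_zero_iff_epi₂ _ hΔ').1 h1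
  obtain ⟨t, ht⟩ : ∃ t : R ⊗ C ⟶ R ⊗ (∐ fun i => E.S (k' i)), proj b f k' w' h = R ◁ g ≫ t :=
    Triangle.yoneda_exact₂ _ hΔ' (proj b f k' w' h) (map_proj b f k' w' h)
  rw [isIso_desc_iff]
  have h2 : lin (ModStr.free R C) (Sigma.desc fun i => w' i ≫ R ◁ g) =
      incl k' w' ≫ R ◁ g := by
    unfold incl
    rw [lin_comp (ModStr.free R Y) (ModStr.free R C) _ _ (isLinear_whiskerLeft g)]
    congr 1
    refine Sigma.hom_ext _ _ fun i => ?_
    rw [Sigma.ι_desc, Sigma.ι_desc_assoc]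
  rw [h2]
  refine ⟨t, ?_, ?_⟩
  · rw [Category.assoc, ← ht, incl_proj]
  · rw [← cancel_epi (R ◁ g), ← reassoc_of% ht]
    have h3 := total b f k' w' h
    have h4 : proj b f k' w' h ≫ incl k' w' = 𝟙 _ - ret b f k' w' h ≫ R ◁ f := by
      rw [← h3]
      abel
    rw [reassoc_of% h4, Preadditive.sub_comp, Category.assoc, hfg, comp_zero, sub_zero,
      Category.id_comp, Category.comp_id]

end Complement

section Nakayama

variable {T : Type u} [Category.{v} T] [Preadditive T] [HasZeroObject T]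
    [HasShift T ℤ] [∀ n : ℤ, (shiftFunctor T n).Additive] [Pretriangulated T] [IsTriangulated T]
    [MonoidalCategory T] [SymmetricCategory T] [TensorTriangulated T] [MonoidalClosed T]
    [HasCoproducts.{0} T] [HasProducts.{0} T] [StableCat T] {E : EvenSpheres T}
    {R : T} [MonObj R] {p : ℕ} [Fact p.Prime] {c : Pt E R p 0}
    (hS : ∀ n, IsSphere (E.S n)) {X Y C : T} {J I : Type} (b : RBasis E R X J)
    (b' : RBasis E R Y I) (f : X ⟶ Y)

/-- the images of the basis elements -/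
def imV (j : J) : MP E R Y := MP.of E R Y (b.k j) (b.w j ≫ R ◁ f)

lemma chi_repr_imV (j : J) (i : I) (h : b'.k i ≠ b.k j) :
    c.χ ((b'.basis hS).repr (imV b f j) i) = 0 := by
  unfold imV
  rw [b'.repr_of hS]
  exact chi_of_ne c (by omega) _

lemma repr_imV_high (hc : LocalPt c) (j : J) (i : I) (h : b.k j < b'.k i) :
    (b'.basis hS).repr (imV b f j) i = 0 := by
  unfold imV
  rw [b'.repr_of hS, hc.neg _ (by omega) (((b'.basis hS).repr _ i) (b.k j - b'.k i))]
  exact (DirectSum.of (E.Gr R) _).map_zero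

lemma repr_imV_mem (j : J) (i : I) (h : b'.k i = b.k j) :
    (b'.basis hS).repr (imV b f j) i ∈ deg0 E R := by
  unfold imV
  rw [b'.repr_of hS]
  exact of_mem_deg0' (by omega) _

variable [IsCommMonObj R]

include hS in
lemma row_linearIndependent (hf : Function.Injective (Vtot.map c f)) (n : ℤ) :
    LinearIndependent (ZMod p) (row c.χ (b'.basis hS) b'.k (imV b f) b.k n) := by
  classical
  rw [linearIndependent_iff']
  intro s g hg i hi
  have h1 : Vtot.map c f (∑ j ∈ s, g j • b.vbasis hS c j) = 0 := by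
    apply (b'.vbasis hS c).ext_elem
    intro x
    rw [map_zero, Finsupp.zero_apply, map_sum, map_sum, Finsupp.finsetSum_apply]
    have h2 : ∀ j : {j // b.k j = n}, (b'.vbasis hS c).repr (Vtot.map c f
        (g j • b.vbasis hS c j)) x = g j * c.χ ((b'.basis hS).repr (imV b f j) x) := by
      intro j
      rw [map_smul, map_smul, Finsupp.smul_apply, smul_eq_mul, RBasis.vbasis_apply, Vtot.map_mk,
        RBasis.vbasis_repr_mk, MP.map_of]
      rfl
    rw [Finset.sum_congr rfl fun j _ => h2 j]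
    by_cases hx : b'.k x = n
    · have h3 := congrFun hg ⟨x, hx⟩
      rw [Finset.sum_apply] at h3
      exact h3
    · refine Finset.sum_eq_zero fun j _ => ?_
      rw [chi_repr_imV hS b b' f j x (by rw [j.2]; exact hx), mul_zero]
  have h2 : (∑ j ∈ s, g j • b.vbasis hS c j) = 0 := hf (by rw [h1, map_zero])
  have h3 : LinearIndependent (ZMod p) fun j : {j // b.k j = n} => b.vbasis hS c j :=
    (b.vbasis hS c).linearIndependent.comp _ Subtype.val_injective
  exact linearIndependent_iff'.1 h3 s g h2 i hi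

include hS in
/-- **Nakayama's lemma**: if `f` is injective on `H`, the `w_j ≫ R ◁ f` and some of the `w'_i`
form a basis of `Y`. -/
theorem exists_complement_basis (hc : LocalPt c) (hb' : b'.FinType)
    (hf : Function.Injective (Vtot.map c f)) : ∃ I' : Set I, IsIso (Sigma.desc fun x =>
      lin (ModStr.free R Y) (famW b f (fun i : I' => b'.k i) (fun i => b'.w i) x)) := by
  classical
  obtain ⟨I', B, h1, h2, -⟩ := exists_complement c.χ (deg0 E R) (fun a ha h => hc.isUnit' a ha h)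
    (chi_surj c) (b'.basis hS) b'.k (imV b f) b.k hb'.1 hb'.2
    (fun j i h => repr_imV_high hS b b' f hc j i h) (fun j i h => repr_imV_mem hS b b' f j i h)
    (fun n => row_linearIndependent hS b b' f hf n)
  refine ⟨I', (b'.ofBasis hS (famK b (fun i : I' => b'.k i))
    (famW b f (fun i : I' => b'.k i) (fun i => b'.w i)) B ?_).isIso⟩
  rintro (j | i)
  · exact h1 j
  · rw [h2, RBasis.basis_apply]
    rfl

end Nakayama

section Exact

variable {T : Type u} [Category.{v} T] [Preadditive T] [HasZeroObject T]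
    [HasShift T ℤ] [∀ n : ℤ, (shiftFunctor T n).Additive] [Pretriangulated T] [IsTriangulated T]
    [MonoidalCategory T] [SymmetricCategory T] [TensorTriangulated T] [MonoidalClosed T]
    [HasCoproducts.{0} T] [HasProducts.{0} T] [StableCat T] {E : EvenSpheres T}
    {R : T} [MonObj R] {p : ℕ} [Fact p.Prime] (c : Pt E R p 0)
    (hS : ∀ n, IsSphere (E.S n)) {X Y C : T} {J K : Type} (b : RBasis E R X J) (f : X ⟶ Y)
    (k' : K → ℤ) (w' : ∀ i, E.S (k' i) ⟶ R ⊗ Y)
    (h : IsIso (Sigma.desc fun x => lin (ModStr.free R Y) (famW b f k' w' x)))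
    {g : Y ⟶ C} (h' : IsIso (Sigma.desc fun i => lin (ModStr.free R C) (w' i ≫ R ◁ g)))

/-- the basis `w'_i ≫ R ◁ g` of the cofibre -/
def cofB : RBasis E R C K := ⟨k', fun i => w' i ≫ R ◁ g, h'⟩

include hS h h' in
/-- a splitting of `H Y` -/
theorem exists_splitting (hfg : f ≫ g = 0) : ∃ (φ : Vtot c Y →ₗ[ZMod p] Vtot c X)
    (ψ : Vtot c C →ₗ[ZMod p] Vtot c Y), (∀ y, y = Vtot.map c f (φ y) + ψ (Vtot.map c g y)) ∧
      (∀ z, Vtot.map c g (ψ z) = z) ∧ ∀ x, φ (Vtot.map c f x) = x := by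
  let BY := (famB b f k' w' h).vbasis hS c
  let BC := (cofB k' w' h').vbasis hS c
  have hBi : ∀ j, BY (Sum.inl j) = Vtot.map c f (b.vbasis hS c j) := fun j => by
    rw [b.vbasis_apply hS c, Vtot.map_mk, MP.map_of]
    exact (famB b f k' w' h).vbasis_apply hS c (Sum.inl j)
  have hBr : ∀ i, Vtot.map c g (BY (Sum.inr i)) = BC i := fun i => by
    have e1 : BY (Sum.inr i) = Vtot.mk c Y (MP.of E R Y (k' i) (w' i)) :=
      (famB b f k' w' h).vbasis_apply hS c (Sum.inr i)
    have e2 : BC i = Vtot.mk c C (MP.of E R C (k' i) (w' i ≫ R ◁ g)) :=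
      (cofB k' w' h').vbasis_apply hS c i
    rw [e1, e2, Vtot.map_mk, MP.map_of]
  have hfg' : ∀ x, Vtot.map c g (Vtot.map c f x) = 0 := fun x => by
    rw [← LinearMap.comp_apply, ← Vtot.map_comp, hfg]
    induction x using Vtot.ind with
    | h x =>
      rw [Vtot.map_mk]
      have : MP.map E R (0 : X ⟶ C) x = 0 := by
        have h1 := LinearMap.congr_fun (MP.map_add' (E := E) (P := R) (0 : X ⟶ C) 0) x
        rw [add_zero, LinearMap.add_apply] at h1
        exact left_eq_add.1 h1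
      rw [this, map_zero]
  let φ : Vtot c Y →ₗ[ZMod p] Vtot c X :=
    BY.constr (ZMod p) (Sum.elim (fun j => b.vbasis hS c j) (fun _ => 0))
  let ψ : Vtot c C →ₗ[ZMod p] Vtot c Y := BC.constr (ZMod p) (fun i => BY (Sum.inr i))
  have hφi : ∀ j, φ (BY (Sum.inl j)) = b.vbasis hS c j := fun j => BY.constr_basis _ _ _
  have hφr : ∀ i, φ (BY (Sum.inr i)) = 0 := fun i => BY.constr_basis _ _ _
  have hψ : ∀ i, ψ (BC i) = BY (Sum.inr i) := fun i => BC.constr_basis _ _ _
  refine ⟨φ, ψ, fun y => ?_, fun z => ?_, fun x => ?_⟩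
  · have h1 : LinearMap.id = (Vtot.map c f).comp φ + ψ.comp (Vtot.map c g) := by
      refine BY.ext ?_
      rintro (j | i)
      · rw [LinearMap.add_apply, LinearMap.comp_apply, LinearMap.comp_apply, hφi, ← hBi,
          LinearMap.id_apply, hBi j, hfg', map_zero, add_zero]
      · rw [LinearMap.add_apply, LinearMap.comp_apply, LinearMap.comp_apply, hφr, map_zero,
          zero_add, hBr, hψ, LinearMap.id_apply]
    exact LinearMap.congr_fun h1 y
  · have h1 : (Vtot.map c g).comp ψ = LinearMap.id :=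
      BC.ext fun i => by rw [LinearMap.comp_apply, hψ, hBr, LinearMap.id_apply]
    exact LinearMap.congr_fun h1 z
  · have h1 : φ.comp (Vtot.map c f) = LinearMap.id :=
      (b.vbasis hS c).ext fun j => by rw [LinearMap.comp_apply, ← hBi, hφi, LinearMap.id_apply]
    exact LinearMap.congr_fun h1 x

include hS h h' in
/-- elements of low degree -/
theorem le_of_range (hfg : f ≫ g = 0) {B : ℤ} (hB : ∀ n : ℤ, n < B → ∀ y : E.S n ⟶ R ⊗ Y,
    Vtot.mk c Y (MP.of E R Y n y) ∈ LinearMap.range (Vtot.map c f)) (i : K) : B ≤ k' i := by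
  by_contra hi
  obtain ⟨x, hx⟩ := hB (k' i) (not_le.1 hi) (w' i)
  obtain ⟨φ, ψ, h1, h2, h3⟩ := exists_splitting c hS b f k' w' h h' hfg
  have h4 : Vtot.map c g (Vtot.map c f x) = 0 := by
    have h5 := h1 (Vtot.map c f x)
    rw [h3] at h5
    have h7 := congrArg (Vtot.map c g) (left_eq_add.1 h5)
    rwa [map_zero, h2] at h7
  rw [hx, Vtot.map_mk, MP.map_of] at h4
  have h5 : (cofB k' w' h').vbasis hS c i = 0 := by
    rw [RBasis.vbasis_apply]
    exact h4
  exact ((cofB k' w' h').vbasis hS c).ne_zero i h5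

end Exact

section Main

variable {T : Type u} [Category.{v} T] [Preadditive T] [HasZeroObject T]
    [HasShift T ℤ] [∀ n : ℤ, (shiftFunctor T n).Additive] [Pretriangulated T] [IsTriangulated T]
    [MonoidalCategory T] [SymmetricCategory T] [TensorTriangulated T] [MonoidalClosed T]
    [HasCoproducts.{0} T] [HasProducts.{0} T] [StableCat T] {E : EvenSpheres T}
    {R : T} [MonObj R] [IsCommMonObj R] {p : ℕ} [Fact p.Prime] {c : Pt E R p 0}

/-- **Nakayama's lemma in `T`**. Let `X`, `Y` have `R`-bases, `Y` of finite type, and let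
`f : X ⟶ Y` be injective on `H`. Then for every distinguished triangle `X ⟶ Y ⟶ C ⟶ X⟦1⟧`:

* `C` has an `R`-basis `w'_i ≫ R ◁ g`, `i ∈ I' ⊆ I`, again of finite type, whose degrees are
  bounded below by `B` if all classes of `H Y` in degrees `< B` are in the image of `H f`;
* `R ◁ f` has a linear retraction, and `R ◁ δ = 0`;
* `0 ⟶ H X ⟶ H Y ⟶ H C ⟶ 0` is exact. -/
theorem nakayama (hS : ∀ n, IsSphere (E.S n)) (hc : LocalPt c) {X Y C : T} {J I : Type}
    (b : RBasis E R X J) (b' : RBasis E R Y I) (hb' : b'.FinType) {f : X ⟶ Y} {g : Y ⟶ C}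
    {δ : C ⟶ X⟦(1 : ℤ)⟧} (hΔ : Triangle.mk f g δ ∈ distTriang T)
    (hf : Function.Injective (Vtot.map c f)) :
    ∃ (I' : Set I) (h' : IsIso (Sigma.desc fun i : I' =>
        lin (ModStr.free R C) (b'.w i ≫ R ◁ g))) (r : R ⊗ Y ⟶ R ⊗ X),
      (cofB (fun i : I' => b'.k i) (fun i => b'.w i) h').FinType ∧
      (∀ B : ℤ, (∀ n : ℤ, n < B → ∀ y : E.S n ⟶ R ⊗ Y,
        Vtot.mk c Y (MP.of E R Y n y) ∈ LinearMap.range (Vtot.map c f)) →
        ∀ i : I', B ≤ b'.k i) ∧
      (ModStr.free R Y).IsLinear (ModStr.free R X) r ∧ R ◁ f ≫ r = 𝟙 _ ∧ R ◁ δ = 0 ∧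
      Function.Surjective (Vtot.map c g) ∧
      LinearMap.ker (Vtot.map c g) = LinearMap.range (Vtot.map c f) := by
  obtain ⟨I', h⟩ := exists_complement_basis hS b b' f hc hb' hf
  have h' := isIso_cofibre b f (fun i : I' => b'.k i) (fun i => b'.w i) h hΔ
  have hfg : f ≫ g = 0 := comp_distTriang_mor_zero₁₂ _ hΔ
  obtain ⟨φ, ψ, h1, h2, h3⟩ := exists_splitting c hS b f (fun i : I' => b'.k i)
    (fun i => b'.w i) h h' hfg
  refine ⟨I', h', ret b f _ _ h, ⟨?_, ?_⟩, ?_, ret_isLinear b f _ _ h, map_ret b f _ _ h, ?_, ?_, ?_⟩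
  · obtain ⟨B, hB⟩ := hb'.1
    exact ⟨B, fun i => hB i⟩
  · intro n
    exact Set.Finite.preimage (Subtype.val_injective.injOn) (hb'.2 n)
  · intro B hB i
    exact le_of_range c hS b f _ _ h h' hfg hB i
  · have hΔ' := TensorTriangulated.distinguished R _ hΔ
    have hmono : Mono (R ◁ f) := mono_of_mono_fac (map_ret b f _ _ h)
    have h4 := (Triangle.mor₃_eq_zero_iff_mono₁ _ hΔ').2 hmono
    have h5 : (R ◁ δ) ≫ (R ◁ (TensorTriangulated.e X).inv) ≫
        (α_ R X ((𝟙_ T)⟦(1 : ℤ)⟧)).inv ≫ (TensorTriangulated.e (R ⊗ X)).hom = 0 := h4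
    rwa [Preadditive.IsIso.comp_right_eq_zero] at h5
  · intro z
    exact ⟨ψ z, h2 z⟩
  · apply le_antisymm
    · intro y hy
      rw [LinearMap.mem_ker] at hy
      rw [h1 y, hy, map_zero, add_zero]
      exact ⟨φ y, rfl⟩
    · rintro _ ⟨x, rfl⟩
      rw [LinearMap.mem_ker]
      have h5 := h1 (Vtot.map c f x)
      rw [h3] at h5
      have h7 := congrArg (Vtot.map c g) (left_eq_add.1 h5)
      rwa [map_zero, h2] at h7

end Main

end Vale.Agent.P093.Nak
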