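import Mathlib.Algebra.Module.LocalizedModule.Basic
import Vale.Agent.P093.N.PLocSp
import Vale.Agent.P251.S.ModP

/-!
# P093, part N: the `p`-local sphere is an idempotent commutative monoid
-/

open CategoryTheory MonoidalCategory Limits Pretriangulated Preadditive MonObj

set_option linter.unusedSectionVars false

universe v u

namespace Vale.Agent.P093.PLoc

open Vale.Agent.P251.T Vale.Agent.P251.S

section mon

variable {T : Type u} [Category.{v} T] [Preadditive T] [HasZeroObject T] [HasShift T ℤ]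
  [∀ n : ℤ, (shiftFunctor T n).Additive] [Pretriangulated T]
  [MonoidalCategory T] [SymmetricCategory T] [TensorTriangulated T] [MonoidalClosed T]
  [HasCoproducts.{0} T]

variable (T) in
/-- the multiplication of `Sp p` -/
noncomputable def mu {p : ℕ} (hp : p ≠ 1) : Sp T p ⊗ Sp T p ⟶ Sp T p :=
  (isPLocal_Sp hp).desc (𝟙 _)

@[reassoc (attr := simp)]
theorem etaX_mu {p : ℕ} (hp : p ≠ 1) : etaX p (Sp T p) ≫ mu T hp = 𝟙 _ :=
  (isPLocal_Sp hp).etaX_desc _

@[reassoc]
theorem eta_mu {p : ℕ} (hp : p ≠ 1) : eta T p ▷ Sp T p ≫ mu T hp = (λ_ (Sp T p)).hom := by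
  have h := etaX_mu (T := T) hp
  unfold etaX at h
  rw [Category.assoc, Iso.inv_comp_eq, Category.comp_id] at h
  exact h

theorem mu_eta {p : ℕ} (hp : p ≠ 1) : Sp T p ◁ eta T p ≫ mu T hp = (ρ_ (Sp T p)).hom := by
  refine (isPLocal_Sp hp).hom_ext ?_
  unfold etaX
  rw [Category.assoc, Category.assoc, ← whisker_exchange_assoc, eta_mu, leftUnitor_naturality,
    Iso.inv_hom_id_assoc, rightUnitor_naturality]
  rw [← unitors_equal, Iso.inv_hom_id_assoc]

theorem mu_assoc {p : ℕ} (hp : p ≠ 1) : mu T hp ▷ Sp T p ≫ mu T hp =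
    (α_ _ _ _).hom ≫ Sp T p ◁ mu T hp ≫ mu T hp := by
  rw [← Iso.inv_comp_eq]
  refine (isPLocal_Sp hp).hom_ext ?_
  rw [← etaX_naturality_assoc, etaX_mu, Category.comp_id]
  unfold etaX
  have h1 : (λ_ (Sp T p ⊗ Sp T p)).inv ≫ eta T p ▷ (Sp T p ⊗ Sp T p) ≫
      (α_ (Sp T p) (Sp T p) (Sp T p)).inv = ((λ_ (Sp T p)).inv ≫ eta T p ▷ Sp T p) ▷ Sp T p := by
    rw [comp_whiskerRight, associator_inv_naturality_left, leftUnitor_inv_whiskerRight,
      Category.assoc]
  rw [Category.assoc, reassoc_of% h1, ← comp_whiskerRight_assoc]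
  change (etaX p (Sp T p) ≫ mu T hp) ▷ Sp T p ≫ mu T hp = _
  rw [etaX_mu, id_whiskerRight, Category.id_comp]

theorem mu_comm {p : ℕ} (hp : p ≠ 1) : (β_ (Sp T p) (Sp T p)).hom ≫ mu T hp = mu T hp := by
  refine (isPLocal_Sp hp).hom_ext ?_
  rw [etaX_mu]
  unfold etaX
  rw [Category.assoc, BraidedCategory.braiding_naturality_left_assoc, mu_eta]
  simp

variable (T) in
/-- the monoid structure of `Sp p` -/
@[implicit_reducible]
noncomputable def monSp {p : ℕ} (hp : p ≠ 1) : MonObj (Sp T p) where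
  one := eta T p
  mul := mu T hp
  one_mul := eta_mu hp
  mul_one := mu_eta hp
  mul_assoc := mu_assoc hp

variable (T) in
theorem isCommMonSp {p : ℕ} (hp : p ≠ 1) :
    let _ := monSp T hp
    IsCommMonObj (Sp T p) := by
  let _ := monSp T hp
  exact ⟨mu_comm hp⟩

variable (T) in
theorem isIso_mu {p : ℕ} (hp : p ≠ 1) : IsIso (mu T hp) := by
  have h := (isPLocal_Sp (T := T) hp).isIso_etaX hp
  have h2 : mu T hp = inv (etaX p (Sp T p)) := by
    rw [← cancel_epi (etaX p (Sp T p)), etaX_mu, IsIso.hom_inv_id]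
  rw [h2]
  infer_instance

noncomputable instance monSpInst (p : ℕ) [hp : Fact p.Prime] : MonObj (Sp T p) := monSp T hp.out.ne_one

instance isCommMonSpInst (p : ℕ) [hp : Fact p.Prime] : IsCommMonObj (Sp T p) :=
  isCommMonSp T hp.out.ne_one

theorem one_Sp (p : ℕ) [hp : Fact p.Prime] : η[Sp T p] = eta T p := rfl

theorem mul_Sp (p : ℕ) [hp : Fact p.Prime] : μ[Sp T p] = mu T hp.out.ne_one := rfl

/-- the action of `Sp p` on a `p`-local object -/
noncomputable def actX {p : ℕ} [hp : Fact p.Prime] {X : T} (h : IsPLocal p X) :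
    ModStr (Sp T p) X where
  act := h.desc (𝟙 X)
  one_act := by
    have h1 := h.etaX_desc (𝟙 X)
    unfold etaX at h1
    rw [Category.assoc, Iso.inv_comp_eq, Category.comp_id] at h1
    exact h1
  mul_act := by
    rw [← Iso.inv_comp_eq]
    refine h.hom_ext ?_
    rw [← etaX_naturality_assoc, h.etaX_desc, Category.comp_id]
    unfold etaX
    have h1 : (λ_ (Sp T p ⊗ X)).inv ≫ eta T p ▷ (Sp T p ⊗ X) ≫
        (α_ (Sp T p) (Sp T p) X).inv = ((λ_ (Sp T p)).inv ≫ eta T p ▷ Sp T p) ▷ X := by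
      rw [comp_whiskerRight, associator_inv_naturality_left, leftUnitor_inv_whiskerRight,
        Category.assoc]
    rw [Category.assoc, reassoc_of% h1, ← comp_whiskerRight_assoc]
    change (etaX p (Sp T p) ≫ mu T _) ▷ X ≫ _ = _
    rw [etaX_mu, id_whiskerRight, Category.id_comp]

/-- all maps to a `p`-local object are linear -/
theorem isLinear_of_isPLocal {p : ℕ} [hp : Fact p.Prime] {X Y : T} (h : IsPLocal p X)
    (h' : IsPLocal p Y) (f : X ⟶ Y) : (actX h).IsLinear (actX h') f := by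
  refine h'.hom_ext ?_
  change etaX p X ≫ h.desc (𝟙 X) ≫ f = etaX p X ≫ Sp T p ◁ f ≫ h'.desc (𝟙 Y)
  rw [h.etaX_desc_assoc, Category.id_comp, ← etaX_naturality_assoc, h'.etaX_desc,
    Category.comp_id]

/-- two module structures over `Sp p` on the same object agree -/
theorem isPLocal_of_modStr {p : ℕ} [hp : Fact p.Prime] {X : T} (M : ModStr (Sp T p) X) :
    IsPLocal p X := by
  refine (isPLocal_Sp_tensor hp.out.ne_one X).retract (etaX p X) M.act ?_
  unfold etaX
  rw [Category.assoc, ← one_Sp, M.one_act, Iso.inv_hom_id]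

end mon

section shift

variable {T : Type u} [Category.{v} T] [Preadditive T] [HasZeroObject T] [HasShift T ℤ]
  [∀ n : ℤ, (shiftFunctor T n).Additive] [Pretriangulated T]
  [MonoidalCategory T] [SymmetricCategory T] [TensorTriangulated T] [MonoidalClosed T]
  [HasCoproducts.{0} T] {p : ℕ}

variable (T) in
/-- the localization map as a natural transformation -/
noncomputable def etaNat (p : ℕ) : 𝟭 T ⟶ tensorLeft (Sp T p) where
  app X := etaX p X
  naturality _ _ f := etaX_naturality p f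

@[simp] theorem etaNat_app (X : T) : (etaNat T p).app X = etaX p X := rfl

instance etaNat_commShift : NatTrans.CommShift (etaNat T p) ℤ := by
  have h : etaNat T p = (lunIso T).inv ≫ tlMap (eta T p) := by
    ext Y
    rfl
  rw [h]
  infer_instance

/-- the localization map of a shift -/
theorem etaX_shift (X : T) (n : ℤ) :
    etaX p (X⟦n⟧) ≫ ((tensorLeft (Sp T p)).commShiftIso n).hom.app X = (etaX p X)⟦n⟧' := by
  have h := NatTrans.shift_app_comm (etaNat T p) n X
  refine h.symm.trans ?_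
  change (𝟙 _ ≫ 𝟙 _) ≫ (etaX p X)⟦n⟧' = _
  rw [Category.comp_id, Category.id_comp]

end shift

/-! ### Localized Hom groups -/

/-- the integers prime to `p` -/
def cop (p : ℕ) : Submonoid ℤ where
  carrier := {n | n.natAbs.Coprime p}
  one_mem' := Nat.coprime_one_left p
  mul_mem' := fun {a b} ha hb => by
    change (a * b).natAbs.Coprime p
    rw [Int.natAbs_mul]
    exact Nat.Coprime.mul_left ha hb

theorem mem_cop {p : ℕ} {n : ℤ} : n ∈ cop p ↔ n.natAbs.Coprime p := Iff.rfl

theorem mem_cop_iff_not_dvd {p : ℕ} (hp : p.Prime) {n : ℤ} : n ∈ cop p ↔ ¬ (p : ℤ) ∣ n := by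
  rw [mem_cop, Nat.coprime_comm, Nat.Prime.coprime_iff_not_dvd hp, Int.natCast_dvd]

section hom

variable {T : Type u} [Category.{v} T] [Preadditive T] [HasZeroObject T] [HasShift T ℤ]
  [∀ n : ℤ, (shiftFunctor T n).Additive] [Pretriangulated T]
  [MonoidalCategory T] [SymmetricCategory T] [TensorTriangulated T] [MonoidalClosed T]
  [HasCoproducts.{0} T] {p : ℕ}

/-- composition with the localization map -/
noncomputable def homLoc (p : ℕ) (W X : T) : (W ⟶ X) →ₗ[ℤ] (W ⟶ Sp T p ⊗ X) :=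
  (rightComp W (etaX p X)).toIntLinearMap

@[simp] theorem homLoc_apply (W X : T) (f : W ⟶ X) : homLoc p W X f = f ≫ etaX p X := rfl

theorem isLocalizedModule_homLoc (hp : p ≠ 1) {W : T} (hW : IsCpt W) (X : T) :
    IsLocalizedModule (cop p) (homLoc p W X) where
  map_units x := by
    have h := (isPLocal_Sp_tensor hp X).isIso x.2
    rw [Module.End.isUnit_iff]
    constructor
    · intro f g hfg
      change x.1 • f = x.1 • g at hfg
      rw [← sub_eq_zero]
      refine (isPLocal_Sp_tensor hp X).eq_zero x.2 ?_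
      rw [smul_sub, hfg, sub_self]
    · intro f
      exact (isPLocal_Sp_tensor hp X).exists_div x.2 f
  surj f := by
    obtain ⟨q, g, hq, hg⟩ := exists_lift_of_isCpt hW f
    exact ⟨⟨g, ⟨(q : ℤ), hq⟩⟩, hg.symm⟩
  exists_of_eq {f g} hfg := by
    obtain ⟨q, hq, h⟩ := exists_zero_of_isCpt (p := p) hW (f - g) (by
      rw [sub_comp, sub_eq_zero]; exact hfg)
    exact ⟨⟨(q : ℤ), hq⟩, by rw [smul_sub, sub_eq_zero] at h; exact h⟩

end hom

end Vale.Agent.P093.PLoc
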