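import Vale.Agent.P093.N.PhiAlg
import Mathlib.RingTheory.TensorProduct.Maps

/-!
# P093, part N, block N1-PHI: counit, coassociativity, the projection `q`, Hurewicz images
-/

namespace Vale.Agent.P093.N.Phi

open Vale.Agent.P251.F Vale.Agent.P217 TensorProduct

section

variable (p : ℕ) [hp : Fact p.Prime] {P : Type} [CommRing P] [Algebra (ZMod p) P] (t : ℕ → P)

theorem ch1_congr {B : Type} [CommRing B] {f g : InvSeries B} (hf : f ∈ strict B)
    (hg : g ∈ strict B) (h : f = g) : ch1 f hf = ch1 g hg := by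
  subst h
  rfl

omit hp in
/-- The additive series with zero coefficients is the identity. -/
theorem addSer_zero (B : Type) [CommRing B] : addSer p (fun _ => (0 : B)) = 1 := by
  apply InvSeries.ext_c
  intro n
  rcases n with _ | n
  · rw [InvSeries.c_zero_one]
    exact addSer_mem p _
  · rw [InvSeries.c_one_succ, addSer, c_succ_strictMk]
    split_ifs <;> rfl

omit [Algebra (ZMod p) P] in
/-- **Counit.** -/
theorem counit_phiC (ε : P →+* ZMod p) (hε : ∀ n, ε (t n) = 0) (z : Cob Laz 1) :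
    ε (phiC p t z) = epsC p (Cob.map (fun _ => 0 : Fin 2 → Fin 1) z) := by
  rw [phiC, ← Cob.ev_map, epsC, Cob.ev_map_res]
  congr 1
  refine congrArg _ ?_
  refine chain_ext ?_ fun i => ?_
  · refine (comp_lift_addLaw ε).trans ?_
    exact (LawRing.act_one _).symm
  · have h1 : InvSeries.map ε (addSer p t) = 1 := by
      rw [map_addSer, ← addSer_zero p (ZMod p)]
      congr 1
      funext n
      exact hε n
    fin_cases i
    · change InvSeries.map ε 1 = 1 * 1⁻¹
      rw [map_one]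
      group
    · change InvSeries.map ε (addSer p t) = 1 * 1⁻¹
      rw [h1]
      group

/-- `q` maps the generic series to the additive one. -/
theorem map_qC_bser : InvSeries.map (qC p t).toRingHom (bser p) = addSer p t := by
  rw [bser, map_strictMk]
  conv_rhs => rw [← strictMk_c (addSer_mem p t)]
  congr 1
  funext n
  change qC p t (MvPolynomial.X n) = _
  rw [qC, MvPolynomial.aeval_X]

theorem qC_thC (z : Cob Laz 1) : qC p t (thC p z) = phiC p t z := by
  change (qC p t).toRingHom (thC p z) = _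
  rw [thC, ← Cob.ev_map, ch1_map, phiC, ch1_congr _ (addSer_mem p t) (map_qC_bser p t)]

theorem qC_comp_thC : (qC p t).toRingHom.comp (thC p) = phiC p t :=
  RingHom.ext (qC_thC p t)

/-- `psi` maps the generic series to `(1 ⊗ B) ∘ (T ⊗ 1)`. -/
theorem map_psiC_bser : InvSeries.map (psiC p t).toRingHom (bser p) =
    sR p P (bser p) * tL p t (Fb p) := by
  have h1 : sR p P (bser p) * tL p t (Fb p) ∈ strict _ :=
    mul_mem (sR_mem p (bser_mem p)) (tL_mem p t (Fb p))
  rw [bser, map_strictMk]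
  conv_rhs => rw [← bser, ← strictMk_c h1]
  congr 1
  funext n
  change psiC p t (MvPolynomial.X n) = _
  rw [psiC, MvPolynomial.aeval_X]

/-- Two algebra homomorphisms out of `F_p[b]` agree if they agree on the generic series. -/
theorem algHom_ext_bser {A : Type} [CommRing A] [Algebra (ZMod p) A] {f g : Fb p →ₐ[ZMod p] A}
    (h : InvSeries.map f.toRingHom (bser p) = InvSeries.map g.toRingHom (bser p)) : f = g := by
  apply MvPolynomial.algHom_ext
  intro n
  have h1 := congrArg (fun s => InvSeries.c s (n + 1)) h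
  simp only [InvSeries.c_map] at h1
  rw [bser, c_succ_strictMk] at h1
  exact h1

/-- ring homomorphisms into an `F_p`-algebra are equal on `sR` -/
theorem map_sR {A Q : Type} [CommRing A] [Algebra (ZMod p) A] [CommRing Q] [Algebra (ZMod p) Q]
    (F : P ⊗[ZMod p] Q →ₐ[ZMod p] A) (f : InvSeries Q) :
    InvSeries.map F.toRingHom (sR p P f) =
      InvSeries.map (F.comp Algebra.TensorProduct.includeRight).toRingHom f := by
  rw [sR, InvSeries.map_map]
  rfl

theorem map_tL {A Q : Type} [CommRing A] [Algebra (ZMod p) A] [CommRing Q] [Algebra (ZMod p) Q]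
    (F : P ⊗[ZMod p] Q →ₐ[ZMod p] A) :
    InvSeries.map F.toRingHom (tL p t Q) =
      InvSeries.map (F.comp Algebra.TensorProduct.includeLeft).toRingHom (addSer p t) := by
  rw [tL_eq, InvSeries.map_map]
  rfl

/-- the comultiplication in terms of series -/
theorem map_delta_addSer (Δ : P →ₐ[ZMod p] P ⊗[ZMod p] P)
    (hΔ : ∀ n, Δ (t n) = ∑ j ∈ Finset.range (n + 2),
      (ext1 t (n + 1 - j) ^ p ^ j) ⊗ₜ[ZMod p] ext1 t j) :
    InvSeries.map Δ.toRingHom (addSer p t) = sR p P (addSer p t) * tL p t P := by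
  have h1 : sR p P (addSer p t) = addSer p fun n => (1 : P) ⊗ₜ[ZMod p] t n := by
    rw [sR, map_addSer]
    rfl
  rw [h1, tL, addSer_mul' p (natCast_zero p (P ⊗[ZMod p] P)), map_addSer]
  congr 1
  funext n
  change Δ (t n) = _
  rw [hΔ]
  refine Finset.sum_congr rfl fun j _ => ?_
  have h2 : ∀ k, ext1 (fun n => (1 : P) ⊗ₜ[ZMod p] t n) k = (1 : P) ⊗ₜ[ZMod p] ext1 t k := by
    intro k
    rcases k with _ | k <;> rfl
  have h3 : ∀ k, ext1 (fun n => t n ⊗ₜ[ZMod p] (1 : P)) k = ext1 t k ⊗ₜ[ZMod p] (1 : P) := by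
    intro k
    rcases k with _ | k <;> rfl
  rw [h2, h3, Algebra.TensorProduct.tmul_pow, Algebra.TensorProduct.tmul_mul_tmul, one_pow,
    one_mul, mul_one]

/-- `(1 ⊗ q) psi = Δ q`. -/
theorem map_qC_psiC (Δ : P →ₐ[ZMod p] P ⊗[ZMod p] P)
    (hΔ : ∀ n, Δ (t n) = ∑ j ∈ Finset.range (n + 2),
      (ext1 t (n + 1 - j) ^ p ^ j) ⊗ₜ[ZMod p] ext1 t j) :
    (Algebra.TensorProduct.map (AlgHom.id (ZMod p) P) (qC p t)).comp (psiC p t) =
      Δ.comp (qC p t) := by
  apply algHom_ext_bser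
  have h1 : InvSeries.map ((Algebra.TensorProduct.map (AlgHom.id (ZMod p) P) (qC p t)).comp
      (psiC p t)).toRingHom (bser p) =
      InvSeries.map (Algebra.TensorProduct.map (AlgHom.id (ZMod p) P) (qC p t)).toRingHom
        (InvSeries.map (psiC p t).toRingHom (bser p)) := by
    rw [InvSeries.map_map]
    rfl
  have h2 : InvSeries.map (Δ.comp (qC p t)).toRingHom (bser p) =
      InvSeries.map Δ.toRingHom (InvSeries.map (qC p t).toRingHom (bser p)) := by
    rw [InvSeries.map_map]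
    rfl
  rw [h1, h2, map_psiC_bser, map_qC_bser, map_delta_addSer p t Δ hΔ, map_mul, map_sR, map_tL]
  congr 1
  · have h3 : (Algebra.TensorProduct.map (AlgHom.id (ZMod p) P) (qC p t)).comp
        Algebra.TensorProduct.includeRight =
        (Algebra.TensorProduct.includeRight : P →ₐ[ZMod p] P ⊗[ZMod p] P).comp (qC p t) := by
      ext n
      simp
    rw [h3, sR]
    have h4 := map_qC_bser p t
    rw [← h4, InvSeries.map_map]
    rfl
  · have h3 : (Algebra.TensorProduct.map (AlgHom.id (ZMod p) P) (qC p t)).comp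
        Algebra.TensorProduct.includeLeft =
        (Algebra.TensorProduct.includeLeft : P →ₐ[ZMod p] P ⊗[ZMod p] P) := by
      ext x
      simp
    rw [h3, tL_eq]

/-- **Coassociativity of the coaction on `F_p[b]`.** -/
theorem psiC_coassoc (Δ : P →ₐ[ZMod p] P ⊗[ZMod p] P)
    (hΔ : ∀ n, Δ (t n) = ∑ j ∈ Finset.range (n + 2),
      (ext1 t (n + 1 - j) ^ p ^ j) ⊗ₜ[ZMod p] ext1 t j) :
    ((Algebra.TensorProduct.assoc (ZMod p) (ZMod p) (ZMod p) P P (Fb p)).toAlgHom.comp
      (Algebra.TensorProduct.map Δ (AlgHom.id (ZMod p) (Fb p)))).comp (psiC p t) =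
      (Algebra.TensorProduct.map (AlgHom.id (ZMod p) P) (psiC p t)).comp (psiC p t) := by
  refine algHom_ext_bser p (A := P ⊗[ZMod p] (P ⊗[ZMod p] Fb p)) ?_
  set F : P ⊗[ZMod p] Fb p →ₐ[ZMod p] P ⊗[ZMod p] (P ⊗[ZMod p] Fb p) :=
    (Algebra.TensorProduct.assoc (ZMod p) (ZMod p) (ZMod p) P P (Fb p)).toAlgHom.comp
      (Algebra.TensorProduct.map Δ (AlgHom.id (ZMod p) (Fb p))) with hF
  set G : P ⊗[ZMod p] Fb p →ₐ[ZMod p] P ⊗[ZMod p] (P ⊗[ZMod p] Fb p) :=
    Algebra.TensorProduct.map (AlgHom.id (ZMod p) P) (psiC p t) with hG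
  -- the three inclusions
  set i1 : P →ₐ[ZMod p] P ⊗[ZMod p] (P ⊗[ZMod p] Fb p) :=
    Algebra.TensorProduct.includeLeft with hi1
  set i2 : P →ₐ[ZMod p] P ⊗[ZMod p] (P ⊗[ZMod p] Fb p) :=
    (Algebra.TensorProduct.includeRight :
      P ⊗[ZMod p] Fb p →ₐ[ZMod p] P ⊗[ZMod p] (P ⊗[ZMod p] Fb p)).comp
      Algebra.TensorProduct.includeLeft with hi2
  set i3 : Fb p →ₐ[ZMod p] P ⊗[ZMod p] (P ⊗[ZMod p] Fb p) :=
    (Algebra.TensorProduct.includeRight :
      P ⊗[ZMod p] Fb p →ₐ[ZMod p] P ⊗[ZMod p] (P ⊗[ZMod p] Fb p)).comp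
      Algebra.TensorProduct.includeRight with hi3
  have h1 : ∀ H : P ⊗[ZMod p] Fb p →ₐ[ZMod p] P ⊗[ZMod p] (P ⊗[ZMod p] Fb p),
      InvSeries.map (B := P ⊗[ZMod p] (P ⊗[ZMod p] Fb p)) (H.comp (psiC p t)).toRingHom (bser p) =
      InvSeries.map (H.comp Algebra.TensorProduct.includeRight).toRingHom (bser p) *
        InvSeries.map (H.comp Algebra.TensorProduct.includeLeft).toRingHom (addSer p t) := by
    intro H
    have h2 : InvSeries.map (B := P ⊗[ZMod p] (P ⊗[ZMod p] Fb p)) (H.comp (psiC p t)).toRingHom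
        (bser p) = InvSeries.map (A := P ⊗[ZMod p] Fb p) (B := P ⊗[ZMod p] (P ⊗[ZMod p] Fb p))
          H.toRingHom (InvSeries.map (psiC p t).toRingHom (bser p)) := by
      rw [InvSeries.map_map]
      rfl
    rw [h2, map_psiC_bser, map_mul,
      map_sR (A := P ⊗[ZMod p] (P ⊗[ZMod p] Fb p)) p H (bser p),
      map_tL (A := P ⊗[ZMod p] (P ⊗[ZMod p] Fb p)) p t H]
  refine (h1 F).trans (Eq.trans ?_ (h1 G).symm)
  have f3 : F.comp Algebra.TensorProduct.includeRight = i3 := by
    ext n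
    simp only [hF, hi3, AlgHom.comp_apply, Algebra.TensorProduct.includeRight_apply,
      Algebra.TensorProduct.map_tmul, map_one, AlgHom.coe_id, id_eq]
    rw [Algebra.TensorProduct.one_def]
    exact Algebra.TensorProduct.assoc_tmul ..
  have f12 : F.comp Algebra.TensorProduct.includeLeft =
      (Algebra.TensorProduct.map (AlgHom.id (ZMod p) P)
        (Algebra.TensorProduct.includeLeft : P →ₐ[ZMod p] P ⊗[ZMod p] Fb p)).comp Δ := by
    have h3 : ∀ y : P ⊗[ZMod p] P,
        (Algebra.TensorProduct.assoc (ZMod p) (ZMod p) (ZMod p) P P (Fb p)) (y ⊗ₜ[ZMod p] 1) =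
        (Algebra.TensorProduct.map (AlgHom.id (ZMod p) P)
          (Algebra.TensorProduct.includeLeft : P →ₐ[ZMod p] P ⊗[ZMod p] Fb p)) y := by
      intro y
      induction y using TensorProduct.induction_on with
      | zero => rw [zero_tmul, map_zero, map_zero]
      | tmul a b =>
        rw [Algebra.TensorProduct.assoc_tmul, Algebra.TensorProduct.map_tmul]
        rfl
      | add a b ha hb => rw [add_tmul, map_add, map_add, ha, hb]
    apply AlgHom.ext
    intro x
    change (Algebra.TensorProduct.assoc (ZMod p) (ZMod p) (ZMod p) P P (Fb p))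
      ((Algebra.TensorProduct.map Δ (AlgHom.id (ZMod p) (Fb p))) (x ⊗ₜ[ZMod p] 1)) = _
    rw [Algebra.TensorProduct.map_tmul, map_one, h3]
    rfl
  have g23 : G.comp Algebra.TensorProduct.includeRight =
      (Algebra.TensorProduct.includeRight :
        P ⊗[ZMod p] Fb p →ₐ[ZMod p] P ⊗[ZMod p] (P ⊗[ZMod p] Fb p)).comp (psiC p t) := by
    ext n
    simp [hG]
  have g1 : G.comp Algebra.TensorProduct.includeLeft = i1 := by
    ext x
    simp [hG, hi1]
  rw [f3, f12, g23, g1]
  have e1 : InvSeries.map (B := P ⊗[ZMod p] (P ⊗[ZMod p] Fb p))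
      ((Algebra.TensorProduct.map (AlgHom.id (ZMod p) P)
        (Algebra.TensorProduct.includeLeft : P →ₐ[ZMod p] P ⊗[ZMod p] Fb p)).comp Δ).toRingHom
        (addSer p t) = InvSeries.map (B := P ⊗[ZMod p] (P ⊗[ZMod p] Fb p)) i2.toRingHom
          (addSer p t) * InvSeries.map (B := P ⊗[ZMod p] (P ⊗[ZMod p] Fb p)) i1.toRingHom
          (addSer p t) := by
    have k1 := map_sR (A := P ⊗[ZMod p] (P ⊗[ZMod p] Fb p)) p
      (Algebra.TensorProduct.map (AlgHom.id (ZMod p) P)
        (Algebra.TensorProduct.includeLeft : P →ₐ[ZMod p] P ⊗[ZMod p] Fb p)) (addSer p t)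
    have k2 := map_tL (A := P ⊗[ZMod p] (P ⊗[ZMod p] Fb p)) p t
      (Algebra.TensorProduct.map (AlgHom.id (ZMod p) P)
        (Algebra.TensorProduct.includeLeft : P →ₐ[ZMod p] P ⊗[ZMod p] Fb p))
    have k3 : (Algebra.TensorProduct.map (AlgHom.id (ZMod p) P)
        (Algebra.TensorProduct.includeLeft : P →ₐ[ZMod p] P ⊗[ZMod p] Fb p)).comp
        Algebra.TensorProduct.includeRight = i2 := by
      ext x
      simp [hi2]
    have k4 : (Algebra.TensorProduct.map (AlgHom.id (ZMod p) P)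
        (Algebra.TensorProduct.includeLeft : P →ₐ[ZMod p] P ⊗[ZMod p] Fb p)).comp
        Algebra.TensorProduct.includeLeft = i1 := by
      ext x
      simp [hi1]
    rw [k3] at k1
    rw [k4] at k2
    rw [← k1, ← k2, ← map_mul, ← map_delta_addSer p t Δ hΔ, InvSeries.map_map]
    rfl
  have e2 : InvSeries.map (B := P ⊗[ZMod p] (P ⊗[ZMod p] Fb p))
      ((Algebra.TensorProduct.includeRight :
        P ⊗[ZMod p] Fb p →ₐ[ZMod p] P ⊗[ZMod p] (P ⊗[ZMod p] Fb p)).comp (psiC p t)).toRingHom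
        (bser p) = InvSeries.map (B := P ⊗[ZMod p] (P ⊗[ZMod p] Fb p)) i3.toRingHom
          (bser p) * InvSeries.map (B := P ⊗[ZMod p] (P ⊗[ZMod p] Fb p)) i2.toRingHom
          (addSer p t) := by
    have k1 := map_sR (A := P ⊗[ZMod p] (P ⊗[ZMod p] Fb p)) p
      (Algebra.TensorProduct.includeRight :
        P ⊗[ZMod p] Fb p →ₐ[ZMod p] P ⊗[ZMod p] (P ⊗[ZMod p] Fb p)) (bser p)
    have k2 := map_tL (A := P ⊗[ZMod p] (P ⊗[ZMod p] Fb p)) p t
      (Algebra.TensorProduct.includeRight :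
        P ⊗[ZMod p] Fb p →ₐ[ZMod p] P ⊗[ZMod p] (P ⊗[ZMod p] Fb p))
    rw [hi3, hi2, ← k1, ← k2, ← map_mul, ← map_psiC_bser, InvSeries.map_map]
    rfl
  rw [e1, e2, mul_assoc]

end

end Vale.Agent.P093.N.Phi
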