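import Vale.Agent.P093.N.PhiCo
import Vale.Agent.P093.N.Co.Basic

/-!
# P093, part N, block N1-PHI: the comodule `F_p[b]` over a quotient Hopf algebra of `P_*`
-/

namespace Vale.Agent.P093.N.Phi

open Vale.Agent.P251.F Vale.Agent.P217 TensorProduct Vale.Agent.P093.N.Co

variable (p : ℕ) [hp : Fact p.Prime] {P : Type} [CommRing P] [Bialgebra (ZMod p) P] (t : ℕ → P)

/-- The structure maps of `P` are those of the group of additive series (`t k` is the usual
`t_{k+1}`, `ext1 t 0 = 1`, `ext1 t (k+1) = t k`). -/
structure IsAddHopf : Prop where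
  comul : ∀ n, Coalgebra.comul (R := ZMod p) (t n) = ∑ j ∈ Finset.range (n + 2),
    (ext1 t (n + 1 - j) ^ p ^ j) ⊗ₜ[ZMod p] ext1 t j
  counit : ∀ n, Coalgebra.counit (R := ZMod p) (t n) = 0

variable {t}

theorem IsAddHopf.phi2C_map_02 (h : IsAddHopf p t) (z : Cob Laz 1) :
    phi2C p t (Cob.map ![0, 2] z) = Coalgebra.comul (R := ZMod p) (phiC p t z) :=
  Phi.phi2C_map_02 p t (Bialgebra.comulAlgHom (ZMod p) P).toRingHom h.comul z

theorem IsAddHopf.counit_phiC (h : IsAddHopf p t) (z : Cob Laz 1) :
    Coalgebra.counit (R := ZMod p) (phiC p t z) =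
      epsC p (Cob.map (fun _ => 0 : Fin 2 → Fin 1) z) :=
  Phi.counit_phiC p t (Bialgebra.counitAlgHom (ZMod p) P).toRingHom h.counit z

theorem map_eps_addSer (h : IsAddHopf p t) :
    InvSeries.map (Bialgebra.counitAlgHom (ZMod p) P).toRingHom (addSer p t) = 1 := by
  rw [map_addSer, ← addSer_zero p (ZMod p)]
  congr 1
  funext n
  exact h.counit n

/-- **The coaction on `F_p[b]`.** -/
theorem IsAddHopf.isCoact_psiC (h : IsAddHopf p t) : IsCoact (psiC p t).toLinearMap where
  coassoc := by
    have h1 := psiC_coassoc p t (Bialgebra.comulAlgHom (ZMod p) P) h.comul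
    apply LinearMap.ext
    intro x
    exact DFunLike.congr_fun h1 x
  counital := by
    have h1 : ((Algebra.TensorProduct.lid (ZMod p) (Fb p)).toAlgHom.comp
        (Algebra.TensorProduct.map (Bialgebra.counitAlgHom (ZMod p) P)
          (AlgHom.id (ZMod p) (Fb p)))).comp (psiC p t) = AlgHom.id (ZMod p) (Fb p) := by
      apply algHom_ext_bser
      set F : P ⊗[ZMod p] Fb p →ₐ[ZMod p] Fb p :=
        (Algebra.TensorProduct.lid (ZMod p) (Fb p)).toAlgHom.comp
        (Algebra.TensorProduct.map (Bialgebra.counitAlgHom (ZMod p) P)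
          (AlgHom.id (ZMod p) (Fb p))) with hF
      have e1 : InvSeries.map (F.comp (psiC p t)).toRingHom (bser p) =
          InvSeries.map F.toRingHom (InvSeries.map (psiC p t).toRingHom (bser p)) := by
        rw [InvSeries.map_map]
        rfl
      rw [e1, map_psiC_bser, map_mul, map_sR, map_tL]
      have e2 : F.comp Algebra.TensorProduct.includeRight = AlgHom.id (ZMod p) (Fb p) := by
        ext n
        simp [hF]
      have e3 : F.comp Algebra.TensorProduct.includeLeft =
          (Algebra.ofId (ZMod p) (Fb p)).comp (Bialgebra.counitAlgHom (ZMod p) P) := by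
        apply AlgHom.ext
        intro x
        simp [hF, Algebra.ofId_apply, Algebra.smul_def]
      rw [e2, e3]
      have e4 : InvSeries.map ((Algebra.ofId (ZMod p) (Fb p)).comp
          (Bialgebra.counitAlgHom (ZMod p) P)).toRingHom (addSer p t) = 1 := by
        have e5 := map_eps_addSer p h
        have e6 := congrArg (InvSeries.map (Algebra.ofId (ZMod p) (Fb p)).toRingHom) e5
        rw [InvSeries.map_map, map_one] at e6
        exact e6
      rw [e4, mul_one]
    apply LinearMap.ext
    intro x
    exact DFunLike.congr_fun h1 x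

/-- **The projection `q` is colinear.** -/
theorem IsAddHopf.colin_qC (h : IsAddHopf p t) :
    Colin (psiC p t).toLinearMap (Coalgebra.comul (R := ZMod p) (A := P))
      (qC p t).toLinearMap := by
  have h1 := map_qC_psiC p t (Bialgebra.comulAlgHom (ZMod p) P) h.comul
  apply LinearMap.ext
  intro x
  exact (DFunLike.congr_fun h1 x).symm

end Vale.Agent.P093.N.Phi
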