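import Vale.Agent.P093.N.PhiCo

/-!
# P093, part N, block N1-PHI: the Hurewicz map `h : Laz → F_p[b]` and the kernel of `q`
-/

namespace Vale.Agent.P093.N.Phi

open Vale.Agent.P251.F Vale.Agent.P217 TensorProduct MvPowerSeries

section

variable (p : ℕ) [hp : Fact p.Prime]

/-- The Hurewicz homomorphism `Laz → F_p[b]`: the law of the generic strict series applied to the
additive law. -/
noncomputable def hC : Laz →+* Fb p := Laz.lift (bser p • addLaw (Fb p))

/-- `h` is the reduction mod `p` of `Laz.toB`. -/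
theorem hC_eq_toB (a : Laz) :
    hC p a = MvPolynomial.map (Int.castRingHom (ZMod p)) (Laz.toB a) := by
  rw [Laz.toB, Laz.map_lift, hC, Laz.bLaw, InvSeries.map_smul, map_addLaw, map_strictMk, bser]
  simp only [MvPolynomial.map_X]

theorem thC_map_one_C (a : Laz) : thC p (Cob.map ![1] (MvPolynomial.C a)) = hC p a := by
  rw [thC, Cob.ev_map_res, Cob.ev_C, Chain.res_pt]
  change LawRing.act (bser p) (Laz.lift (addLaw (Fb p))) a = _
  rw [Laz.act_eq, Laz.univ_map_lift, hC]

theorem thC_map_zero_C (a : Laz) :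
    thC p (Cob.map ![0] (MvPolynomial.C a)) = Laz.lift (addLaw (Fb p)) a := by
  rw [thC, Cob.ev_map_res, ch1_res_zero, Cob.ev_C]
  rfl

/-- every element of `Cob Laz 0` is a constant -/
theorem cob_zero_C (z : Cob Laz 0) : ∃ a : Laz, z = MvPolynomial.C a :=
  ⟨_, MvPolynomial.eq_C_of_isEmpty z⟩

theorem epsC_C (a : Laz) : epsC p (MvPolynomial.C a) = Laz.lift (addLaw (ZMod p)) a := by
  rw [epsC, Cob.ev_C]
  rfl

variable {P : Type} [CommRing P] [Algebra (ZMod p) P] (t : ℕ → P)

/-- **Hurewicz images are primitive.** -/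
theorem psiC_hC (a : Laz) : psiC p t (hC p a) = (1 : P) ⊗ₜ[ZMod p] hC p a := by
  rw [← thC_map_one_C, ← th2C_map_02, ← th2C_map_12, Cob.map_map, Cob.map_map]
  congr 3
  funext i
  fin_cases i
  rfl

theorem qC_hC (a : Laz) :
    qC p t (hC p a) = algebraMap (ZMod p) P (epsC p (MvPolynomial.C a)) := by
  rw [← thC_map_one_C, qC_thC, phiC_map_one]

/-- The ideal generated by the Hurewicz images of the coefficients of the law. -/
noncomputable def hI : Ideal (Fb p) := Ideal.span (Set.range fun ij : ℕ × ℕ => hC p (Laz.a ij.1 ij.2))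

/-- The ideal generated by the `b_m` with `m + 2` not a power of `p`. -/
noncomputable def bI : Ideal (Fb p) :=
  Ideal.span {x | ∃ m, (∀ k, p ^ k ≠ m + 2) ∧ x = MvPolynomial.X m}

theorem lift_addLaw_a (B : Type) [CommRing B] (i j : ℕ) : Laz.lift (addLaw B) (Laz.a i j) = 0 := by
  rw [Laz.lift_a, addLaw_ps, map_add, coeff_X, coeff_X, if_neg, if_neg, add_zero]
  · intro h
    have h1 := DFunLike.congr_fun h 0
    simp at h1
  · intro h
    have h1 := DFunLike.congr_fun h 1
    simp at h1

theorem hI_le_ker : hI p ≤ RingHom.ker (qC p t).toRingHom := by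
  rw [hI, Ideal.span_le]
  rintro _ ⟨ij, rfl⟩
  change qC p t (hC p (Laz.a ij.1 ij.2)) = 0
  rw [qC_hC, epsC_C, lift_addLaw_a, map_zero]

/-- Modulo the Hurewicz images, the generic series is additive. -/
theorem bI_le_hI : bI p ≤ hI p := by
  rw [bI, Ideal.span_le]
  rintro _ ⟨m, hm, rfl⟩
  set π := Ideal.Quotient.mk (hI p) with hπ
  have h1 : InvSeries.map π (bser p) • addLaw (Fb p ⧸ hI p) = addLaw (Fb p ⧸ hI p) := by
    have h2 : (bser p • addLaw (Fb p)).map π = addLaw (Fb p ⧸ hI p) := by
      apply Laz.lift_injective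
      apply Laz.hom_ext
      intro i j
      rw [← Laz.map_lift, lift_addLaw_a]
      exact Ideal.Quotient.eq_zero_iff_mem.2 (Ideal.subset_span ⟨(i, j), rfl⟩)
    rw [InvSeries.map_smul, map_addLaw] at h2
    exact h2
  have h0 : (p : Fb p ⧸ hI p) = 0 := natCast_zero p (Fb p ⧸ hI p)
  have h3 := coeff_eq_zero_of_smul p h0 h1 m hm
  rw [InvSeries.c_map, bser, c_succ_strictMk] at h3
  exact Ideal.Quotient.eq_zero_iff_mem.1 h3

/-- For a polynomial `P` on the `t k`, the kernel of `q` is generated by the `b_m` with `m + 2`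
not a power of `p`. -/
theorem ker_le_bI (s : P →+* Fb p ⧸ bI p)
    (hs : ∀ k, s (t k) = Ideal.Quotient.mk (bI p) (MvPolynomial.X (p ^ (k + 1) - 2))) :
    RingHom.ker (qC p t).toRingHom ≤ bI p := by
  have h1 : s.comp (qC p t).toRingHom = Ideal.Quotient.mk (bI p) := by
    apply MvPolynomial.ringHom_ext
    · intro c
      rw [RingHom.comp_apply]
      have h3 : ∀ (f g : ZMod p →+* Fb p ⧸ bI p), f = g := fun f g => Subsingleton.elim _ _
      exact DFunLike.congr_fun (h3 ((s.comp (qC p t).toRingHom).comp MvPolynomial.C)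
        ((Ideal.Quotient.mk (bI p)).comp MvPolynomial.C)) c
    · intro m
      change s (qC p t (MvPolynomial.X m)) = _
      rw [qC, MvPolynomial.aeval_X]
      by_cases h : ∃ k, p ^ k = m + 2
      · obtain ⟨k, hk⟩ := h
        rcases k with _ | k
        · rw [pow_zero] at hk
          omega
        · have h4 := addSer_c_pow p hp.out.one_lt t k
          have h5 : p ^ (k + 1) - 1 = m + 1 := by omega
          rw [h5] at h4
          rw [h4, hs]
          congr 2
          omega
      · push Not at h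
        rw [addSer_c_of_not p t m h, map_zero]
        exact (Ideal.Quotient.eq_zero_iff_mem.2 (show (MvPolynomial.X m : Fb p) ∈ bI p from
          Ideal.subset_span ⟨m, h, rfl⟩)).symm
  intro x hx
  rw [RingHom.mem_ker] at hx
  have h2 := DFunLike.congr_fun h1 x
  rw [RingHom.comp_apply, hx, map_zero] at h2
  exact Ideal.Quotient.eq_zero_iff_mem.1 h2.symm

/-- **The kernel of `q : F_p[b] → P_*`** is the ideal generated by the Hurewicz images of the
coefficients of the universal law, and also the ideal generated by the `b_m`, `m + 2` not a power of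
`p`. -/
theorem ker_qC (s : P →+* Fb p ⧸ bI p)
    (hs : ∀ k, s (t k) = Ideal.Quotient.mk (bI p) (MvPolynomial.X (p ^ (k + 1) - 2))) :
    RingHom.ker (qC p t).toRingHom = hI p ∧ RingHom.ker (qC p t).toRingHom = bI p :=
  ⟨le_antisymm ((ker_le_bI p t s hs).trans (bI_le_hI p)) (hI_le_ker p t),
    le_antisymm (ker_le_bI p t s hs) ((bI_le_hI p).trans (hI_le_ker p t))⟩

theorem qC_surjective (h : Algebra.adjoin (ZMod p) (Set.range t) = ⊤) :
    Function.Surjective (qC p t) := by
  rw [← AlgHom.range_eq_top, eq_top_iff, ← h, Algebra.adjoin_le_iff]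
  rintro _ ⟨k, rfl⟩
  refine ⟨MvPolynomial.X (p ^ (k + 1) - 2), ?_⟩
  change qC p t _ = _
  rw [qC, MvPolynomial.aeval_X]
  have h1 := addSer_c_pow p hp.out.one_lt t k
  have h2 : 2 ≤ p ^ (k + 1) := by
    calc 2 ≤ p := hp.out.two_le
      _ = p ^ 1 := (pow_one p).symm
      _ ≤ p ^ (k + 1) := Nat.pow_le_pow_right hp.out.pos (by omega)
  rw [show p ^ (k + 1) - 2 + 1 = p ^ (k + 1) - 1 by omega]
  exact h1

theorem thC_C (a : Laz) : thC p (MvPolynomial.C a) = Laz.lift (addLaw (Fb p)) a := by
  rw [thC, Cob.ev_C]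
  rfl

@[simp] theorem thC_X (m : ℕ) : thC p (MvPolynomial.X (0, m)) = MvPolynomial.X m := by
  rw [thC, Cob.ev_X]
  change (bser p).c (m + 1) = _
  rw [bser, c_succ_strictMk]

theorem thC_surjective : Function.Surjective (thC p) := by
  intro y
  induction y using MvPolynomial.induction_on with
  | C c =>
    refine ⟨((c.val : ℕ) : Cob Laz 1), ?_⟩
    rw [map_natCast, ← map_natCast (MvPolynomial.C : ZMod p →+* Fb p)]
    rw [ZMod.natCast_zmod_val]
  | add a b ha hb =>
    obtain ⟨a, rfl⟩ := ha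
    obtain ⟨b, rfl⟩ := hb
    exact ⟨a + b, map_add _ _ _⟩
  | mul_X a n ha =>
    obtain ⟨a, rfl⟩ := ha
    exact ⟨a * MvPolynomial.X (0, n), by rw [map_mul, thC_X]⟩

/-- `lift (addLaw B)` factors through `F_p`. -/
theorem lift_addLaw_eq (B : Type) [CommRing B] [Algebra (ZMod p) B] (a : Laz) :
    Laz.lift (addLaw B) a = algebraMap (ZMod p) B (Laz.lift (addLaw (ZMod p)) a) := by
  rw [Laz.map_lift, map_addLaw]

/-- **The kernel of `θ : Cob Laz 1 → F_p[b]`** is generated by the kernel of the augmentation of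
`Laz` (left unit). -/
theorem ker_thC : RingHom.ker (thC p) =
    (RingHom.ker (Laz.lift (addLaw (ZMod p)))).map (MvPolynomial.C : Laz →+* Cob Laz 1) := by
  have h1 : thC p = (MvPolynomial.rename fun im : Fin 1 × ℕ => im.2).toRingHom.comp
      (MvPolynomial.map (Laz.lift (addLaw (ZMod p)))) := by
    apply MvPolynomial.ringHom_ext
    · intro a
      rw [thC_C, lift_addLaw_eq p]
      simp [MvPolynomial.algebraMap_eq]
    · rintro ⟨i, m⟩
      rw [Subsingleton.elim i 0, thC_X]
      simp
  have h2 : Function.Injective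
      (MvPolynomial.rename fun im : Fin 1 × ℕ => im.2 :
        MvPolynomial (Fin 1 × ℕ) (ZMod p) →ₐ[ZMod p] Fb p) := by
    apply MvPolynomial.rename_injective
    rintro ⟨i, m⟩ ⟨j, n⟩ h
    exact Prod.ext (Subsingleton.elim _ _) h
  rw [← MvPolynomial.ker_map]
  ext x
  rw [RingHom.mem_ker, RingHom.mem_ker, h1, RingHom.comp_apply]
  constructor
  · intro h
    exact h2 (h.trans (map_zero _).symm)
  · intro h
    rw [h, map_zero]

end

end Vale.Agent.P093.N.Phi
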