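import Vale.Agent.P093.N.PhiInst
import Vale.Agent.P093.N.PhiHur
import Vale.Agent.P093.N.PhiGr

/-!
# P093, part N (N1-PHI): the kernel of `π_{2*}(R' ⊗ R') → 𝔽_p[b]` and the Hurewicz homomorphism

For `h : IsMULoc D u p` (`u : MU ⟶ R'` the localization at `p`):

* `thT_surjective`, `ker_thT` : `thT h` is onto and its kernel is the ideal generated by the image of
  the kernel of `χ : π_{2*} R' → 𝔽_p` under the left unit;
* `constantCoeff_thT`, `thT_mem`, `phiT_mem`, `phi2T_mem` (homogeneity);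
* `evR D u : Laz →+* π_{2*} R'`, `hurT h : π_{2*} R' →+* 𝔽_p[b]`, `hurT_evR : hurT (evR a) = hC a`,
  `chi_evR`, `psiC_hurT` (primitivity), `hurT_range`, `exists_hurT_of`, `hurT_mem`.
-/

open CategoryTheory MonoidalCategory Limits Pretriangulated MonObj Preadditive TensorProduct
open Vale.Agent.P251.I Vale.Agent.P251.T Vale.Agent.P251.F Vale.Agent.P251.S Vale.Agent.P251.M
open Vale.Agent.P251.M.EvenSpheres Vale.Agent.P093.PLoc Vale.Agent.P093.N0
open Vale.Agent.P093.N.Phi Vale.Agent.P093.N.HH Vale.Agent.P251.X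

universe v u

set_option linter.unusedSectionVars false

noncomputable section

namespace Vale.Agent.P093.N.PhiT

variable {T : Type u} [Category.{v} T] [Preadditive T] [HasZeroObject T]
    [HasShift T ℤ] [∀ n : ℤ, (shiftFunctor T n).Additive] [Pretriangulated T] [IsTriangulated T]
    [MonoidalCategory T] [SymmetricCategory T] [TensorTriangulated T] [MonoidalClosed T]
    [HasCoproducts.{0} T] [HasProducts.{0} T] [StableCat T]

/-! ### `R^{⊗ 1}` -/

section one

variable {R' : T} [MonObj R'] [IsCommMonObj R']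

theorem v_lift_one : Am.v R' (0 : Fin 1) ≫ Am.lift (fun _ : Fin 1 => 𝟙 R') = 𝟙 R' :=
  Am.v_lift _ 0

theorem lift_one_v : Am.lift (fun _ : Fin 1 => 𝟙 R') ≫ Am.v R' (0 : Fin 1) = 𝟙 (Am R' 1) := by
  apply Am.hom_ext
  intro i
  rw [Am.v_lift_assoc, Category.id_comp, Category.comp_id, Subsingleton.elim i 0]

/-- `π_{2*}(R'^{⊗ 1}) → π_{2*} R'`. -/
def dn : HRing (stdEven T) (Am R' 1) →+* HRing (stdEven T) R' :=
  HRing.map (E := stdEven T) (Am.lift fun _ : Fin 1 => 𝟙 R')

theorem HRing_map_id (x : HRing (stdEven T) R') :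
    HRing.map (E := stdEven T) (𝟙 R') x = x := by
  induction x using DirectSum.induction_on with
  | zero => exact _root_.map_zero _
  | of k a =>
    refine (HRing.map_of (E := stdEven T) (𝟙 R') k a).trans ?_
    rw [Category.comp_id]
  | add x y hx hy => rw [_root_.map_add, hx, hy]

theorem dn_v (x : HRing (stdEven T) R') :
    dn (HRing.map (E := stdEven T) (Am.v R' (0 : Fin 1)) x) = x :=
  (CoDat.HRing_map_map _ _ (𝟙 R') v_lift_one x).trans (HRing_map_id x)

theorem v_dn (x : HRing (stdEven T) (Am R' 1)) :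
    HRing.map (E := stdEven T) (Am.v R' (0 : Fin 1)) (dn x) = x :=
  (CoDat.HRing_map_map _ _ (𝟙 (Am R' 1)) lift_one_v x).trans
    (HRing_map_id (R' := Am R' 1) x)

theorem v_map_dn {n : ℕ} (i : Fin n) (x : HRing (stdEven T) (Am R' 1)) :
    HRing.map (E := stdEven T) (Am.v R' i) (dn x) =
      HRing.map (E := stdEven T) (Am.map R' fun _ : Fin 1 => i) x := by
  refine CoDat.HRing_map_map _ _ (Am.map R' fun _ : Fin 1 => i) ?_ x
  apply Am.hom_ext
  intro j
  rw [Am.v_lift_assoc, Category.id_comp, Am.v_map]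

end one

variable {D : MUData T} {R' : T} [MonObj R'] [IsCommMonObj R'] {u : D.R ⟶ R'} [IsMonHom u]
  {p : ℕ} [hpf : Fact p.Prime]

/-- The ring homomorphism `Laz → π_{2*} R'`. -/
def evR (D : MUData T) {R' : T} [MonObj R'] [IsCommMonObj R'] (u : D.R ⟶ R') [IsMonHom u] :
    Laz →+* HRing (stdEven T) R' :=
  dn.comp ((evP D u 0).comp (MvPolynomial.C : Laz →+* Cob Laz 0))

theorem evR_apply (a : Laz) : evR D u a = dn (evP D u 0 (MvPolynomial.C a)) := rfl

theorem map_v_evR {n : ℕ} (i : Fin (n + 1)) (a : Laz) :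
    HRing.map (E := stdEven T) (Am.v R' i) (evR D u a) =
      evP D u n (Cob.map (fun _ => i) (MvPolynomial.C a : Cob Laz 0)) := by
  rw [evR_apply, v_map_dn, ← evP_map]

/-- A homogeneous element of `Laz` goes to a homogeneous element. -/
theorem evR_wt (w : ℤ) (a : Laz) (ha : Cob.IsWt w (MvPolynomial.C a : Cob Laz 0)) :
    ∃ x : (stdEven T).S w ⟶ R', evR D u a = HRing.of (stdEven T) R' w x := by
  obtain ⟨x, hx⟩ := evP_wt D u 0 w _ ha
  refine ⟨x ≫ Am.lift fun _ : Fin 1 => 𝟙 R', ?_⟩
  rw [evR_apply, hx]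
  exact HRing.map_of _ w x

variable (h : IsMULoc D u p)

/-! ### The kernel of `thT` -/

@[simp] theorem thT_evP (z : Cob Laz 1) : thT h (evP D u 1 z) = thC p z :=
  extP_evP h (thC p) _ z

theorem thT_surjective : Function.Surjective (thT h) := by
  intro y
  obtain ⟨z, rfl⟩ := thC_surjective p y
  exact ⟨evP D u 1 z, thT_evP h z⟩

theorem chi_evR (a : Laz) : (pt h).χ (evR D u a) = Laz.lift (addLaw (ZMod p)) a := by
  rw [pt_χ, chi_apply, map_v_evR, extP_evP]
  have h1 : Cob.map (fun _ : Fin 1 => (0 : Fin 1)) (MvPolynomial.C a : Cob Laz 0) =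
      MvPolynomial.C a := by
    have h2 : (fun _ : Fin 1 => (0 : Fin 1)) = id := by
      funext i
      exact Subsingleton.elim _ _
    rw [h2, Cob.map_id]
  rw [h1, epsC_C]

/-- **The kernel of `π_{2*}(R' ⊗ R') → 𝔽_p[b]`.** -/
theorem ker_thT : RingHom.ker (thT h) =
    (RingHom.ker (pt h).χ).map (HRing.map (E := stdEven T) (Am.v R' (0 : Fin 2))) := by
  apply le_antisymm
  · intro x hx
    rw [RingHom.mem_ker] at hx
    obtain ⟨z, y, rfl⟩ := (h.isoMod 1).surj x
    rw [_root_.map_add, thT_evP, _root_.map_nsmul, nsmul_eq_mul, natCast_zero p (Fb p),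
      zero_mul, add_zero] at hx
    refine Ideal.add_mem _ ?_ ?_
    · have h1 : z ∈ (RingHom.ker (Laz.lift (addLaw (ZMod p)))).map
          (MvPolynomial.C : Laz →+* Cob Laz 1) := by
        rw [← ker_thC, RingHom.mem_ker]
        exact hx
      have h2 := Ideal.mem_map_of_mem (evP D u 1) h1
      rw [Ideal.map_map] at h2
      refine Ideal.map_le_iff_le_comap.2 ?_ h2
      intro a ha
      rw [RingHom.mem_ker] at ha
      have h3 : evP D u 1 (MvPolynomial.C a) =
          HRing.map (E := stdEven T) (Am.v R' (0 : Fin 2)) (evR D u a) := by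
        rw [map_v_evR]
        congr 1
        exact (Cob.map_C_of_zero _ rfl a).symm
      rw [Ideal.mem_comap, RingHom.comp_apply, h3]
      apply Ideal.mem_map_of_mem
      rw [RingHom.mem_ker, chi_evR, ha]
    · have h1 : p • y = HRing.map (E := stdEven T) (Am.v R' (0 : Fin 2))
          (p : HRing (stdEven T) R') * y := by
        rw [map_natCast, nsmul_eq_mul]
      rw [h1]
      refine Ideal.mul_mem_right _ _ (Ideal.mem_map_of_mem _ ?_)
      rw [RingHom.mem_ker, map_natCast, ZMod.natCast_self]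
  · rw [Ideal.map_le_iff_le_comap]
    intro a ha
    rw [RingHom.mem_ker] at ha
    rw [Ideal.mem_comap, RingHom.mem_ker, thT_v₀, ha, _root_.map_zero]

/-! ### The constant term -/

theorem counit_thC (z : Cob Laz 1) :
    epsC p (Cob.map (fun _ : Fin 2 => (0 : Fin 1)) z) = MvPolynomial.constantCoeff (thC p z) := by
  have h1 : (ch1 (bser p) (bser_mem p)).map (MvPolynomial.constantCoeff : Fb p →+* ZMod p) =
      (ch0 (ZMod p)).res fun _ : Fin 2 => (0 : Fin 1) := by
    rw [ch1_map]
    have h2 : InvSeries.map (MvPolynomial.constantCoeff : Fb p →+* ZMod p) (bser p) = 1 := by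
      rw [bser, map_strictMk]
      have h3 : (fun n => (MvPolynomial.constantCoeff : Fb p →+* ZMod p)
          ((MvPolynomial.X n : Fb p))) = fun _ : ℕ => (0 : ZMod p) :=
        funext fun n => MvPolynomial.constantCoeff_X (ZMod p) n
      rw [h3]
      have h4 : (1 : InvSeries (ZMod p)) ∈ strict (ZMod p) := one_mem _
      rw [← strictMk_c h4]
      congr 1
      funext m
      change (0 : ZMod p) = PowerSeries.coeff (m + 1 + 1) (PowerSeries.X : PowerSeries (ZMod p))
      rw [PowerSeries.coeff_X, if_neg (by omega)]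
    refine chain_ext ?_ fun i => ?_
    · change _ = LawRing.act 1 _
      exact (LawRing.act_one _).symm
    · fin_cases i
      · change (1 : InvSeries (ZMod p)) = 1 * 1⁻¹
        group
      · change InvSeries.map _ (bser p) = 1 * 1⁻¹
        rw [h2]
        group
  rw [epsC, Cob.ev_map_res, ← h1, Cob.ev_map]
  rfl

/-- The constant coefficient of `thT z` is the value of `χ` at the product of `z`. -/
theorem constantCoeff_thT (z : HRing (stdEven T) (Am R' 2)) :
    MvPolynomial.constantCoeff (thT h z) =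
      (pt h).χ (HRing.map (E := stdEven T) (Am.lift fun _ : Fin 2 => 𝟙 R') z) := by
  have h1 := extP_map h (thC p) (natCast_zero p (Fb p)) (fun _ : Fin 2 => (0 : Fin 1)) (epsC p)
    (natCast_zero p (ZMod p)) (MvPolynomial.constantCoeff : Fb p →+* ZMod p) counit_thC z
  refine h1.symm.trans ?_
  rw [pt_χ, chi_apply]
  congr 1
  refine (CoDat.HRing_map_map _ _ _ ?_ z).symm
  apply Am.hom_ext
  intro i
  rw [Am.v_lift_assoc, Category.id_comp, Am.v_map]

/-! ### Homogeneity -/

/-- A homogeneous value of a homogeneous homomorphism is the value at a homogeneous element. -/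
theorem apply_proj {n : ℕ} (f : Cob Laz n →+* Fb p)
    (hf : ∀ v z, Cob.IsWt v z → f z ∈ zgr (bgr p) v) {w : ℤ} {z : Cob Laz n}
    (hz : f z ∈ zgr (bgr p) w) : f (Cob.proj w z) = f z := by
  rcases w with w | w
  · have h1 := congrArg f (Cob.sum_proj z)
    rw [_root_.map_sum] at h1
    have h2 := congrArg (MvPolynomial.weightedHomogeneousComponent (R := ZMod p)
      (fun m : ℕ => m + 1) w) h1
    rw [_root_.map_sum] at h2
    have h3 : MvPolynomial.weightedHomogeneousComponent (R := ZMod p) (fun m : ℕ => m + 1) w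
        (f z) = f z :=
      MvPolynomial.IsWeightedHomogeneous.weightedHomogeneousComponent_same hz
    rw [h3] at h2
    rw [← h2]
    have h4 : ∀ v : ℤ, v ≠ Int.ofNat w → MvPolynomial.weightedHomogeneousComponent (R := ZMod p)
        (fun m : ℕ => m + 1) w (f (Cob.proj v z)) = 0 := by
      intro v hv
      have h5 := hf v _ (Cob.isWt_proj v z)
      rcases v with v | v
      · exact MvPolynomial.IsWeightedHomogeneous.weightedHomogeneousComponent_ne w
          (show MvPolynomial.IsWeightedHomogeneous _ _ v from h5) (fun h6 => hv (by rw [h6]))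
      · have h6 : f (Cob.proj (Int.negSucc v) z) = 0 := h5
        rw [h6, _root_.map_zero]
    by_cases hw : (Int.ofNat w) ∈ Cob.wts z
    · rw [Finset.sum_eq_single (Int.ofNat w) (fun v _ hv => h4 v hv) (fun h6 => absurd hw h6)]
      exact (MvPolynomial.IsWeightedHomogeneous.weightedHomogeneousComponent_same
        (show MvPolynomial.IsWeightedHomogeneous _ _ w from
          hf (Int.ofNat w) _ (Cob.isWt_proj (Int.ofNat w) z))).symm
    · rw [Cob.proj_eq_zero hw, _root_.map_zero]
      refine (Finset.sum_eq_zero fun v hv => h4 v ?_).symm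
      rintro rfl
      exact hw hv
  · have h1 : f z = 0 := hz
    rw [h1]
    exact hf (Int.negSucc w) _ (Cob.isWt_proj _ z)

theorem thT_mem (w : ℤ) (a : (stdEven T).S w ⟶ Am R' 2) :
    thT h (HRing.of (stdEven T) (Am R' 2) w a) ∈ zgr (bgr p) w :=
  extP_mem h (thC p) (natCast_zero p (Fb p)) (V := fun w => (zgr (bgr p) w : Set (Fb p)))
    (fun _ _ hz => thC_mem p hz) w a

/-- Conversely, a homogeneous element of `𝔽_p[b]` is the image of a homogeneous element. -/
theorem exists_thT_of (w : ℤ) (y : Fb p) (hy : y ∈ zgr (bgr p) w) :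
    ∃ a : (stdEven T).S w ⟶ Am R' 2, thT h (HRing.of (stdEven T) (Am R' 2) w a) = y := by
  obtain ⟨z, rfl⟩ := thC_surjective p y
  obtain ⟨a, ha⟩ := evP_wt D u 1 w _ (Cob.isWt_proj w z)
  refine ⟨a, ?_⟩
  rw [← ha, thT_evP]
  exact apply_proj (thC p) (fun _ _ hz => thC_mem p hz) hy

theorem phiT_mem {P : Type} [CommRing P] [Algebra (ZMod p) P] (t : ℕ → P)
    {𝒜 : ℕ → Submodule (ZMod p) P} [SetLike.GradedMonoid 𝒜] (ht : ∀ k, t k ∈ 𝒜 (p ^ (k + 1) - 1))
    (w : ℤ) (a : (stdEven T).S w ⟶ Am R' 2) :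
    phiT h t (HRing.of (stdEven T) (Am R' 2) w a) ∈ zgr 𝒜 w :=
  extP_mem h (phiC p t) (natCast_zero p P) (V := fun w => (zgr 𝒜 w : Set P))
    (fun _ _ hz => phiC_mem p (SetLike.one_mem_graded (A := 𝒜))
      (fun i j a b ha hb => zgr_mul i j a b ha hb) ht hz) w a

/-! ### The Hurewicz homomorphism -/

/-- The Hurewicz homomorphism `π_{2*} R' → H_{2*}(R') = 𝔽_p[b]`. -/
def hurT : HRing (stdEven T) R' →+* Fb p :=
  (thT h).comp (HRing.map (E := stdEven T) (Am.v R' (1 : Fin 2)))

theorem hurT_apply (a : HRing (stdEven T) R') :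
    hurT h a = thT h (HRing.map (E := stdEven T) (Am.v R' (1 : Fin 2)) a) := rfl

theorem hurT_evR (a : Laz) : hurT h (evR D u a) = hC p a := by
  rw [hurT_apply, map_v_evR, thT_evP, ← cons_zero_eq, thC_map_one_C]

/-- Every value of `hurT` is a value of `hC`. -/
theorem exists_hC (x : HRing (stdEven T) R') :
    ∃ a : Laz, hurT h x = hC p a ∧ (pt h).χ x = Laz.lift (addLaw (ZMod p)) a := by
  obtain ⟨z, y, hx⟩ := (h.isoMod 0).surj (HRing.map (E := stdEven T) (Am.v R' (0 : Fin 1)) x)
  obtain ⟨a, rfl⟩ := cob_zero_C z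
  refine ⟨a, ?_, ?_⟩
  · rw [← hurT_evR h a, hurT_apply, hurT_apply]
    have h1 : x = evR D u a + p • dn y := by
      rw [← dn_v x, hx, _root_.map_add, _root_.map_nsmul, evR_apply]
    rw [h1, _root_.map_add, _root_.map_add, _root_.map_nsmul, _root_.map_nsmul,
      nsmul_eq_mul (n := p), natCast_zero p (Fb p), zero_mul, add_zero]
  · have h1 : x = evR D u a + p • dn y := by
      rw [← dn_v x, hx, _root_.map_add, _root_.map_nsmul, evR_apply]
    rw [h1, _root_.map_add, _root_.map_nsmul, chi_evR, nsmul_eq_mul, ZMod.natCast_self, zero_mul,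
      add_zero]

theorem range_hurT : (hurT h).range = (hC p).range := by
  ext y
  constructor
  · rintro ⟨x, rfl⟩
    obtain ⟨a, ha, -⟩ := exists_hC h x
    exact ⟨a, ha.symm⟩
  · rintro ⟨a, rfl⟩
    exact ⟨evR D u a, hurT_evR h a⟩

theorem hurT_mem (w : ℤ) (x : (stdEven T).S w ⟶ R') :
    hurT h (HRing.of (stdEven T) R' w x) ∈ zgr (bgr p) w := by
  rw [hurT_apply, HRing.map_of]
  exact thT_mem h w _

theorem hC_mem' {w : ℤ} {z : Cob Laz 0} (hz : Cob.IsWt w z) :
    ((thC p).comp (Cob.map (![1] : Fin 1 → Fin 2))) z ∈ zgr (bgr p) w :=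
  thC_mem p (hz.map _)

/-- Every homogeneous value of `hC` is the Hurewicz image of a homotopy class, with the
corresponding value of `χ`. -/
theorem exists_hurT_of (w : ℤ) (a : Laz) (ha : hC p a ∈ zgr (bgr p) w) :
    ∃ x : (stdEven T).S w ⟶ R', hurT h (HRing.of (stdEven T) R' w x) = hC p a := by
  obtain ⟨b, hb⟩ := cob_zero_C (Cob.proj w (MvPolynomial.C a : Cob Laz 0))
  have h1 := Cob.isWt_proj w (MvPolynomial.C a : Cob Laz 0)
  rw [hb] at h1
  obtain ⟨x, hx⟩ := evR_wt (D := D) (u := u) w b h1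
  refine ⟨x, ?_⟩
  rw [← hx, hurT_evR, ← thC_map_one_C, ← hb, ← thC_map_one_C]
  refine apply_proj ((thC p).comp (Cob.map (![1] : Fin 1 → Fin 2))) (fun _ _ hz => hC_mem' hz) ?_
  rw [RingHom.comp_apply, thC_map_one_C]
  exact ha

/-- `q ∘ θ = φ`. -/
theorem qC_thT {P : Type} [CommRing P] [Algebra (ZMod p) P] (t : ℕ → P)
    (z : HRing (stdEven T) (Am R' 2)) : qC p t (thT h z) = phiT h t z := by
  have h1 : (qC p t).toRingHom.comp (thT h) = phiT h t :=
    extP_unique h (phiC p t) (natCast_zero p P) fun z => by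
      rw [RingHom.comp_apply, thT_evP]
      exact qC_thC p t z
  exact congrArg (fun f : HRing (stdEven T) (Am R' 2) →+* P => f z) h1

theorem qC_hurT {P : Type} [CommRing P] [Algebra (ZMod p) P] (t : ℕ → P)
    (a : HRing (stdEven T) R') :
    qC p t (hurT h a) = algebraMap (ZMod p) P ((pt h).χ a) := by
  rw [hurT_apply, qC_thT, phiT_v₁]

/-- **Hurewicz images are primitive.** -/
theorem psiC_hurT {P : Type} [CommRing P] [Algebra (ZMod p) P] (t : ℕ → P)
    (a : HRing (stdEven T) R') :
    psiC p t (hurT h a) = (1 : P) ⊗ₜ[ZMod p] hurT h a := by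
  obtain ⟨b, hb, -⟩ := exists_hC h a
  rw [hb, psiC_hC]

theorem constantCoeff_hurT (a : HRing (stdEven T) R') :
    MvPolynomial.constantCoeff (hurT h a) = (pt h).χ a := by
  rw [hurT_apply, constantCoeff_thT]
  congr 1
  exact (CoDat.HRing_map_map _ _ (𝟙 R') (Am.v_lift _ 1) a).trans (HRing_map_id a)

end Vale.Agent.P093.N.PhiT
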