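import Vale.Agent.P093.N.PhiCoact
import Vale.Agent.P093.N.PhiHur
import Vale.Agent.P093.N.Hopf

/-!
# P093, part N, block N1-PHI: the instances `P_* = PS p` and quotients
-/

namespace Vale.Agent.P093.N.Phi

open Vale.Agent.P251.F Vale.Agent.P217 TensorProduct Vale.Agent.P093.N.Co

variable (p : ℕ) [hp : Fact p.Prime]

section Quot

variable {P P' : Type} [CommRing P] [Bialgebra (ZMod p) P] [CommRing P'] [Bialgebra (ZMod p) P']
  {t : ℕ → P}

theorem ext1_map {A B : Type*} [CommRing A] [CommRing B] {F : Type*} [FunLike F A B]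
    [RingHomClass F A B] (f : F) (t : ℕ → A) (n : ℕ) :
    f (ext1 t n) = ext1 (fun k => f (t k)) n := by
  rcases n with _ | n
  · exact map_one f
  · rfl

/-- Bialgebra homomorphisms preserve `IsAddHopf`. -/
theorem IsAddHopf.map (h : IsAddHopf p t) (π : P →ₐc[ZMod p] P') :
    IsAddHopf p (fun k => π (t k)) where
  comul n := by
    have h1 := CoalgHomClass.map_comp_comul_apply π (t n)
    rw [← h1, h.comul, map_sum]
    refine Finset.sum_congr rfl fun j _ => ?_
    rw [TensorProduct.map_tmul]
    congr 1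
    · change π (ext1 t (n + 1 - j) ^ p ^ j) = _
      rw [map_pow, ext1_map]
    · exact ext1_map π t j
  counit n := by
    have h1 := CoalgHomClass.counit_comp_apply π (t n)
    rw [h1, h.counit]

theorem phiC_map {P P' : Type} [CommRing P] [Algebra (ZMod p) P] [CommRing P']
    [Algebra (ZMod p) P'] (t : ℕ → P) (π : P →ₐ[ZMod p] P') (z : Cob Laz 1) :
    phiC p (fun k => π (t k)) z = π (phiC p t z) := by
  change _ = π.toRingHom (phiC p t z)
  rw [phiC, phiC, ← Cob.ev_map, ch1_map]
  congr 1
  refine congrArg _ (ch1_congr _ _ ?_)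
  exact (map_addSer π.toRingHom p t).symm

theorem qC_map {P P' : Type} [CommRing P] [Algebra (ZMod p) P] [CommRing P']
    [Algebra (ZMod p) P'] (t : ℕ → P) (π : P →ₐ[ZMod p] P') :
    qC p (fun k => π (t k)) = π.comp (qC p t) := by
  apply MvPolynomial.algHom_ext
  intro m
  rw [qC, MvPolynomial.aeval_X, AlgHom.comp_apply, qC, MvPolynomial.aeval_X]
  have h := map_addSer π.toRingHom p t
  have h1 := congrArg (fun s => InvSeries.c s (m + 1)) h
  simp only [InvSeries.c_map] at h1
  exact h1.symm

theorem psiC_map {P P' : Type} [CommRing P] [Algebra (ZMod p) P] [CommRing P']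
    [Algebra (ZMod p) P'] (t : ℕ → P) (π : P →ₐ[ZMod p] P') :
    psiC p (fun k => π (t k)) =
      (Algebra.TensorProduct.map π (AlgHom.id (ZMod p) (Fb p))).comp (psiC p t) := by
  refine algHom_ext_bser p (A := P' ⊗[ZMod p] Fb p) ?_
  have h2 : InvSeries.map (B := P' ⊗[ZMod p] Fb p)
      ((Algebra.TensorProduct.map π (AlgHom.id (ZMod p) (Fb p))).comp
      (psiC p t)).toRingHom (bser p) = InvSeries.map (A := P ⊗[ZMod p] Fb p)
        (B := P' ⊗[ZMod p] Fb p)
        (Algebra.TensorProduct.map π (AlgHom.id (ZMod p) (Fb p))).toRingHom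
        (InvSeries.map (psiC p t).toRingHom (bser p)) := by
    rw [InvSeries.map_map]
    rfl
  refine Eq.trans ?_ h2.symm
  rw [map_psiC_bser, map_psiC_bser, map_mul,
    map_sR (A := P' ⊗[ZMod p] Fb p) p _ (bser p), map_tL (A := P' ⊗[ZMod p] Fb p) p t _]
  congr 1
  · rw [sR]
    congr 2
    ext n
    · simp
    · change (1 : P') ⊗ₜ[ZMod p] (MvPolynomial.X n : Fb p) =
        (Algebra.TensorProduct.map π (AlgHom.id (ZMod p) (Fb p)))
          ((1 : P) ⊗ₜ[ZMod p] (MvPolynomial.X n : Fb p))
      rw [Algebra.TensorProduct.map_tmul, map_one]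
      rfl
  · rw [tL_eq]
    have h3 := map_addSer π.toRingHom p t
    have h4 : (addSer p fun k => π (t k)) = InvSeries.map π.toRingHom (addSer p t) := h3.symm
    rw [h4, InvSeries.map_map]
    congr 2

end Quot

section PS

/-- the sequence `t_1, t_2, …` of `P_*` -/
noncomputable def tPS (k : ℕ) : PS p := PS.t p (k + 1)

theorem ext1_tPS (n : ℕ) : ext1 (tPS p) n = PS.t p n := by
  rcases n with _ | n <;> rfl

/-- **`P_*` is the Hopf algebra of additive series.** -/
theorem isAddHopf_PS : IsAddHopf p (tPS p) where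
  comul n := by
    rw [tPS, PS.comul_t, Finset.Nat.sum_antidiagonal_eq_sum_range_succ_mk,
      ← Finset.sum_range_reflect]
    refine Finset.sum_congr rfl fun j hj => ?_
    rw [Finset.mem_range] at hj
    have h1 : n + 1 + 1 - 1 - j = n + 1 - j := by omega
    have h2 : n + 1 - (n + 1 - j) = j := by omega
    rw [h1, ext1_tPS, ext1_tPS]
    simp only [h2]
  counit n := PS.counit_t_succ p n

theorem adjoin_tPS : Algebra.adjoin (ZMod p) (Set.range (tPS p)) = ⊤ := by
  rw [eq_top_iff]
  rintro x -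
  induction x using PS.induction_on with
  | C a => exact Subalgebra.algebraMap_mem _ a
  | add x y hx hy => exact Subalgebra.add_mem _ hx hy
  | mul_t x k hx => exact Subalgebra.mul_mem _ hx (Algebra.subset_adjoin ⟨k, rfl⟩)

theorem qC_PS_surjective : Function.Surjective (qC p (tPS p)) :=
  qC_surjective p _ (adjoin_tPS p)

/-- **The kernel of `F_p[b] → P_*`.** -/
theorem ker_qC_PS : RingHom.ker (qC p (tPS p)).toRingHom = hI p ∧
    RingHom.ker (qC p (tPS p)).toRingHom = bI p :=
  ker_qC p (tPS p) (PS.lift (A := Fb p ⧸ bI p) fun k =>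
    Ideal.Quotient.mk (bI p) (MvPolynomial.X (p ^ (k + 1) - 2))).toRingHom
    (fun k => PS.lift_t_succ _ k)

end PS

end Vale.Agent.P093.N.Phi
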