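import Vale.Agent.P251.F.LazPoly

/-!
# P093, part N, block N1-PHI: strict automorphisms of the additive law in characteristic `p`

`addSer p t = x + t_0 x^p + t_1 x^(p^2) + …`; these are exactly the strict automorphisms of the
additive law over a ring of characteristic `p`.
-/

namespace Vale.Agent.P093.N.Phi

open Vale.Agent.P251.F Vale.Agent.P217 MvPowerSeries

variable {A B C : Type*} [CommRing A] [CommRing B] [CommRing C]

section Defs

/-- The series `x + t_0 x^p + t_1 x^(p^2) + …`. -/
noncomputable def addSer (p : ℕ) (t : ℕ → B) : InvSeries B :=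
  strictMk fun m => if p ^ (Nat.log p (m + 2)) = m + 2 then t (Nat.log p (m + 2) - 1) else 0

theorem addSer_mem (p : ℕ) (t : ℕ → B) : addSer p t ∈ strict B := strictMk_mem _

theorem map_addSer (φ : A →+* B) (p : ℕ) (t : ℕ → A) :
    InvSeries.map φ (addSer p t) = addSer p (fun n => φ (t n)) := by
  rw [addSer, map_strictMk, addSer]
  congr 1
  funext m
  split_ifs <;> simp

theorem addSer_c_pow (p : ℕ) (hp : 1 < p) (t : ℕ → B) (k : ℕ) :
    (addSer p t).c (p ^ (k + 1) - 1) = t k := by
  have h2 : 2 ≤ p ^ (k + 1) := by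
    calc 2 ≤ p := hp
      _ = p ^ 1 := (pow_one p).symm
      _ ≤ p ^ (k + 1) := Nat.pow_le_pow_right (by omega) (by omega)
  obtain ⟨m, hm⟩ : ∃ m, p ^ (k + 1) = m + 2 := ⟨p ^ (k + 1) - 2, by omega⟩
  have hl : Nat.log p (m + 2) = k + 1 := by rw [← hm, Nat.log_pow hp]
  rw [hm, show m + 2 - 1 = m + 1 by omega, addSer, c_succ_strictMk, hl, if_pos hm,
    Nat.add_sub_cancel]

theorem addSer_c_of_not (p : ℕ) (t : ℕ → B) (m : ℕ) (h : ∀ k, p ^ k ≠ m + 2) :
    (addSer p t).c (m + 1) = 0 := by
  rw [addSer, c_succ_strictMk, if_neg (h _)]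

theorem coeff_addSer_of_not (p : ℕ) (t : ℕ → B) (m : ℕ) (h : ∀ k, p ^ k ≠ m) :
    PowerSeries.coeff m (addSer p t).val = 0 := by
  rcases m with _ | _ | m
  · rw [PowerSeries.coeff_zero_eq_constantCoeff_apply, (addSer p t).cc]
  · exact absurd (pow_zero p) (h 0)
  · exact addSer_c_of_not p t m h

theorem coeff_addSer_pow_succ (p : ℕ) (hp : 1 < p) (t : ℕ → B) (k : ℕ) :
    PowerSeries.coeff (p ^ (k + 1)) (addSer p t).val = t k := by
  have h2 : 1 ≤ p ^ (k + 1) := Nat.one_le_pow _ _ (by omega)
  have h := addSer_c_pow p hp t k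
  rw [InvSeries.c, Nat.sub_add_cancel h2] at h
  exact h

theorem coeff_addSer_one (p : ℕ) (t : ℕ → B) :
    PowerSeries.coeff 1 (addSer p t).val = 1 := addSer_mem p t

/-- `t_{-1} = 1`, shifted indices -/
def ext1 (t : ℕ → B) : ℕ → B
  | 0 => 1
  | n + 1 => t n

theorem coeff_addSer_pow (p : ℕ) (hp : 1 < p) (t : ℕ → B) (k : ℕ) :
    PowerSeries.coeff (p ^ k) (addSer p t).val = ext1 t k := by
  rcases k with _ | k
  · rw [pow_zero]
    exact coeff_addSer_one p t
  · exact coeff_addSer_pow_succ p hp t k

/-- Two strict series agree if the coefficients agree. -/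
theorem eq_addSer (p : ℕ) (hp : 1 < p) {f : InvSeries B} (hf : f ∈ strict B) (t : ℕ → B)
    (h1 : ∀ m, (∀ k, p ^ k ≠ m + 2) → f.c (m + 1) = 0)
    (h2 : ∀ k, PowerSeries.coeff (p ^ (k + 1)) f.val = t k) : f = addSer p t := by
  apply InvSeries.ext_c
  intro n
  rcases n with _ | m
  · rw [mem_strict.1 hf, mem_strict.1 (addSer_mem p t)]
  · by_cases h : ∃ k, p ^ k = m + 2
    · obtain ⟨k, hk⟩ := h
      rcases k with _ | k
      · rw [pow_zero] at hk
        omega
      · have h3 := h2 k
        have h4 := coeff_addSer_pow_succ p hp t k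
        rw [hk] at h3 h4
        exact h3.trans h4.symm
    · push Not at h
      rw [h1 m h, addSer_c_of_not p t m h]

end Defs

section CharP

variable (p : ℕ) [hp : Fact p.Prime] [CharP B p]

omit hp in
theorem charP_mvPowerSeries {σ : Type*} : CharP (MvPowerSeries σ B) p :=
  charP_of_injective_ringHom (f := (MvPowerSeries.C : B →+* MvPowerSeries σ B))
    (fun a b hab => by simpa using congrArg (MvPowerSeries.constantCoeff) hab) p

/-- `x + t_0 x^p + …` is additive. -/
theorem isHom_addSer (t : ℕ → B) :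
    IsHom (addLaw B).toFG (addLaw B).toFG (addSer p t).val := by
  refine ⟨(addSer p t).cc, ?_⟩
  have hX : ∀ i : Fin 2, PowerSeries.HasSubst (X i : MvPowerSeries (Fin 2) B) :=
    fun i => hasSubst_of_cc (by simp)
  have hS : PowerSeries.HasSubst (X 0 + X 1 : MvPowerSeries (Fin 2) B) :=
    hasSubst_of_cc (by simp)
  set T := (addSer p t).val with hT
  have h1 : (PowerSeries.subst (X 0 + X 1 : MvPowerSeries (Fin 2) B) T :
      MvPowerSeries (Fin 2) B) = PowerSeries.subst (X 0 : MvPowerSeries (Fin 2) B) T +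
        PowerSeries.subst (X 1 : MvPowerSeries (Fin 2) B) T := by
    have : CharP (MvPowerSeries (Fin 2) B) p := charP_mvPowerSeries p
    ext d
    rw [map_add, PowerSeries.coeff_subst hS, PowerSeries.coeff_subst (hX 0),
      PowerSeries.coeff_subst (hX 1),
      ← finsum_add_distrib (PowerSeries.coeff_subst_finite (hX 0) T d)
        (PowerSeries.coeff_subst_finite (hX 1) T d)]
    refine finsum_congr fun n => ?_
    by_cases h : ∃ k, p ^ k = n
    · obtain ⟨k, rfl⟩ := h
      rw [add_pow_char_pow, map_add, smul_add]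
    · push Not at h
      rw [hT, coeff_addSer_of_not p t n h]
      simp
  have h2 : (MvPowerSeries.subst
        ![(PowerSeries.subst (X 0 : MvPowerSeries (Fin 2) B) T : MvPowerSeries (Fin 2) B),
          (PowerSeries.subst (X 1 : MvPowerSeries (Fin 2) B) T : MvPowerSeries (Fin 2) B)]
        (X 0 + X 1 : MvPowerSeries (Fin 2) B) : MvPowerSeries (Fin 2) B) =
      PowerSeries.subst (X 0 : MvPowerSeries (Fin 2) B) T +
        PowerSeries.subst (X 1 : MvPowerSeries (Fin 2) B) T := by
    have hs : ∀ i : Fin 2, PowerSeries.HasSubst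
        (PowerSeries.subst (X i : MvPowerSeries (Fin 2) B) T : MvPowerSeries (Fin 2) B) :=
      fun i => hasSubst_of_cc (cc_subst_X0 (addSer p t).cc i)
    rw [← coe_substAlgHom (hasSubst_pair (hs 0) (hs 1)), map_add,
      substAlgHom_X, substAlgHom_X]
    rfl
  change (PowerSeries.subst (X 0 + X 1 : MvPowerSeries (Fin 2) B) T :
      MvPowerSeries (Fin 2) B) = _
  rw [h1]
  exact h2.symm

theorem addSer_smul_addLaw (t : ℕ → B) : addSer p t • addLaw B = addLaw B :=
  (InvSeries.smul_eq_iff_isHom _ _ _).2 (isHom_addSer p t)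

/-- Frobenius powers of power series. -/
theorem coeff_pow_char (f : PowerSeries B) (j n : ℕ) :
    PowerSeries.coeff n (f ^ p ^ j) =
      if p ^ j ∣ n then (PowerSeries.coeff (n / p ^ j) f) ^ p ^ j else 0 := by
  have hj : p ^ j ≠ 0 := pow_ne_zero _ hp.out.ne_zero
  have h : PowerSeries.map (iterateFrobenius B p j) (PowerSeries.expand (p ^ j) hj f) =
      f ^ p ^ j := MvPowerSeries.map_iterateFrobenius_expand p hp.out.ne_zero f j
  rw [← h, PowerSeries.coeff_map, PowerSeries.expand_apply, PowerSeries.coeff_subst_X_pow hj]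
  split_ifs with h1
  · rw [iterateFrobenius_def]
    rfl
  · rw [map_zero]

/-- The composition of two additive series. -/
theorem coeff_addSer_mul (s t : ℕ → B) (n : ℕ) :
    PowerSeries.coeff (p ^ n) (addSer p s * addSer p t).val =
      ∑ j ∈ Finset.range (n + 1), ext1 s j * ext1 t (n - j) ^ p ^ j := by
  have hp1 : 1 < p := hp.out.one_lt
  have hinj : Function.Injective fun j : ℕ => p ^ j := Nat.pow_right_injective hp1
  rw [InvSeries.mul_val, PowerSeries.coeff_subst' (addSer p t).hs,
    finsum_eq_sum_of_support_subset (s := (Finset.range (n + 1)).image fun j => p ^ j)]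
  · rw [Finset.sum_image fun a _ b _ h => hinj h]
    refine Finset.sum_congr rfl fun j hj => ?_
    rw [Finset.mem_range] at hj
    rw [coeff_addSer_pow p hp1, coeff_pow_char p, if_pos (pow_dvd_pow p (by omega)),
      Nat.pow_div (by omega) (by omega), coeff_addSer_pow p hp1, smul_eq_mul]
  · intro m hm
    rw [Function.mem_support] at hm
    by_cases h : ∃ k, p ^ k = m
    · obtain ⟨k, rfl⟩ := h
      rw [coeff_pow_char p] at hm
      have h2 : p ^ k ∣ p ^ n := by
        by_contra h2
        rw [if_neg h2, smul_zero] at hm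
        exact hm rfl
      have h3 : k ≤ n := (Nat.pow_dvd_pow_iff_le_right hp1).1 h2
      simp only [Finset.coe_image, Finset.coe_range, Set.mem_image, Set.mem_Iio]
      exact ⟨k, by omega, rfl⟩
    · push Not at h
      rw [coeff_addSer_of_not p s m h, zero_smul] at hm
      exact absurd rfl hm

theorem coeff_addSer_mul_of_not (s t : ℕ → B) (n : ℕ) (h : ∀ k, p ^ k ≠ n) :
    PowerSeries.coeff n (addSer p s * addSer p t).val = 0 := by
  rw [InvSeries.mul_val, PowerSeries.coeff_subst' (addSer p t).hs,
    finsum_eq_zero_of_forall_eq_zero]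
  intro m
  by_cases h1 : ∃ k, p ^ k = m
  · obtain ⟨k, rfl⟩ := h1
    rw [coeff_pow_char p]
    by_cases h2 : p ^ k ∣ n
    · rw [if_pos h2, coeff_addSer_of_not p t (n / p ^ k), zero_pow (pow_ne_zero _ hp.out.ne_zero),
        smul_zero]
      intro l hl
      apply h (k + l)
      rw [pow_add, hl, Nat.mul_div_cancel' h2]
    · rw [if_neg h2, smul_zero]
  · push Not at h1
    rw [coeff_addSer_of_not p s m h1, zero_smul]

/-- The composition of two additive series, as an additive series. -/
theorem addSer_mul (s t : ℕ → B) :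
    addSer p s * addSer p t =
      addSer p (fun n => ∑ j ∈ Finset.range (n + 2), ext1 s j * ext1 t (n + 1 - j) ^ p ^ j) := by
  apply eq_addSer p hp.out.one_lt (mul_mem (addSer_mem p s) (addSer_mem p t))
  · intro m hm
    exact coeff_addSer_mul_of_not p s t (m + 2) hm
  · intro k
    exact coeff_addSer_mul p s t (k + 1)

end CharP

section Zero

variable (p : ℕ) [hp : Fact p.Prime]

/-- additive series act trivially on the additive law, if `p = 0`. -/
theorem addSer_smul_addLaw' (h0 : (p : B) = 0) (t : ℕ → B) :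
    addSer p t • addLaw B = addLaw B := by
  rcases subsingleton_or_nontrivial B with h | h
  · apply Law.ext_ps
    apply MvPowerSeries.ext
    intro d
    exact Subsingleton.elim _ _
  · have : CharP B p := (CharP.charP_iff_prime_eq_zero hp.out).2 h0
    exact addSer_smul_addLaw p t

/-- composition of additive series, if `p = 0`. -/
theorem addSer_mul' (h0 : (p : B) = 0) (s t : ℕ → B) :
    addSer p s * addSer p t =
      addSer p (fun n => ∑ j ∈ Finset.range (n + 2), ext1 s j * ext1 t (n + 1 - j) ^ p ^ j) := by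
  rcases subsingleton_or_nontrivial B with h | h
  · apply InvSeries.ext_c
    intro n
    exact Subsingleton.elim _ _
  · have : CharP B p := (CharP.charP_iff_prime_eq_zero hp.out).2 h0
    exact addSer_mul p s t

end Zero

section Converse

theorem X_pow_mul2 (i j : ℕ) :
    (X 0 : MvPowerSeries (Fin 2) B) ^ i * X 1 ^ j = monomial (e2 i j) 1 := by
  rw [X_pow_eq, X_pow_eq, monomial_mul_monomial, one_mul, e2]

/-- coefficients of `(X+Y)^a`. -/
theorem coeff_add_pow2 (i j a : ℕ) :
    coeff (e2 i j) (((X 0 : MvPowerSeries (Fin 2) B) + X 1) ^ a) =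
      if a = i + j then (((i + j).choose i : ℕ) : B) else 0 := by
  classical
  rw [add_pow, map_sum]
  have h1 : ∀ m ∈ Finset.range (a + 1), coeff (e2 i j)
      ((X 0 : MvPowerSeries (Fin 2) B) ^ m * X 1 ^ (a - m) * ((a.choose m : ℕ) :
        MvPowerSeries (Fin 2) B)) =
      if m = i ∧ (a = i + j) then ((a.choose i : ℕ) : B) else 0 := by
    intro m hm
    rw [Finset.mem_range] at hm
    have h2 : (X 0 : MvPowerSeries (Fin 2) B) ^ m * X 1 ^ (a - m) * ((a.choose m : ℕ) :
        MvPowerSeries (Fin 2) B) = (a.choose m) • monomial (e2 m (a - m)) (1 : B) := by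
      rw [← X_pow_mul2, nsmul_eq_mul]
      ring
    rw [h2, map_nsmul, coeff_monomial]
    by_cases h3 : m = i ∧ (a = i + j)
    · rw [if_pos h3, if_pos (e2_inj.2 (by omega)), nsmul_eq_mul, mul_one, h3.1]
    · rw [if_neg h3, if_neg (fun h4 => h3 (by rw [e2_inj] at h4; omega)), smul_zero]
  rw [Finset.sum_congr rfl h1]
  by_cases h3 : a = i + j
  · simp only [h3, and_true, if_true]
    rw [Finset.sum_ite_eq' (Finset.range (i + j + 1)) i, if_pos (by rw [Finset.mem_range]; omega)]
  · simp only [h3, and_false, if_false]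
    exact Finset.sum_const_zero

/-- If `f` is an automorphism of the additive law, then the binomial multiples of its coefficients
vanish. -/
theorem choose_mul_coeff {f : InvSeries B} (hf : f • addLaw B = addLaw B) (i j : ℕ) (hi : 1 ≤ i)
    (hj : 1 ≤ j) : ((i + j).choose i : B) * PowerSeries.coeff (i + j) f.val = 0 := by
  have h := ((InvSeries.smul_eq_iff_isHom _ _ _).1 hf).2
  have hX : ∀ i : Fin 2, PowerSeries.HasSubst (X i : MvPowerSeries (Fin 2) B) :=
    fun i => hasSubst_of_cc (by simp)
  have hS : PowerSeries.HasSubst (X 0 + X 1 : MvPowerSeries (Fin 2) B) :=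
    hasSubst_of_cc (by simp)
  have hs : ∀ i : Fin 2, PowerSeries.HasSubst
      (PowerSeries.subst (X i : MvPowerSeries (Fin 2) B) f.val : MvPowerSeries (Fin 2) B) :=
    fun i => hasSubst_of_cc (cc_subst_X0 f.cc i)
  change (PowerSeries.subst (X 0 + X 1 : MvPowerSeries (Fin 2) B) f.val :
      MvPowerSeries (Fin 2) B) = MvPowerSeries.subst _ (X 0 + X 1 : MvPowerSeries (Fin 2) B) at h
  rw [← coe_substAlgHom (hasSubst_pair (hs 0) (hs 1)), map_add, substAlgHom_X, substAlgHom_X] at h
  replace h := congrArg (coeff (e2 i j)) h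
  change _ = coeff (e2 i j) (PowerSeries.subst (X 0 : MvPowerSeries (Fin 2) B) f.val +
    PowerSeries.subst (X 1 : MvPowerSeries (Fin 2) B) f.val) at h
  rw [map_add, PowerSeries.coeff_subst hS, finsum_eq_single _ (i + j), coeff_add_pow2, if_pos rfl,
    PowerSeries.coeff_subst_single, PowerSeries.coeff_subst_single, if_neg, if_neg, add_zero,
    smul_eq_mul, mul_comm] at h
  · exact h
  · intro h2
    have h3 := DFunLike.congr_fun h2 0
    rw [e2_zero] at h3
    simp at h3
    omega
  · intro h2
    have h3 := DFunLike.congr_fun h2 1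
    rw [e2_one] at h3
    simp at h3
    omega
  · intro m hm
    rw [coeff_add_pow2, if_neg hm, smul_zero]

variable (p : ℕ) [hp : Fact p.Prime]

/-- In characteristic `p`, the coefficients of an automorphism of the additive law vanish outside
the powers of `p`. -/
theorem coeff_eq_zero_of_smul (h0 : (p : B) = 0) {f : InvSeries B} (hf : f • addLaw B = addLaw B)
    (m : ℕ) (hm : ∀ k, p ^ k ≠ m + 2) : f.c (m + 1) = 0 := by
  have h1 : ∀ i ∈ Finset.Ioo 0 (m + 2), ((m + 2).choose i : B) * f.c (m + 1) = 0 := by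
    intro i hi
    rw [Finset.mem_Ioo] at hi
    have h := choose_mul_coeff hf i (m + 2 - i) (by omega) (by omega)
    rw [show i + (m + 2 - i) = m + 2 by omega] at h
    exact h
  have h2 : (dC (m + 2) : B) * f.c (m + 1) = 0 := by
    have h3 : (dC (m + 2) : B) * f.c (m + 1) =
        ∑ i ∈ Finset.Ioo 0 (m + 2), (lz m i : B) * (((m + 2).choose i : B) * f.c (m + 1)) := by
      have h4 : ∀ i ∈ Finset.Ioo 0 (m + 2),
          (lz m i : B) * (((m + 2).choose i : B) * f.c (m + 1)) =
            ((lz m i * (cC (m + 2) i : ℤ) : ℤ) : B) * ((dC (m + 2) : B) * f.c (m + 1)) := by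
        intro i hi
        rw [Finset.mem_Ioo] at hi
        rw [← dC_mul_cC (by omega) hi.2]
        push_cast
        ring
      rw [Finset.sum_congr rfl h4, ← Finset.sum_mul, ← Int.cast_sum, lz_spec, Int.cast_one,
        one_mul]
    rw [h3]
    exact Finset.sum_eq_zero fun i hi => by rw [h1 i hi, mul_zero]
  by_cases h3 : IsPrimePow (m + 2)
  · obtain ⟨q, k, hq, hk, hqk⟩ := (isPrimePow_nat_iff _).1 h3
    rw [← hqk, dC_pow hq hk.ne'] at h2
    have hqp : q ≠ p := by
      rintro rfl
      exact hm k hqk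
    have hco : Nat.Coprime q p := (Nat.coprime_primes hq hp.out).2 hqp
    have h4 := Nat.isCoprime_iff_coprime.2 hco
    obtain ⟨u, v, huv⟩ := h4
    have h5 : (u : B) * (q : B) + (v : B) * (p : B) = 1 := by
      exact_mod_cast congrArg (Int.cast : ℤ → B) huv
    rw [h0, mul_zero, add_zero] at h5
    calc f.c (m + 1) = 1 * f.c (m + 1) := (one_mul _).symm
      _ = (u : B) * ((q : B) * f.c (m + 1)) := by rw [← h5]; ring
      _ = 0 := by rw [h2, mul_zero]
  · rw [dC_of_not h3, Nat.cast_one, one_mul] at h2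
    exact h2

/-- **The strict automorphisms of the additive law in characteristic `p`.** -/
theorem eq_addSer_of_smul (h0 : (p : B) = 0) {f : InvSeries B} (hs : f ∈ strict B)
    (hf : f • addLaw B = addLaw B) :
    f = addSer p (fun k => PowerSeries.coeff (p ^ (k + 1)) f.val) :=
  eq_addSer p hp.out.one_lt hs _ (fun m hm => coeff_eq_zero_of_smul p h0 hf m hm) fun _ => rfl

end Converse

end Vale.Agent.P093.N.Phi
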