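import Vale.Agent.P093.N0.MU
import Vale.Agent.P093.N.ModIso
import Vale.Agent.P093.N.PLocRight

/-!
# P093, part N (N1-PHI, T-side): extension of ring homomorphisms from `Cob Laz s` to the homotopy ring
of the tensor powers of `MU` localized at `p`

`D : MUData T` with `MUAll D`, `u : D.R ⟶ R'` a homomorphism of commutative monoids which is a
`p`-localization (`IsPEq p u`, `IsPLocal p R'`; also `u = 𝟙` without any localness is allowed).

* `isoMod_ev` : `D.ev s : Cob Laz s →+* π_{2*}(R^{⊗ (s+1)})` is an isomorphism modulo `p`;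
* `evP D u s : Cob Laz s →+* π_{2*}(R'^{⊗ (s+1)})`, `isoMod_evP`, `evP_map`, `evP_wt`;
* `extP` : the extension of `g : Cob Laz s →+* A` (`p = 0` in `A`) to `π_{2*}(R'^{⊗ (s+1)})`,
  `extP_evP`, `extP_unique`, `extP_map` (naturality), `extP_mem` (homogeneity).
-/

open CategoryTheory MonoidalCategory Limits Pretriangulated MonObj Preadditive
open Vale.Agent.P251.I Vale.Agent.P251.T Vale.Agent.P251.F Vale.Agent.P251.S Vale.Agent.P251.M
open Vale.Agent.P251.M.EvenSpheres Vale.Agent.P093.PLoc Vale.Agent.P093.N0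

universe v u w₁ w₂

set_option linter.unusedSectionVars false

noncomputable section

namespace Vale.Agent.P093.N.PhiT

/-! ### Functoriality of `R^{⊗ n}` in `R` -/

section push

variable {T : Type u} [Category.{v} T] [MonoidalCategory T] [SymmetricCategory T]
  {R R' : T} [MonObj R] [MonObj R'] [IsCommMonObj R'] (u : R ⟶ R') [IsMonHom u]

/-- The homomorphism `R^{⊗ n} ⟶ R'^{⊗ n}` induced by `u`. -/
def amPush (n : ℕ) : Am R n ⟶ Am R' n := Am.lift fun i => u ≫ Am.v R' i

instance isMonHom_amPush (n : ℕ) : IsMonHom (amPush u n) := by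
  unfold amPush
  infer_instance

@[reassoc (attr := simp)]
theorem v_amPush {n : ℕ} (i : Fin n) : Am.v R i ≫ amPush u n = u ≫ Am.v R' i :=
  Am.v_lift _ i

@[reassoc]
theorem map_amPush [IsCommMonObj R] {m n : ℕ} (α : Fin m → Fin n) :
    Am.map R α ≫ amPush u n = amPush u m ≫ Am.map R' α := by
  apply Am.hom_ext
  intro i
  rw [Am.v_map_assoc, v_amPush, v_amPush_assoc, Am.v_map]

theorem amPush_succ (n : ℕ) : amPush u (n + 1) = amPush u n ⊗ₘ u := by
  apply Am.hom_ext
  intro i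
  refine Fin.lastCases ?_ (fun j => ?_) i
  · rw [v_amPush, Am.v_last, Am.v_last, MonoidalCategory.tensorHom_def, inrM_whiskerRight_assoc, inrM, inrM,
      Category.assoc, ← whisker_exchange, leftUnitor_inv_naturality_assoc]
  · rw [v_amPush, Am.v_castSucc, Am.v_castSucc, Category.assoc, MonoidalCategory.tensorHom_def,
      inlM_whiskerRight_assoc, v_amPush_assoc]
    simp only [inlM, Category.assoc, ← whiskerLeft_comp, IsMonHom.one_hom]

end push

variable {T : Type u} [Category.{v} T] [Preadditive T] [HasZeroObject T]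
    [HasShift T ℤ] [∀ n : ℤ, (shiftFunctor T n).Additive] [Pretriangulated T] [IsTriangulated T]
    [MonoidalCategory T] [SymmetricCategory T] [TensorTriangulated T] [MonoidalClosed T]
    [HasCoproducts.{0} T] [HasProducts.{0} T] [StableCat T]

/-! ### `p`-equivalences -/

/-- `f` becomes an isomorphism after `p`-localization. -/
def IsPEq (p : ℕ) {X Y : T} (f : X ⟶ Y) : Prop := IsIso (Sp T p ◁ f)

section PEq

variable {p : ℕ}

theorem IsPEq.of_isIso {X Y : T} (f : X ⟶ Y) [IsIso f] : IsPEq p f :=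
  inferInstanceAs (IsIso (Sp T p ◁ f))

theorem IsPEq.comp {X Y Z : T} {f : X ⟶ Y} {g : Y ⟶ Z} (hf : IsPEq p f) (hg : IsPEq p g) :
    IsPEq p (f ≫ g) := by
  have h1 : IsIso (Sp T p ◁ f) := hf
  have h2 : IsIso (Sp T p ◁ g) := hg
  change IsIso (Sp T p ◁ (f ≫ g))
  rw [whiskerLeft_comp]
  infer_instance

theorem IsPEq.whiskerRight {X Y : T} {f : X ⟶ Y} (hf : IsPEq p f) (Z : T) :
    IsPEq p (f ▷ Z) := by
  have h1 : IsIso (Sp T p ◁ f) := hf
  have h2 : Sp T p ◁ (f ▷ Z) = (α_ _ _ _).inv ≫ (Sp T p ◁ f) ▷ Z ≫ (α_ _ _ _).hom := by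
    simp
  change IsIso (Sp T p ◁ (f ▷ Z))
  rw [h2]
  infer_instance

theorem IsPEq.whiskerLeft {X Y : T} {f : X ⟶ Y} (hf : IsPEq p f) (Z : T) :
    IsPEq p (Z ◁ f) := by
  have h1 : Z ◁ f = (β_ Z X).hom ≫ f ▷ Z ≫ (β_ Z Y).inv := by
    rw [← BraidedCategory.braiding_naturality_right_assoc, Iso.hom_inv_id, Category.comp_id]
  rw [h1]
  exact (IsPEq.of_isIso _).comp ((hf.whiskerRight Z).comp (IsPEq.of_isIso _))

theorem IsPEq.tensorHom {X Y X' Y' : T} {f : X ⟶ Y} {g : X' ⟶ Y'} (hf : IsPEq p f)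
    (hg : IsPEq p g) : IsPEq p (f ⊗ₘ g) := by
  rw [MonoidalCategory.tensorHom_def]
  exact (hf.whiskerRight _).comp (hg.whiskerLeft _)

theorem isPEq_etaR (hp : p ≠ 1) (X : T) : IsPEq p (etaR p X) := by
  rw [← etaX_braiding]
  exact IsPEq.comp (isIso_whiskerLeft_etaX hp X) (IsPEq.of_isIso _)

theorem IsPEq.exists_lift (hp : p ≠ 1) {W X Y : T} (hW : Vale.Agent.P251.S.IsCpt W) {f : X ⟶ Y}
    (hf : IsPEq p f) (hY : IsPLocal p Y) (g : W ⟶ Y) :
    ∃ (q : ℕ) (a : W ⟶ X), q.Coprime p ∧ a ≫ f = (q : ℤ) • g := by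
  have h1 : IsIso (Sp T p ◁ f) := hf
  have h2 : IsIso (etaX p Y) := (isPLocal_iff_isIso_etaX hp).1 hY
  obtain ⟨q, a, hq, ha⟩ := exists_lift_of_isCpt hW (g ≫ etaX p Y ≫ inv (Sp T p ◁ f))
  refine ⟨q, a, hq, ?_⟩
  rw [← cancel_mono (etaX p Y), Category.assoc, etaX_naturality, reassoc_of% ha, zsmul_comp,
    zsmul_comp, Category.assoc, Category.assoc, IsIso.inv_hom_id, Category.comp_id]

theorem IsPEq.exists_zero {W X Y : T} (hW : Vale.Agent.P251.S.IsCpt W) {f : X ⟶ Y}
    (hf : IsPEq p f) (a : W ⟶ X) (ha : a ≫ f = 0) :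
    ∃ q : ℕ, q.Coprime p ∧ (q : ℤ) • a = 0 := by
  have h1 : IsIso (Sp T p ◁ f) := hf
  refine exists_zero_of_isCpt hW a ?_
  rw [← cancel_mono (Sp T p ◁ f), Category.assoc, ← etaX_naturality, reassoc_of% ha, zero_comp,
    zero_comp]

theorem IsPEq.amPush {R R' : T} [MonObj R] [MonObj R'] [IsCommMonObj R'] {u : R ⟶ R'}
    [IsMonHom u] (hu : IsPEq p u) (n : ℕ) : IsPEq p (amPush u n) := by
  induction n with
  | zero => exact IsPEq.of_isIso (𝟙 (𝟙_ T))
  | succ n ih =>
    rw [amPush_succ]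
    exact ih.tensorHom hu

end PEq

/-! ### The homotopy ring of a localization -/

theorem isCpt_S (w : ℤ) : Vale.Agent.P251.S.IsCpt ((stdEven T).S w) :=
  Vale.Agent.P251.S.IsCpt.of_iso (isCpt_sph (2 * w)) (stdSph w).symm

section ring

variable {X Y : T} [MonObj X] [MonObj Y]

theorem map_coe (f : X ⟶ Y) [IsMonHom f] (x : HRing (stdEven T) X) (w : ℤ) :
    (HRing.map (E := stdEven T) f x) w = x w ≫ f := by
  induction x using DirectSum.induction_on with
  | zero => rw [_root_.map_zero, DirectSum.zero_apply, DirectSum.zero_apply, zero_comp]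
  | of k a =>
    have h1 : HRing.map (E := stdEven T) f (DirectSum.of ((stdEven T).Gr X) k a) =
      HRing.of (stdEven T) Y k (a ≫ f) := HRing.map_of f k a
    rw [h1]
    by_cases h : k = w
    · subst h
      rw [HRing.of, DirectSum.of_eq_same, DirectSum.of_eq_same]
    · rw [HRing.of, DirectSum.of_eq_of_ne _ _ _ (Ne.symm h), DirectSum.of_eq_of_ne _ _ _ (Ne.symm h),
        zero_comp]
  | add x y hx hy => rw [_root_.map_add, DirectSum.add_apply, DirectSum.add_apply, hx, hy, add_comp]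

variable [IsCommMonObj X] [IsCommMonObj Y] {p : ℕ}

/-- Localization of homotopy rings. -/
theorem isLocAt_map (hp : p ≠ 1) (f : X ⟶ Y) [IsMonHom f] (hf : IsPEq p f) (hY : IsPLocal p Y) :
    IsLocAt (HRing.map (E := stdEven T) f) p where
  unit q hq := by
    obtain ⟨b, hb⟩ := hY.exists_div (q := (q : ℤ)) (by simpa using hq)
      ((stdEven T).zero.inv ≫ η[Y])
    refine IsUnit.of_mul_eq_one (HRing.of (stdEven T) Y 0 b) ?_
    rw [← nsmul_eq_mul, ← natCast_zsmul]
    have h1 := _root_.map_zsmul (DirectSum.of ((stdEven T).Gr Y) 0) (q : ℤ) b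
    refine h1.symm.trans ?_
    rw [hb]
    exact of_one
  surj y := by
    induction y using DirectSum.induction_on with
    | zero => exact ⟨1, Nat.coprime_one_left p, 0, by simp⟩
    | of k a =>
      obtain ⟨q, b, hq, hb⟩ := hf.exists_lift hp (isCpt_S k) hY a
      refine ⟨q, hq, HRing.of (stdEven T) X k b, ?_⟩
      rw [HRing.map_of, hb, ← natCast_zsmul]
      exact (_root_.map_zsmul (DirectSum.of ((stdEven T).Gr Y) k) (q : ℤ) a).symm
    | add y y' hy hy' =>
      obtain ⟨q, hq, x, hx⟩ := hy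
      obtain ⟨q', hq', x', hx'⟩ := hy'
      refine ⟨q * q', hq.mul_left hq', q' • x + q • x', ?_⟩
      rw [smul_add, _root_.map_add, _root_.map_nsmul, _root_.map_nsmul, ← hx, ← hx', smul_smul,
        smul_smul, Nat.mul_comm q' q]
  ker x hx := by
    classical
    have h1 : ∀ w : ℤ, ∃ q : ℕ, q.Coprime p ∧ (q : ℤ) • x w = 0 := by
      intro w
      refine hf.exists_zero (isCpt_S w) (x w) ?_
      rw [← map_coe, hx, DirectSum.zero_apply]
    choose q hq hqx using h1
    refine ⟨∏ w ∈ DFinsupp.support x, q w, Nat.Coprime.prod_left fun w _ => hq w, ?_⟩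
    refine DFinsupp.ext fun w => ?_
    rw [← natCast_zsmul]
    have h2 : ((((∏ w ∈ DFinsupp.support x, q w : ℕ) : ℤ) • x : HRing (stdEven T) X)) w =
        ((∏ w ∈ DFinsupp.support x, q w : ℕ) : ℤ) • x w := rfl
    rw [h2]
    change _ = (0 : (stdEven T).S w ⟶ X)
    by_cases hw : w ∈ DFinsupp.support x
    · rw [← Finset.mul_prod_erase _ _ hw, Nat.cast_mul, mul_comm, mul_smul, hqx, smul_zero]
    · rw [DFinsupp.notMem_support_iff.1 hw, smul_zero]

end ring

/-! ### `Cob Laz s` and the homotopy ring modulo `p` -/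

section ev

variable {D : MUData T} (hD : MUAll D) (p : ℕ) [hpf : Fact p.Prime]

include hD in
theorem exists_wt (s : ℕ) (w : ℤ) (a : (stdEven T).S w ⟶ Am D.R (s + 1)) :
    ∃ (z : Cob Laz s) (b : (stdEven T).S w ⟶ Am D.R (s + 1)), Cob.IsWt w z ∧
      HRing.of (stdEven T) (Am D.R (s + 1)) w a =
        D.ev s z + p • HRing.of (stdEven T) (Am D.R (s + 1)) w b := by
  obtain ⟨C, i, δ, hC⟩ := distinguished_cocone_triangle ((p : ℤ) • 𝟙 (𝟙_ T))
  obtain ⟨z, a', hz, ha', h1⟩ := hD.surj p s C i δ hC w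
    (a ≫ (ρ_ (Am D.R (s + 1))).inv ≫ (Am D.R (s + 1) ◁ i))
  have h2 : (a - a') ≫ (ρ_ (Am D.R (s + 1))).inv ≫ (Am D.R (s + 1) ◁ i) = 0 := by
    rw [Preadditive.sub_comp, h1, sub_self]
  obtain ⟨b, hb⟩ := Vale.Agent.P251.Q.ModP.exists_zsmul_of_comp_eq_zero hC (a - a') h2
  refine ⟨z, b, hz, ?_⟩
  rw [ha', ← natCast_zsmul]
  have h3 : a = a' + (p : ℤ) • b := by rw [← hb]; abel
  have h4 := _root_.map_add (DirectSum.of ((stdEven T).Gr (Am D.R (s + 1))) w) a' ((p : ℤ) • b)
  rw [← h3, _root_.map_zsmul] at h4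
  exact h4

theorem nsmul_coe {X : T} (n : ℕ) (x : HMod (stdEven T) X) (w : ℤ) :
    (n • x) w = (n : ℤ) • (x w : (stdEven T).S w ⟶ X) := by
  rw [← natCast_zsmul]
  rfl

include hD in
/-- `Cob Laz s →+* π_{2*}(R^{⊗ (s+1)})` is an isomorphism modulo `p`. -/
theorem isoMod_ev (s : ℕ) : IsoMod (D.ev s) p where
  surj x := by
    induction x using DirectSum.induction_on with
    | zero => exact ⟨0, 0, by simp⟩
    | of w a =>
      obtain ⟨z, b, -, h⟩ := exists_wt hD p s w a
      exact ⟨z, _, h⟩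
    | add x x' hx hx' =>
      obtain ⟨z, y, rfl⟩ := hx
      obtain ⟨z', y', rfl⟩ := hx'
      exact ⟨z + z', y + y', by rw [_root_.map_add, smul_add]; abel⟩
  ker z y hy := by
    obtain ⟨C, i, δ, hC⟩ := distinguished_cocone_triangle ((p : ℤ) • 𝟙 (𝟙_ T))
    have key : ∀ w : ℤ, ∃ z' : Cob Laz s, Cob.proj w z = (p : ℤ) • z' := by
      intro w
      have h1 : ∀ v : ℤ, ∃ a : (stdEven T).S v ⟶ Am D.R (s + 1),
          D.ev s (Cob.proj v z) = HRing.of (stdEven T) (Am D.R (s + 1)) v a :=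
        fun v => D.ev_wt s v _ (Cob.isWt_proj v z)
      choose a ha using h1
      -- the component of `D.ev s z` of degree `w`
      have h2 : (D.ev s z) w = a w := by
        have h3 : D.ev s z = ∑ v ∈ Cob.wts z, HRing.of (stdEven T) (Am D.R (s + 1)) v (a v) := by
          conv_lhs => rw [← Cob.sum_proj z]
          rw [_root_.map_sum]
          exact Finset.sum_congr rfl fun v _ => ha v
        rw [h3]
        have h4 : (∑ v ∈ Cob.wts z, HRing.of (stdEven T) (Am D.R (s + 1)) v (a v)) w =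
            ∑ v ∈ Cob.wts z, (HRing.of (stdEven T) (Am D.R (s + 1)) v (a v)) w :=
          DFinsupp.finsetSum_apply _ _ _
        rw [h4]
        by_cases hw : w ∈ Cob.wts z
        · rw [Finset.sum_eq_single w]
          · exact DirectSum.of_eq_same (β := (stdEven T).Gr (Am D.R (s + 1))) w (a w)
          · intro v _ hv
            exact DirectSum.of_eq_of_ne (β := (stdEven T).Gr (Am D.R (s + 1))) _ _ _ (Ne.symm hv)
          · intro h; exact absurd hw h
        · have h5 : a w = 0 := by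
            have h6 := ha w
            rw [Cob.proj_eq_zero hw, _root_.map_zero] at h6
            apply DirectSum.of_injective (β := (stdEven T).Gr (Am D.R (s + 1))) w
            rw [_root_.map_zero]
            exact h6.symm
          rw [h5]
          refine Finset.sum_eq_zero fun v hv => ?_
          exact DirectSum.of_eq_of_ne _ _ _ (fun h => hw (h ▸ hv))
      have h3 : a w = (p : ℤ) • (y w : (stdEven T).S w ⟶ Am D.R (s + 1)) := by
        rw [← h2, hy, nsmul_coe]
      obtain ⟨z', -, hz'⟩ := hD.ker p s C i δ hC w _ (Cob.isWt_proj w z) (a w) (ha w) (by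
        rw [h3]
        exact Vale.Agent.P251.Q.ModP.zsmul_comp_eq_zero hC _)
      exact ⟨z', hz'⟩
    choose z' hz' using key
    refine ⟨∑ w ∈ Cob.wts z, z' w, ?_⟩
    conv_lhs => rw [← Cob.sum_proj z]
    rw [Finset.smul_sum]
    refine Finset.sum_congr rfl fun w _ => ?_
    rw [hz', natCast_zsmul]

end ev

/-! ### The localized version -/

section evP

variable (D : MUData T) {R' : T} [MonObj R'] [IsCommMonObj R'] (u : D.R ⟶ R') [IsMonHom u]

/-- The characteristic homomorphisms of `R'`, for a homomorphism of commutative monoids `u : R ⟶ R'`. -/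
def evP (s : ℕ) : Cob Laz s →+* HRing (stdEven T) (Am R' (s + 1)) :=
  (HRing.map (E := stdEven T) (amPush u (s + 1))).comp (D.ev s)

theorem evP_apply (s : ℕ) (z : Cob Laz s) :
    evP D u s z = HRing.map (E := stdEven T) (amPush u (s + 1)) (D.ev s z) := rfl

theorem evP_map {m n : ℕ} (α : Fin (m + 1) → Fin (n + 1)) (z : Cob Laz m) :
    HRing.map (E := stdEven T) (Am.map R' α) (evP D u m z) = evP D u n (Cob.map α z) := by
  have h : ∀ (f g : Am D.R (m + 1) ⟶ Am R' (n + 1)) [IsMonHom f] [IsMonHom g], f = g →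
      HRing.map (E := stdEven T) f = HRing.map (E := stdEven T) g := by
    intro f g _ _ hfg
    subst hfg
    rfl
  have h1 : (HRing.map (E := stdEven T) (Am.map R' α)).comp
      (HRing.map (E := stdEven T) (amPush u (m + 1))) =
      (HRing.map (E := stdEven T) (amPush u (n + 1))).comp
        (HRing.map (E := stdEven T) (Am.map D.R α)) := by
    rw [← HRing.map_comp, ← HRing.map_comp]
    exact h _ _ (map_amPush u α).symm
  rw [evP_apply, evP_apply, ← D.ev_map]
  exact congrArg (fun f => f (D.ev m z)) h1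

theorem evP_wt (s : ℕ) (w : ℤ) (z : Cob Laz s) (hz : Cob.IsWt w z) :
    ∃ a : (stdEven T).S w ⟶ Am R' (s + 1),
      evP D u s z = HRing.of (stdEven T) (Am R' (s + 1)) w a := by
  obtain ⟨a, ha⟩ := D.ev_wt s w z hz
  exact ⟨a ≫ amPush u (s + 1), by rw [evP_apply, ha, HRing.map_of]⟩

/-- `u : MU ⟶ R'` is the localization at `p`. -/
structure IsMULoc (p : ℕ) : Prop where
  all : MUAll D
  peq : IsPEq p u
  loc : IsPLocal p R'

variable {D} {u} {p : ℕ} [hpf : Fact p.Prime]

theorem IsMULoc.isPLocal_am (h : IsMULoc D u p) (s : ℕ) : IsPLocal p (Am R' (s + 1)) :=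
  h.loc.tensor_left (Am R' s)

theorem IsMULoc.isLocAt (h : IsMULoc D u p) (s : ℕ) :
    IsLocAt (HRing.map (E := stdEven T) (amPush u (s + 1))) p :=
  isLocAt_map hpf.out.ne_one _ (h.peq.amPush (s + 1)) (h.isPLocal_am s)

/-- `Cob Laz s →+* π_{2*}(R'^{⊗ (s+1)})` is an isomorphism modulo `p`. -/
theorem IsMULoc.isoMod (h : IsMULoc D u p) (s : ℕ) : IsoMod (evP D u s) p :=
  (isoMod_ev h.all p s).comp_loc (h.isLocAt s)

/-- Homogeneous version of the surjectivity modulo `p`. -/
theorem IsMULoc.exists_wt (h : IsMULoc D u p) (s : ℕ) (w : ℤ)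
    (a : (stdEven T).S w ⟶ Am R' (s + 1)) :
    ∃ (z : Cob Laz s) (b : (stdEven T).S w ⟶ Am R' (s + 1)), Cob.IsWt w z ∧
      HRing.of (stdEven T) (Am R' (s + 1)) w a =
        evP D u s z + p • HRing.of (stdEven T) (Am R' (s + 1)) w b := by
  obtain ⟨q, a', hq, ha'⟩ := (h.peq.amPush (s + 1)).exists_lift hpf.out.ne_one (isCpt_S w)
    (h.isPLocal_am s) a
  obtain ⟨z, b, hz, hb⟩ := PhiT.exists_wt h.all p s w a'
  obtain ⟨c, d, hcd⟩ := Nat.isCoprime_iff_coprime.2 hq
  refine ⟨c • z, c • (b ≫ amPush u (s + 1)) + d • a, hz.zsmul c, ?_⟩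
  have h1 : a = c • (a' ≫ amPush u (s + 1)) + (p : ℤ) • (d • a) := by
    have h2 : ((c * q + d * p : ℤ)) • a = a := by rw [hcd, one_smul]
    rw [add_smul, mul_smul, mul_smul, smul_comm d (p : ℤ) a, ← ha'] at h2
    exact h2.symm
  have h3 : HRing.of (stdEven T) (Am R' (s + 1)) w (a' ≫ amPush u (s + 1)) =
      evP D u s z + p • HRing.of (stdEven T) (Am R' (s + 1)) w (b ≫ amPush u (s + 1)) := by
    rw [← HRing.map_of, hb, _root_.map_add, _root_.map_nsmul, HRing.map_of, evP_apply]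
  have h4 := congrArg (HRing.of (stdEven T) (Am R' (s + 1)) w) h1
  have h5 : ∀ x y : (stdEven T).S w ⟶ Am R' (s + 1),
      HRing.of (stdEven T) (Am R' (s + 1)) w (x + y) =
        HRing.of (stdEven T) (Am R' (s + 1)) w x + HRing.of (stdEven T) (Am R' (s + 1)) w y :=
    fun x y => _root_.map_add (DirectSum.of ((stdEven T).Gr (Am R' (s + 1))) w) x y
  have h6 : ∀ (n : ℤ) (x : (stdEven T).S w ⟶ Am R' (s + 1)),
      HRing.of (stdEven T) (Am R' (s + 1)) w (n • x) =
        n • HRing.of (stdEven T) (Am R' (s + 1)) w x :=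
    fun n x => _root_.map_zsmul (DirectSum.of ((stdEven T).Gr (Am R' (s + 1))) w) n x
  refine h4.trans ?_
  rw [h5, h5, h6, h6, h6, h6, h3, _root_.map_zsmul, smul_add, smul_add, ← natCast_zsmul,
    ← natCast_zsmul, ← natCast_zsmul, smul_comm c (p : ℤ), add_assoc]

variable {A : Type w₁} [CommRing A] (h : IsMULoc D u p) {s : ℕ} (g : Cob Laz s →+* A)
  (hA : (p : A) = 0)

/-- The extension of `g : Cob Laz s →+* A` to the homotopy ring of `R'^{⊗ (s+1)}`. -/
def extP : HRing (stdEven T) (Am R' (s + 1)) →+* A := (h.isoMod s).ext g hA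

@[simp] theorem extP_evP (z : Cob Laz s) : extP h g hA (evP D u s z) = g z :=
  (h.isoMod s).ext_apply g hA z

include h hA in
theorem hom_ext_evP {G G' : HRing (stdEven T) (Am R' (s + 1)) →+* A}
    (hG : ∀ z, G (evP D u s z) = G' (evP D u s z)) : G = G' :=
  (h.isoMod s).hom_ext hA hG

theorem extP_unique {G : HRing (stdEven T) (Am R' (s + 1)) →+* A}
    (hG : ∀ z, G (evP D u s z) = g z) : G = extP h g hA :=
  (h.isoMod s).eq_ext g hA hG

/-- Naturality of the extension. -/
theorem extP_map {A' : Type w₂} [CommRing A'] {n : ℕ} (α : Fin (s + 1) → Fin (n + 1))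
    (g' : Cob Laz n →+* A') (hA' : (p : A') = 0) (k : A →+* A')
    (hk : ∀ z, g' (Cob.map α z) = k (g z)) (x : HRing (stdEven T) (Am R' (s + 1))) :
    extP h g' hA' (HRing.map (E := stdEven T) (Am.map R' α) x) = k (extP h g hA x) :=
  (h.isoMod s).ext_nat g hA (h.isoMod n) g' hA' (Cob.map α) (HRing.map (E := stdEven T)
    (Am.map R' α)) k (fun z => evP_map D u α z) hk x

/-- The values of all extensions at a homogeneous element are the values at a homogeneous element of
`Cob Laz s`. -/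
theorem exists_extP_of (s : ℕ) (w : ℤ) (a : (stdEven T).S w ⟶ Am R' (s + 1)) :
    ∃ z : Cob Laz s, Cob.IsWt w z ∧ ∀ {A : Type w₁} [CommRing A] (g : Cob Laz s →+* A)
      (hA : (p : A) = 0), extP h g hA (HRing.of (stdEven T) (Am R' (s + 1)) w a) = g z := by
  obtain ⟨z, b, hz, hb⟩ := h.exists_wt s w a
  exact ⟨z, hz, fun g hA => (h.isoMod s).ext_eq g hA hb⟩

/-- Homogeneity of the extension. -/
theorem extP_mem {V : ℤ → Set A} (hg : ∀ w z, Cob.IsWt w z → g z ∈ V w) (w : ℤ)
    (a : (stdEven T).S w ⟶ Am R' (s + 1)) :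
    extP h g hA (HRing.of (stdEven T) (Am R' (s + 1)) w a) ∈ V w := by
  obtain ⟨z, hz, hz'⟩ := exists_extP_of h s w a
  rw [hz' g hA]
  exact hg w z hz

end evP

/-- `MU ⟶ MU ⊗ S_(p)` is the localization at `p`. -/
theorem isMULoc_inlM {D : MUData T} (hD : MUAll D) (p : ℕ) [hpf : Fact p.Prime] :
    IsMULoc D (inlM D.R (Sp T p)) p where
  all := hD
  peq := isPEq_etaR hpf.out.ne_one D.R
  loc := isPLocal_tensor_Sp hpf.out.ne_one D.R

end Vale.Agent.P093.N.PhiT
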