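import Vale.Agent.P093.N.RealSums
import Vale.Agent.P251.M.PiZero

/-!
# P093, part N (block 3c, REAL): the `p`-local sphere

`u : 𝟙 ⟶ L` with `IsPLoc p L u`:

* `eta u X : X ⟶ X ⊗ L`, natural; maps out of `X ⊗ L` to a local object are determined by their
  restriction to `X`;
* `End (L⟦n⟧)` is local.
-/

open CategoryTheory MonoidalCategory Limits Pretriangulated ZeroObject
open Vale.Agent.P251.G Vale.Agent.P251.G.LC Vale.Agent.P251.H Vale.Agent.P251.M
  Vale.Agent.P251.T Vale.Agent.P251.I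

universe v u

set_option linter.unusedSectionVars false

namespace Vale.Agent.P093.N.Real

variable {T : Type u} [Category.{v} T] [Preadditive T] [HasZeroObject T]
  [HasShift T ℤ] [∀ n : ℤ, (shiftFunctor T n).Additive] [Pretriangulated T]
  [MonoidalCategory T]

section eta

variable {L : T} (u : 𝟙_ T ⟶ L)

/-- the localisation map `X ⟶ X ⊗ L` -/
def eta (X : T) : X ⟶ X ⊗ L := (ρ_ X).inv ≫ X ◁ u

@[reassoc]
theorem eta_naturality {X Y : T} (f : X ⟶ Y) : f ≫ eta u Y = eta u X ≫ f ▷ L := by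
  unfold eta
  rw [Category.assoc, whisker_exchange, rightUnitor_inv_naturality_assoc]

theorem eta_tensor (X Y : T) : eta u (X ⊗ Y) = X ◁ eta u Y ≫ (α_ X Y L).inv := by
  unfold eta
  simp

theorem eta_unit : u ≫ (λ_ L).inv = eta u (𝟙_ T) := by
  unfold eta
  rw [leftUnitor_inv_naturality, unitors_inv_equal]

end eta

namespace IsPLoc

variable {p : ℕ} {L : T} {u : 𝟙_ T ⟶ L} (h : IsPLoc p L u)
include h

theorem isIso_eta_self : IsIso (eta u L) := by
  have := h.idem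
  unfold eta
  infer_instance

theorem isIso_eta_tensor (X : T) : IsIso (eta u (X ⊗ L)) := by
  have := h.isIso_eta_self
  rw [eta_tensor]
  infer_instance

section symm

variable [SymmetricCategory T]

theorem isIso_whiskerRight : IsIso (u ▷ L) := by
  have := h.idem
  have e : u ▷ L = (β_ (𝟙_ T) L).hom ≫ L ◁ u ≫ (β_ L L).inv := by
    rw [← BraidedCategory.braiding_naturality_left_assoc, Iso.hom_inv_id, Category.comp_id]
  rw [e]
  infer_instance

theorem isIso_eta_whiskerRight (X : T) : IsIso (eta u X ▷ L) := by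
  have := h.isIso_whiskerRight
  have e : eta u X ▷ L = (ρ_ X).inv ▷ L ≫ (α_ X (𝟙_ T) L).hom ≫ X ◁ (u ▷ L) ≫
      (α_ X L L).inv := by
    unfold eta
    simp
  rw [e]
  infer_instance

/-- a map `X ⊗ L ⟶ Y` with `Y` local is determined by its restriction to `X` -/
theorem hom_ext {X Y : T} (hY : IsIso (eta u Y)) {f g : X ⊗ L ⟶ Y}
    (hfg : eta u X ≫ f = eta u X ≫ g) : f = g := by
  have h1 := h.isIso_eta_whiskerRight X
  have h2 : (eta u X ▷ L) ≫ f ▷ L = (eta u X ▷ L) ≫ g ▷ L := by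
    rw [← comp_whiskerRight, hfg, comp_whiskerRight]
  have h3 : f ▷ L = g ▷ L := (cancel_epi _).1 h2
  have h4 : f ≫ eta u Y = g ≫ eta u Y := by
    rw [eta_naturality, eta_naturality, h3]
  exact (cancel_mono _).1 h4

/-- a map `X ⊗ L ⟶ Y` with `Y` local from a map `X ⟶ Y` -/
theorem exists_extend {X Y : T} (hY : IsIso (eta u Y)) (f : X ⟶ Y) :
    ∃ g : X ⊗ L ⟶ Y, eta u X ≫ g = f := by
  refine ⟨f ▷ L ≫ CategoryTheory.inv (eta u Y), ?_⟩
  rw [← eta_naturality_assoc, IsIso.hom_inv_id, Category.comp_id]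

end symm

variable [MonoidalPreadditive T]

theorem isIso_zsmul_tensor (X : T) {q : ℕ} (hq : q.Coprime p) :
    IsIso ((q : ℤ) • 𝟙 (X ⊗ L)) := by
  have := h.inv q hq
  have e : (q : ℤ) • 𝟙 (X ⊗ L) = X ◁ ((q : ℤ) • 𝟙 L) := by
    rw [← MonoidalCategory.whiskerLeft_id]
    exact ((tensorLeft X).map_zsmul).symm
  rw [e]
  infer_instance

end IsPLoc

namespace IsPLoc

variable [SymmetricCategory T] [TensorTriangulated T] {p : ℕ} {L : T} {u : 𝟙_ T ⟶ L}
  (h : IsPLoc p L u)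
include h

theorem unit_hom_ext {Y : T} (hY : IsIso (eta u Y)) {f g : L ⟶ Y}
    (hfg : u ≫ f = u ≫ g) : f = g := by
  have h1 : (λ_ L).hom ≫ f = (λ_ L).hom ≫ g := by
    apply h.hom_ext hY
    rw [← eta_unit, Category.assoc, Category.assoc, Iso.inv_hom_id_assoc, Iso.inv_hom_id_assoc, hfg]
  exact (cancel_epi _).1 h1

/-- every endomorphism of `L` is a fraction -/
theorem exists_int (F : SpaceFunctor T) (a : L ⟶ L) :
    ∃ q : ℕ, q.Coprime p ∧ ∃ m : ℤ, (q : ℤ) • a = m • 𝟙 L := by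
  let e : (𝟙_ T)⟦(0 : ℤ)⟧ ≅ 𝟙_ T := (shiftFunctorZero T ℤ).app (𝟙_ T)
  obtain ⟨q, hq, g, hg⟩ := h.fac 0 (𝟙_ T) (e.hom ≫ u ≫ a ≫ (λ_ L).inv)
  obtain ⟨m, hm⟩ := exists_int_unit F (e.inv ≫ g)
  refine ⟨q, hq, m, ?_⟩
  apply h.unit_hom_ext h.isIso_eta_self
  have h1 : (q : ℤ) • (u ≫ a ≫ (λ_ L).inv) = m • (u ≫ (λ_ L).inv) := by
    have h2 : e.inv ≫ ((q : ℤ) • (e.hom ≫ u ≫ a ≫ (λ_ L).inv)) =
        e.inv ≫ g ≫ (ρ_ (𝟙_ T)).inv ≫ 𝟙_ T ◁ u := by rw [hg]
    rw [Preadditive.comp_zsmul, Iso.inv_hom_id_assoc, ← Category.assoc e.inv g, hm] at h2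
    rw [h2, Preadditive.zsmul_comp, Category.id_comp, eta_unit]
    rfl
  rw [Preadditive.comp_zsmul, Preadditive.comp_zsmul, Category.comp_id,
    ← cancel_mono (λ_ L).inv, Preadditive.zsmul_comp, Preadditive.zsmul_comp, Category.assoc, h1]

/-- `End L` is local. -/
theorem local_end (hp : p.Prime) (F : SpaceFunctor T) (a : L ⟶ L) :
    IsIso a ∨ IsIso (𝟙 L - a) := by
  obtain ⟨q, hq, m, hm⟩ := h.exists_int F a
  have hinv : ∀ m : ℤ, m.natAbs.Coprime p → IsIso (m • 𝟙 L) := by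
    intro m hm
    have h1 := h.inv _ hm
    rcases Int.natAbs_eq m with h2 | h2
    · rw [h2]; exact h1
    · rw [h2, neg_smul]
      exact ⟨-CategoryTheory.inv (((m.natAbs : ℤ)) • 𝟙 L),
        by rw [Preadditive.neg_comp_neg, IsIso.hom_inv_id],
        by rw [Preadditive.neg_comp_neg, IsIso.inv_hom_id]⟩
  have key : ∀ (b : L ⟶ L) (m : ℤ), (q : ℤ) • b = m • 𝟙 L → m.natAbs.Coprime p → IsIso b := by
    intro b m hb hm
    have h1 := h.inv q hq
    have h2 := hinv m hm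
    have h3 : ((q : ℤ) • 𝟙 L) ≫ b = m • 𝟙 L := by
      rw [Preadditive.zsmul_comp, Category.id_comp, hb]
    have h4 : IsIso (((q : ℤ) • 𝟙 L) ≫ b) := by rw [h3]; exact h2
    exact IsIso.of_isIso_comp_left ((q : ℤ) • 𝟙 L) b
  by_cases hm' : (p : ℤ) ∣ m
  · right
    refine key _ (q - m) ?_ ?_
    · rw [smul_sub, hm, sub_smul]
    · rw [Nat.coprime_comm, hp.coprime_iff_not_dvd, ← Int.natCast_dvd]
      intro hd
      have h1 : (p : ℤ) ∣ q := (dvd_sub_left hm').1 hd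
      rw [Int.natCast_dvd_natCast] at h1
      exact (hp.coprime_iff_not_dvd.1 hq.symm) h1
  · left
    refine key a m hm ?_
    rw [Nat.coprime_comm, hp.coprime_iff_not_dvd, ← Int.natCast_dvd]
    exact hm'

/-- `End (L⟦n⟧)` is local. -/
theorem local_end_shift (hp : p.Prime) (F : SpaceFunctor T) (n : ℤ) (a : L⟦n⟧ ⟶ L⟦n⟧) :
    IsIso a ∨ IsIso (𝟙 (L⟦n⟧) - a) := by
  obtain ⟨b, rfl⟩ := (shiftFunctor T n).map_surjective a
  rcases h.local_end hp F b with h1 | h1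
  · left
    infer_instance
  · right
    rw [← CategoryTheory.Functor.map_id, ← Functor.map_sub]
    infer_instance

end IsPLoc

end Vale.Agent.P093.N.Real
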