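import Vale.Agent.P251.X.Split
import Mathlib.CategoryTheory.Triangulated.Subcategory
import Mathlib.CategoryTheory.Retract

/-!
# P093, block N3-K (part R1a): a retract of an even cellular object is even cellular

`C` is a triangulated category with (countable) coproducts, `S : ℤ → C` a family of objects
(the `p`-local spheres of dimension `2d`) such that every map `(S d)⟦n⟧ ⟶ S d'` is zero if
`n + 2 d < 2 d'` and such that `End (S d)` is local.

* `Cell S l X`: `X` is built by attaching, one at a time, cells `S d`, `d ∈ l`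
  (the head of the list `l` is the last cell).
* `Cell.exists_of_retract`: every retract of a `Cell` object is a `Cell` object, with cells in the
  same range of dimensions, attached in increasing order of dimensions.
-/

open CategoryTheory Limits Pretriangulated Preadditive ObjectProperty

universe v u

set_option linter.unusedSectionVars false

namespace Vale.Agent.P093.N.RealSkel

variable {C : Type u} [Category.{v} C] [Preadditive C] [HasZeroObject C]
    [HasShift C ℤ] [∀ n : ℤ, (shiftFunctor C n).Additive] [Pretriangulated C]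

/-- `F` is a retract of `V`. -/
def Ret (F V : C) : Prop := ∃ (i : F ⟶ V) (r : V ⟶ F), i ≫ r = 𝟙 F

lemma Ret.of_isIso {F V : C} (i : F ⟶ V) (r : V ⟶ F) (h : IsIso (i ≫ r)) : Ret F V :=
  ⟨i, r ≫ inv (i ≫ r), by rw [← Category.assoc, IsIso.hom_inv_id]⟩

lemma Ret.trans {F V W : C} (h : Ret F V) (h' : Ret V W) : Ret F W := by
  obtain ⟨i, r, hi⟩ := h
  obtain ⟨j, s, hj⟩ := h'
  exact ⟨i ≫ j, s ≫ r, by rw [Category.assoc, reassoc_of% hj, hi]⟩

lemma Ret.of_iso {F V : C} (e : F ≅ V) : Ret F V := ⟨e.hom, e.inv, e.hom_inv_id⟩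

/-- a class of objects closed under retracts -/
def RetClosed (P : ObjectProperty C) : Prop := ∀ V, P V → ∀ F, Ret F V → P F

/-- `Orth n P Q`: every map `X⟦n⟧ ⟶ Y`, `X ∈ P`, `Y ∈ Q`, is zero. -/
def Orth (n : ℤ) (P Q : ObjectProperty C) : Prop :=
  ∀ X Y, P X → Q Y → ∀ f : X⟦n⟧ ⟶ Y, f = 0

lemma Orth.zero {P Q : ObjectProperty C} (h : Orth 0 P Q) {X Y : C} (hX : P X) (hY : Q Y)
    (f : X ⟶ Y) : f = 0 := by
  have h1 := h X Y hX hY (((shiftFunctorZero C ℤ).app X).hom ≫ f)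
  rw [← cancel_epi ((shiftFunctorZero C ℤ).app X).hom, h1, comp_zero]

section Exact

variable {A X B W : C} {f : A ⟶ X} {g : X ⟶ B} {k : B ⟶ A⟦(1 : ℤ)⟧}

lemma coyo2 (hT : Triangle.mk f g k ∈ distTriang C) (φ : W ⟶ X) (h : φ ≫ g = 0) :
    ∃ ψ : W ⟶ A, φ = ψ ≫ f := Triangle.coyoneda_exact₂ _ hT φ h

lemma coyo3 (hT : Triangle.mk f g k ∈ distTriang C) (φ : W ⟶ B) (h : φ ≫ k = 0) :
    ∃ ψ : W ⟶ X, φ = ψ ≫ g := Triangle.coyoneda_exact₃ _ hT φ h

lemma coyo1 (hT : Triangle.mk f g k ∈ distTriang C) (φ : W ⟶ A⟦(1 : ℤ)⟧)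
    (h : φ ≫ f⟦(1 : ℤ)⟧' = 0) :
    ∃ ψ : W ⟶ B, φ = ψ ≫ k := Triangle.coyoneda_exact₁ _ hT φ h

lemma yo2 (hT : Triangle.mk f g k ∈ distTriang C) (φ : X ⟶ W) (h : f ≫ φ = 0) :
    ∃ ψ : B ⟶ W, φ = g ≫ ψ := Triangle.yoneda_exact₂ _ hT φ h

lemma yo3 (hT : Triangle.mk f g k ∈ distTriang C) (φ : B ⟶ W) (h : g ≫ φ = 0) :
    ∃ ψ : A⟦(1 : ℤ)⟧ ⟶ W, φ = k ≫ ψ := Triangle.yoneda_exact₃ _ hT φ h

lemma tr3 (hT : Triangle.mk f g k ∈ distTriang C) {A' X' B' : C} {f' : A' ⟶ X'} {g' : X' ⟶ B'}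
    {k' : B' ⟶ A'⟦(1 : ℤ)⟧} (hT' : Triangle.mk f' g' k' ∈ distTriang C) (a : A ⟶ A')
    (b : X ⟶ X') (h : f ≫ b = a ≫ f') :
    ∃ c : B ⟶ B', g ≫ c = b ≫ g' ∧ k ≫ a⟦(1 : ℤ)⟧' = c ≫ k' :=
  complete_distinguished_triangle_morphism _ _ hT hT' a b h

lemma split (hT : Triangle.mk f g k ∈ distTriang C) (h : k = 0) :
    ∃ e : X ≅ A ⊞ B, f ≫ e.hom = biprod.inl ∧ g = e.hom ≫ biprod.snd :=
  exists_iso_binaryBiproduct_of_distTriang _ hT h

end Exact

lemma exists_of_shift {A X B Y : C} {f : A ⟶ X} {g : X ⟶ B} {k : B ⟶ A⟦(1 : ℤ)⟧}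
    (hT : Triangle.mk f g k ∈ distTriang C) {n : ℤ} (φ : X⟦n⟧ ⟶ Y) (h : f⟦n⟧' ≫ φ = 0) :
    ∃ ψ : B⟦n⟧ ⟶ Y, φ = g⟦n⟧' ≫ ψ := by
  obtain ⟨ψ, hψ⟩ : ∃ ψ : B⟦n⟧ ⟶ Y, φ = (n.negOnePow • g⟦n⟧') ≫ ψ :=
    Triangle.yoneda_exact₂ _ (Triangle.shift_distinguished _ hT n) φ (by
      change (n.negOnePow • f⟦n⟧') ≫ φ = 0
      rw [Linear.units_smul_comp, h, smul_zero])
  exact ⟨n.negOnePow • ψ, by rw [hψ, Linear.units_smul_comp, Linear.comp_units_smul]⟩

lemma Orth.ext_left {n : ℤ} {P P' Q : ObjectProperty C} (h : Orth n P Q) (h' : Orth n P' Q) :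
    Orth n (extensionProduct P P') Q := by
  rintro X Y ⟨A, B, f, g, k, hT, hA, hB⟩ hY φ
  obtain ⟨ψ, hψ⟩ := exists_of_shift hT φ (h _ _ hA hY _)
  rw [hψ, h' _ _ hB hY ψ, comp_zero]

lemma Orth.neg_one {P Q : ObjectProperty C} (h : Orth (-1) P Q) {X Y : C} (hX : P X) (hY : Q Y)
    (f : X ⟶ Y⟦(1 : ℤ)⟧) : f = 0 := by
  apply (shiftFunctor C (-1 : ℤ)).map_injective
  rw [← cancel_mono ((shiftFunctorCompIsoId C (1 : ℤ) (-1) (by norm_num)).app Y).hom]
  rw [Functor.map_zero, zero_comp]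
  exact h _ _ hX hY _

/-! ### The star product of two retract closed orthogonal classes is closed under retracts -/

theorem retClosed_ext [HasCoproducts.{0} C] {P Q : ObjectProperty C} (hP : RetClosed P)
    (hQ : RetClosed Q) (h0 : Orth 0 P Q) (h1 : Orth 1 P Q) :
    RetClosed (extensionProduct P Q) := by
  rintro V ⟨A, B, f, g, h, hT, hA, hB⟩ F ⟨i, r, hir⟩
  obtain ⟨a, ha⟩ := coyo2 hT (f ≫ r ≫ i) (h0.zero hA hB _)
  have hfg : f ≫ g = 0 := comp_distTriang_mor_zero₁₂ _ hT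
  -- a map `A ⟶ A` killed by `f` is zero
  have key1 : ∀ u : A ⟶ A, u ≫ f = 0 → u = 0 := by
    intro u hu
    obtain ⟨w, hw⟩ := coyo1 hT (u⟦(1 : ℤ)⟧') (by
      rw [← Functor.map_comp, hu, Functor.map_zero])
    apply (shiftFunctor C (1 : ℤ)).map_injective
    rw [hw, h1 _ _ hA hB w, zero_comp, Functor.map_zero]
  -- a map `B ⟶ B` killed by `g` is zero
  have key2 : ∀ u : B ⟶ B, g ≫ u = 0 → u = 0 := by
    intro u hu
    obtain ⟨w, hw⟩ := yo3 hT u hu
    rw [hw, h1 _ _ hA hB w, comp_zero]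
  have haa : a ≫ a = a := by
    rw [← sub_eq_zero]
    apply key1
    rw [sub_comp, Category.assoc, ← ha, reassoc_of% (show a ≫ f = _ from ha.symm),
      reassoc_of% hir, sub_self]
  obtain ⟨A', s, t, hst, hts⟩ := Vale.Agent.P251.X.exists_split a haa
  obtain ⟨Z, g', h', hT'⟩ := distinguished_cocone_triangle (s ≫ f ≫ r)
  obtain ⟨z1, hz1a, hz1b⟩ := tr3 hT' hT s i (by
    have : s ≫ a = s := by rw [← hts, reassoc_of% hst]
    rw [Category.assoc, Category.assoc, ha, reassoc_of% this])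
  obtain ⟨z2, hz2a, hz2b⟩ := tr3 hT hT' t r (by
    rw [reassoc_of% hts, ← reassoc_of% ha, hir, Category.comp_id])
  have hiso : IsIso (z1 ≫ z2) := by
    let φ : Triangle.mk (s ≫ f ≫ r) g' h' ⟶ Triangle.mk (s ≫ f ≫ r) g' h' :=
      Triangle.homMk _ _ (𝟙 A') (𝟙 F) (z1 ≫ z2)
        (by
          change (s ≫ f ≫ r) ≫ 𝟙 F = 𝟙 A' ≫ (s ≫ f ≫ r)
          rw [Category.comp_id, Category.id_comp])
        (by
          change g' ≫ z1 ≫ z2 = 𝟙 F ≫ g'
          rw [← Category.assoc, hz1a, Category.assoc, hz2a, ← Category.assoc, hir,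
            Category.id_comp])
        (by
          change h' ≫ (𝟙 A')⟦(1 : ℤ)⟧' = (z1 ≫ z2) ≫ h'
          rw [Category.assoc, ← hz2b, ← Category.assoc z1, ← hz1b, Category.assoc,
            ← Functor.map_comp, hst])
    exact isIso₃_of_isIso₁₂ φ hT' hT' (IsIso.id _) (IsIso.id _)
  exact ⟨A', Z, _, _, _, hT', hP _ hA _ ⟨s, t, hst⟩, hQ _ hB _ (Ret.of_isIso z1 z2 hiso)⟩

/-! ### Finite sums of a local object -/

/-- finite direct sums of copies of `L` -/
inductive Sums (L : C) : C → Prop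
  | zero (X : C) (hX : IsZero X) : Sums L X
  | succ (X Y : C) (hX : Sums L X) (e : Y ≅ X ⊞ L) : Sums L Y

lemma Sums.of_iso {L X Y : C} (e : X ≅ Y) (hX : Sums L X) : Sums L Y := by
  cases hX with
  | zero _ hX => exact .zero _ (hX.of_iso e.symm)
  | succ A _ hA e' => exact .succ A _ hA (e.symm ≪≫ e')

lemma Sums.self (L : C) : Sums L L := by
  obtain ⟨Z, hZ⟩ := HasZeroObject.zero (C := C)
  refine .succ Z _ (.zero _ hZ) ⟨biprod.inr, biprod.snd, by simp, ?_⟩
  apply biprod.hom_ext'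
  · exact hZ.eq_of_src _ _
  · rw [reassoc_of% biprod.inr_snd, Category.comp_id]

lemma Sums.prod {L X Y : C} (hX : Sums L X) (hY : Sums L Y) : Sums L (X ⊞ Y) := by
  induction hY with
  | zero Y hY =>
    refine .of_iso ⟨biprod.inl, biprod.fst, by simp, ?_⟩ hX
    ext
    · simp
    · exact hY.eq_of_tgt _ _
    · exact hY.eq_of_src _ _
    · exact hY.eq_of_src _ _
  | succ A Y hA e ih =>
    refine .succ _ _ ih ?_
    exact biprod.mapIso (Iso.refl X) e ≪≫ (biprod.associator X A L).symm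

lemma Sums.orth_left {n : ℤ} {L Y : C} (h : ∀ f : L⟦n⟧ ⟶ Y, f = 0) {X : C} (hX : Sums L X)
    (f : X⟦n⟧ ⟶ Y) : f = 0 := by
  induction hX with
  | zero X hX => exact ((shiftFunctor C n).map_isZero hX).eq_of_src _ _
  | succ A X hA e ih =>
    obtain ⟨ψ, hψ⟩ := exists_of_shift (binaryBiproductTriangle_distinguished A L)
      (e.inv⟦n⟧' ≫ f) (ih _)
    rw [h ψ, comp_zero] at hψ
    rw [← cancel_epi (e.inv⟦n⟧'), hψ, comp_zero]

lemma Sums.orth_right {L X : C} (h : ∀ f : X ⟶ L, f = 0) {Y : C} (hY : Sums L Y)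
    (f : X ⟶ Y) : f = 0 := by
  induction hY with
  | zero Y hY => exact hY.eq_of_tgt _ _
  | succ A Y hA e ih =>
    rw [← cancel_mono e.hom]
    ext
    · simpa using ih ((f ≫ e.hom) ≫ biprod.fst)
    · simpa using h ((f ≫ e.hom) ≫ biprod.snd)

lemma Sums.orth {n : ℤ} {L M : C} (h : ∀ f : L⟦n⟧ ⟶ M, f = 0) : Orth n (Sums L) (Sums M) :=
  fun _ _ hX hY f => hY.orth_right (fun g => hX.orth_left h g) f

lemma isIso_one_sub_comp {X Y : C} (x : X ⟶ Y) (y : Y ⟶ X) (h : IsIso (𝟙 Y - y ≫ x)) :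
    IsIso (𝟙 X - x ≫ y) := by
  have h1 : (𝟙 Y - y ≫ x) ≫ inv (𝟙 Y - y ≫ x) = 𝟙 Y := IsIso.hom_inv_id _
  have h2 : inv (𝟙 Y - y ≫ x) ≫ (𝟙 Y - y ≫ x) = 𝟙 Y := IsIso.inv_hom_id _
  generalize inv (𝟙 Y - y ≫ x) = w at h1 h2
  rw [sub_comp, Category.id_comp, Category.assoc] at h1
  rw [comp_sub, Category.comp_id] at h2
  refine ⟨𝟙 X + x ≫ w ≫ y, ?_, ?_⟩
  · have : x ≫ w ≫ y - x ≫ y ≫ x ≫ w ≫ y = x ≫ y := by
      have := congrArg (fun q => x ≫ q ≫ y) h1
      simpa [sub_comp, comp_sub] using this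
    simp only [comp_add, sub_comp, Category.comp_id, Category.id_comp, Category.assoc]
    rw [this]; abel
  · have : x ≫ w ≫ y - x ≫ w ≫ y ≫ x ≫ y = x ≫ y := by
      have := congrArg (fun q => x ≫ q ≫ y) h2
      simpa [sub_comp, comp_sub] using this
    simp only [add_comp, comp_sub, Category.comp_id, Category.id_comp, Category.assoc]
    rw [sub_eq_iff_eq_add] at this
    rw [this]; abel

/-- If `End L` is local, the finite sums of `L` are closed under retracts. -/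
theorem Sums.retClosed {L : C} (hL : ∀ a : L ⟶ L, IsIso a ∨ IsIso (𝟙 L - a)) :
    RetClosed (Sums L) := by
  intro V hV
  induction hV with
  | zero V hV =>
    rintro F ⟨i, r, h⟩
    refine .zero _ ?_
    rw [IsZero.iff_id_eq_zero, ← h, hV.eq_of_tgt i 0, zero_comp]
  | succ A V hA e ih =>
    rintro F hF
    obtain ⟨i, r, hir⟩ := hF.trans (Ret.of_iso e)
    have hd : ∀ {W : C} (u : F ⟶ W), u = (i ≫ biprod.fst) ≫ (biprod.inl ≫ r) ≫ u +
        (i ≫ biprod.snd) ≫ (biprod.inr ≫ r) ≫ u := by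
      intro W u
      have : i ≫ (biprod.fst ≫ biprod.inl + biprod.snd ≫ biprod.inr) ≫ r ≫ u = u := by
        rw [biprod.total, Category.id_comp, reassoc_of% hir]
      simp only [add_comp, comp_add, Category.assoc] at this ⊢
      exact this.symm
    rcases hL ((biprod.inr ≫ r) ≫ (i ≫ biprod.snd)) with h | h
    · -- `L` splits off `F`
      obtain ⟨F', j, w, hT⟩ := distinguished_cocone_triangle₁ (i ≫ biprod.snd)
      have hw : w = 0 := by
        have h0 : (i ≫ biprod.snd) ≫ w = 0 := comp_distTriang_mor_zero₂₃ _ hT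
        rw [← cancel_epi ((biprod.inr ≫ r) ≫ (i ≫ biprod.snd)), comp_zero, Category.assoc, h0,
          comp_zero]
      obtain ⟨e', he1, he2⟩ := split hT hw
      have hj : j ≫ i ≫ biprod.snd = 0 := comp_distTriang_mor_zero₁₂ _ hT
      refine .succ F' F (ih F' ⟨j ≫ i ≫ biprod.fst, biprod.inl ≫ r ≫ e'.hom ≫ biprod.fst, ?_⟩) e'
      have h2 := hd (e'.hom ≫ biprod.fst)
      have h3 : j ≫ e'.hom ≫ biprod.fst = 𝟙 F' := by
        rw [reassoc_of% he1, biprod.inl_fst]
      rw [h2, comp_add] at h3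
      simp only [Category.assoc] at h3 ⊢
      rw [← h3, left_eq_add]
      have := congrArg (fun q => q ≫ biprod.inr ≫ r ≫ e'.hom ≫ biprod.fst) hj
      simpa using this
    · -- `F` is a retract of `A`
      refine ih F (Ret.of_isIso (i ≫ biprod.fst) (biprod.inl ≫ r) ?_)
      have h1 := isIso_one_sub_comp (i ≫ biprod.snd) (biprod.inr ≫ r) h
      have h2 := hd (𝟙 F)
      rw [Category.comp_id, Category.comp_id] at h2
      have h3 : (i ≫ biprod.fst) ≫ (biprod.inl ≫ r) =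
          𝟙 F - (i ≫ biprod.snd) ≫ (biprod.inr ≫ r) := by
        rw [eq_sub_iff_add_eq]; exact h2.symm
      rw [h3]; exact h1

/-! ### Cellular objects -/

/-- `Cell S l X`: `X` is built by attaching the cells `S d`, `d ∈ l`, one at a time;
the head of the list is the last cell. -/
inductive Cell (S : ℤ → C) : List ℤ → C → Prop
  | zero (X : C) (hX : IsZero X) : Cell S [] X
  | cons (d : ℤ) (l : List ℤ) (A X : C) (f : A ⟶ X) (g : X ⟶ S d) (h : S d ⟶ A⟦(1 : ℤ)⟧)
      (hT : Triangle.mk f g h ∈ distTriang C) (hA : Cell S l A) : Cell S (d :: l) X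

variable {S : ℤ → C}

lemma Cell.of_iso {l : List ℤ} {X Y : C} (hX : Cell S l X) (e : X ≅ Y) : Cell S l Y := by
  cases hX with
  | zero _ hX => exact .zero _ (hX.of_iso e.symm)
  | cons d l A _ f g h hT hA =>
    refine .cons d l A Y (f ≫ e.hom) (e.inv ≫ g) h ?_ hA
    refine isomorphic_distinguished _ hT _ (Triangle.isoMk _ _ (Iso.refl _) e.symm (Iso.refl _)
      ?_ ?_ ?_)
    · change (f ≫ e.hom) ≫ e.inv = 𝟙 A ≫ f
      rw [Category.assoc, e.hom_inv_id, Category.comp_id, Category.id_comp]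
    · change (e.inv ≫ g) ≫ 𝟙 (S d) = e.inv ≫ g
      rw [Category.comp_id]
    · change h ≫ (𝟙 A)⟦(1 : ℤ)⟧' = 𝟙 (S d) ≫ h
      rw [CategoryTheory.Functor.map_id, Category.comp_id, Category.id_comp]

variable (S) in
/-- the objects filtered by `n` strata: sums of `S a`, `S (a + 1)`, ... (in this order) -/
def Ev (a : ℤ) : ℕ → ObjectProperty C
  | 0 => fun X => IsZero X
  | n + 1 => extensionProduct (Ev a n) (Sums (S (a + n)))

lemma Ev.of_isZero {a : ℤ} {n : ℕ} {X : C} (hX : IsZero X) : Ev S a n X := by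
  induction n generalizing X with
  | zero => exact hX
  | succ n ih =>
    refine ⟨X, X, 𝟙 X, 0, 0, ?_, ih hX, .zero _ hX⟩
    rw [Triangle.distinguished_iff_of_isZero₃ _ hX]
    exact (inferInstance : IsIso (𝟙 X))

/-- vanishing: no maps from low cells to high cells -/
def Vanish (S : ℤ → C) : Prop :=
  ∀ n d d' : ℤ, n + 2 * d < 2 * d' → ∀ f : (S d)⟦n⟧ ⟶ S d', f = 0

lemma Vanish.orth (hS : Vanish S) {n d d' : ℤ} (h : n + 2 * d < 2 * d') :
    Orth n (Sums (S d)) (Sums (S d')) :=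
  Sums.orth (hS n d d' h)

lemma Vanish.orth_Ev (hS : Vanish S) {m a d : ℤ} {n : ℕ} (h : m + 2 * (a + n) < 2 * d + 2) :
    Orth m (Ev S a n) (Sums (S d)) := by
  induction n with
  | zero =>
    intro X Y hX _ f
    exact ((shiftFunctor C m).map_isZero hX).eq_of_src _ _
  | succ n ih =>
    refine Orth.ext_left (ih (by push_cast at h ⊢; omega)) (hS.orth ?_)
    push_cast at h ⊢
    omega

/-- `End (S d)` is local. -/
def Loc (S : ℤ → C) : Prop := ∀ (d : ℤ) (a : S d ⟶ S d), IsIso a ∨ IsIso (𝟙 (S d) - a)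

theorem Ev.retClosed [HasCoproducts.{0} C] (hS : Vanish S) (hL : Loc S) (a : ℤ) (n : ℕ) :
    RetClosed (Ev S a n) := by
  induction n with
  | zero =>
    rintro V hV F ⟨i, r, h⟩
    have hV : IsZero V := hV
    change IsZero F
    rw [IsZero.iff_id_eq_zero, ← h, hV.eq_of_tgt i 0, zero_comp]
  | succ n ih =>
    exact retClosed_ext ih (Sums.retClosed (hL _)) (hS.orth_Ev (by omega))
      (hS.orth_Ev (by omega))

lemma Vanish.swap (hS : Vanish S) {d d' : ℤ} (h : d ≤ d') :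
    extensionProduct (Sums (S d')) (Sums (S d)) ≤ extensionProduct (Sums (S d)) (Sums (S d')) := by
  rintro X ⟨A, B, f, g, k, hT, hA, hB⟩
  have hk : k = 0 := (hS.orth (n := -1) (by omega)).neg_one hB hA k
  obtain ⟨e, -, -⟩ := split hT hk
  have e' : X ≅ B ⊞ A := e ≪≫ biprod.braiding A B
  exact (extensionProduct (Sums (S d)) (Sums (S d'))).prop_of_iso e'.symm
    ⟨B, A, _, _, _, binaryBiproductTriangle_distinguished B A, hB, hA⟩

lemma Vanish.self (hS : Vanish S) (d : ℤ) :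
    extensionProduct (Sums (S d)) (Sums (S d)) ≤ Sums (S d) := by
  rintro X ⟨A, B, f, g, k, hT, hA, hB⟩
  have hk : k = 0 := (hS.orth (n := -1) (by omega)).neg_one hB hA k
  obtain ⟨e, -, -⟩ := split hT hk
  exact (hA.prod hB).of_iso e.symm

variable [IsTriangulated C]

lemma Ev.ext_sums (hS : Vanish S) {a d : ℤ} {n : ℕ} (h1 : a ≤ d) (h2 : d < a + n) :
    extensionProduct (Ev S a n) (Sums (S d)) ≤ Ev S a n := by
  induction n with
  | zero => exfalso; simp at h2; omega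
  | succ n ih =>
    change extensionProduct (extensionProduct (Ev S a n) (Sums (S (a + n)))) (Sums (S d)) ≤
      extensionProduct (Ev S a n) (Sums (S (a + n)))
    rw [extensionProduct_assoc]
    rcases (show d = a + n ∨ d < a + n by push_cast at h2; omega) with rfl | h3
    · exact monotone_extensionProduct_right _ (hS.self _)
    · refine le_trans (monotone_extensionProduct_right _ (hS.swap h3.le)) ?_
      rw [← extensionProduct_assoc]
      exact monotone_extensionProduct_left _ (ih h3)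

lemma Cell.ev (hS : Vanish S) {l : List ℤ} {X : C} (hX : Cell S l X) {a : ℤ} {n : ℕ}
    (hl : ∀ d ∈ l, a ≤ d ∧ d < a + n) : Ev S a n X := by
  induction hX with
  | zero X hX => exact Ev.of_isZero hX
  | cons d l A X f g h hT hA ih =>
    have hd := hl d (by simp)
    exact Ev.ext_sums hS hd.1 hd.2 _
      ⟨A, S d, f, g, h, hT, ih fun d' hd' => hl d' (by simp [hd']), Sums.self _⟩

/-- attaching a sum of cells -/
lemma Cell.ext_sums {d : ℤ} {l : List ℤ} {A B X : C} (hA : Cell S l A) (hB : Sums (S d) B)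
    (f : A ⟶ X) (g : X ⟶ B) (h : B ⟶ A⟦(1 : ℤ)⟧) (hT : Triangle.mk f g h ∈ distTriang C) :
    ∃ k : ℕ, Cell S (List.replicate k d ++ l) X := by
  induction hB generalizing X with
  | zero B hB =>
    have : IsIso f := (Triangle.distinguished_iff_of_isZero₃ (Triangle.mk f g h) hB).1 hT
    exact ⟨0, hA.of_iso (asIso f)⟩
  | succ B' B hB' e ih =>
    have hX : extensionProduct (fun Y => Y = A)
        (extensionProduct (fun Y => Y = B') (fun Y => Y = S d)) X := by
      refine ⟨A, B, f, g, h, hT, rfl, ?_⟩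
      exact (extensionProduct (fun Y => Y = B') (fun Y => Y = S d)).prop_of_iso e.symm
        ⟨B', S d, _, _, _, binaryBiproductTriangle_distinguished B' (S d), rfl, rfl⟩
    rw [← extensionProduct_assoc] at hX
    obtain ⟨X', Y, f1, g1, h1, hT1, ⟨A1, B1, f2, g2, h2, hT2, rfl, rfl⟩, rfl⟩ := hX
    obtain ⟨k, hk⟩ := ih f2 g2 h2 hT2
    exact ⟨k + 1, .cons d _ X' X f1 g1 h1 hT1 hk⟩

/-- extensions of cellular objects -/
lemma Cell.ext {l l' : List ℤ} {A B X : C} (hA : Cell S l A) (hB : Cell S l' B)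
    (f : A ⟶ X) (g : X ⟶ B) (h : B ⟶ A⟦(1 : ℤ)⟧) (hT : Triangle.mk f g h ∈ distTriang C) :
    Cell S (l' ++ l) X := by
  induction hB generalizing X with
  | zero B hB =>
    have : IsIso f := (Triangle.distinguished_iff_of_isZero₃ (Triangle.mk f g h) hB).1 hT
    exact hA.of_iso (asIso f)
  | cons d l' B' B f0 g0 h0 hT0 hB' ih =>
    have hX : extensionProduct (fun Y => Y = A)
        (extensionProduct (fun Y => Y = B') (fun Y => Y = S d)) X :=
      ⟨A, B, f, g, h, hT, rfl, B', S d, f0, g0, h0, hT0, rfl, rfl⟩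
    rw [← extensionProduct_assoc] at hX
    obtain ⟨X', Y, f1, g1, h1, hT1, ⟨A1, B1, f2, g2, h2, hT2, rfl, rfl⟩, rfl⟩ := hX
    exact .cons d _ X' X f1 g1 h1 hT1 (ih f2 g2 h2 hT2)

lemma Ev.cell {a : ℤ} {n : ℕ} {X : C} (hX : Ev S a n X) :
    ∃ l : List ℤ, (∀ d ∈ l, a ≤ d ∧ d < a + n) ∧ l.Pairwise (· ≥ ·) ∧ Cell S l X := by
  induction n generalizing X with
  | zero => exact ⟨[], by simp, by simp, .zero _ hX⟩
  | succ n ih =>
    obtain ⟨A, B, f, g, h, hT, hA, hB⟩ := hX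
    obtain ⟨l, hl, hl', hlA⟩ := ih hA
    obtain ⟨k, hk⟩ := hlA.ext_sums hB f g h hT
    refine ⟨_, ?_, ?_, hk⟩
    · intro d hd
      rw [List.mem_append, List.mem_replicate] at hd
      push_cast
      rcases hd with ⟨-, rfl⟩ | hd
      · omega
      · have := hl d hd; omega
    · rw [List.pairwise_append]
      refine ⟨?_, hl', ?_⟩
      · rw [List.pairwise_replicate]; right; exact le_refl _
      · intro x hx y hy
        rw [List.mem_replicate] at hx
        have := hl y hy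
        omega

/-- **Main theorem of this file.** A retract of an object with cells in even dimensions has cells
in even dimensions (in the same range), which can be attached one at a time in increasing order of
dimension. -/
theorem Cell.exists_of_retract [HasCoproducts.{0} C] (hS : Vanish S) (hL : Loc S)
    {l : List ℤ} {V F : C} (hV : Cell S l V) {a b : ℤ} (hl : ∀ d ∈ l, a ≤ d ∧ d < b)
    (i : F ⟶ V) (r : V ⟶ F) (hir : i ≫ r = 𝟙 F) :
    ∃ l' : List ℤ, (∀ d ∈ l', a ≤ d ∧ d < b) ∧ l'.Pairwise (· ≥ ·) ∧ Cell S l' F := by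
  rcases l.eq_nil_or_concat with rfl | hne
  · refine ⟨[], by simp, by simp, .zero _ ?_⟩
    cases hV with
    | zero _ hV => rw [IsZero.iff_id_eq_zero, ← hir, hV.eq_of_tgt i 0, zero_comp]
  · have hab : a ≤ b := by
      obtain ⟨L, x, rfl⟩ := hne
      have := hl x (by simp)
      omega
    obtain ⟨n, hn⟩ : ∃ n : ℕ, b = a + n := ⟨(b - a).toNat, by omega⟩
    subst hn
    exact (Ev.retClosed hS hL a n _ (hV.ev hS hl) F ⟨i, r, hir⟩).cell

lemma Cell.isZero_iff_nil {l : List ℤ} {X : C} (hX : Cell S l X) (h : l = []) : IsZero X := by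
  subst h
  cases hX with
  | zero _ hX => exact hX

end Vale.Agent.P093.N.RealSkel
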