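import Vale.Agent.P093.N.RealSkelT
import Vale.Agent.P093.N.RealLoc
import Vale.Agent.P251.M.SpaceCells

/-!
# P093, block N3-K (part R1a): retracts of `V ⊗ S_(p)` are cellular, for `IsPLoc p L u`
-/

open CategoryTheory Limits Pretriangulated MonoidalCategory
open Vale.Agent.P251.G Vale.Agent.P251.G.LC Vale.Agent.P251.H Vale.Agent.P251.M
  Vale.Agent.P251.T Vale.Agent.P251.I

universe v u

set_option linter.unusedSectionVars false

namespace Vale.Agent.P093.N.Real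

variable {T : Type u} [Category.{v} T] [Preadditive T] [HasZeroObject T]
  [HasShift T ℤ] [∀ n : ℤ, (shiftFunctor T n).Additive] [Pretriangulated T]
  [MonoidalCategory T] [SymmetricCategory T] [TensorTriangulated T]

/-- `[S^n, S_(p)] = 0` for `n < 0`. -/
theorem IsPLoc.unit_eq_zero {p : ℕ} {L : T} {u : 𝟙_ T ⟶ L} (h : IsPLoc p L u)
    (F : SpaceFunctor T) {n : ℤ} (hn : n < 0) (g : (𝟙_ T)⟦n⟧ ⟶ L) : g = 0 := by
  obtain ⟨q, hq, g', hg'⟩ := h.fac n (𝟙_ T) (g ≫ (λ_ L).inv)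
  have h0 : g' = 0 := unit_conn F n hn g'
  rw [h0, zero_comp] at hg'
  have h1 : (q : ℤ) • g = 0 := by
    rw [← cancel_mono (λ_ L).inv, Preadditive.zsmul_comp, hg', zero_comp]
  have h2 := h.inv q hq
  have h3 : g ≫ ((q : ℤ) • 𝟙 L) = 0 := by
    rw [Preadditive.comp_zsmul, Category.comp_id, h1]
  rw [← cancel_mono ((q : ℤ) • 𝟙 L), h3, zero_comp]

/-- `[S_(p)⟦n⟧, S_(p)] = 0` for `n < 0`. -/
theorem IsPLoc.eq_zero_of_neg {p : ℕ} {L : T} {u : 𝟙_ T ⟶ L} (h : IsPLoc p L u)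
    (F : SpaceFunctor T) (n : ℤ) (hn : n < 0) (f : L⟦n⟧ ⟶ L) : f = 0 := by
  let e : (𝟙_ T)⟦n⟧ ⊗ L ≅ L⟦n⟧ := β_ ((𝟙_ T)⟦n⟧) L ≪≫ tensorUnitShiftIso L n
  rw [← cancel_epi e.hom, comp_zero]
  apply h.hom_ext h.isIso_eta_self
  rw [comp_zero]
  exact h.unit_eq_zero F hn _

variable [IsTriangulated T] [HasCoproducts.{0} T]

/-- **R1a**, final form: a retract of `V ⊗ S_(p)`, `V` a finite even complex, is built by attaching
cells `S_(p)⟦2 k⟧` one at a time (in increasing order of dimensions). -/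
theorem IsPLoc.exists_cell_of_retract {p : ℕ} (hp : p.Prime) {L : T} {u : 𝟙_ T ⟶ L}
    (h : IsPLoc p L u) (F : SpaceFunctor T) {d : ℤ} {V Fy : T} (hV : EvenCell T d V)
    (i : Fy ⟶ V ⊗ L) (r : V ⊗ L ⟶ Fy) (hir : i ≫ r = 𝟙 Fy) :
    ∃ l : List ℤ, (∀ k ∈ l, d ≤ k) ∧ l.Pairwise (· ≥ ·) ∧
      RealSkel.Cell (RealSkel.sph L) l Fy :=
  RealSkel.exists_cell_of_retract (h.eq_zero_of_neg F) (h.local_end hp F) hV i r hir

theorem IsPLoc.cells_of_retract {p : ℕ} (hp : p.Prime) {L : T} {u : 𝟙_ T ⟶ L}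
    (h : IsPLoc p L u) (F : SpaceFunctor T) {d : ℤ} {V Fy : T} (hV : EvenCell T d V)
    (i : Fy ⟶ V ⊗ L) (r : V ⊗ L ⟶ Fy) (hir : i ≫ r = 𝟙 Fy) : Cells L Fy :=
  RealSkel.cells_of_retract (h.eq_zero_of_neg F) (h.local_end hp F) hV i r hir

end Vale.Agent.P093.N.Real
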