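import Vale.Agent.P093.N.RealLoc

/-!
# P093, part N (block 3c, REAL): realisation by spaces

`Cells L Y → ∃ X n t, EvSp X n ∧ Nonempty (F.S.obj X ⊗ L ≅ Y⟦2 t⟧)` for the `p`-local sphere `L`.
-/

open CategoryTheory MonoidalCategory Limits Pretriangulated ZeroObject
open Vale.Agent.P251.G Vale.Agent.P251.G.LC Vale.Agent.P251.H Vale.Agent.P251.M
  Vale.Agent.P251.T Vale.Agent.P251.I

universe v u

set_option linter.unusedSectionVars false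

namespace Vale.Agent.P093.N.Real

section AIso

variable {C : Type u} [Category.{v} C]

/-- isomorphic morphisms -/
def AIso {A B A' B' : C} (f : A ⟶ B) (f' : A' ⟶ B') : Prop :=
  ∃ (a : A ≅ A') (b : B ≅ B'), f ≫ b.hom = a.hom ≫ f'

namespace AIso

variable {A B A' B' A'' B'' : C} {f : A ⟶ B} {f' : A' ⟶ B'} {f'' : A'' ⟶ B''}

theorem refl (f : A ⟶ B) : AIso f f := ⟨Iso.refl _, Iso.refl _, by simp⟩

theorem symm (h : AIso f f') : AIso f' f := by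
  obtain ⟨a, b, w⟩ := h
  exact ⟨a.symm, b.symm, by
    rw [Iso.symm_hom, Iso.symm_hom, Iso.comp_inv_eq, Category.assoc, w, Iso.inv_hom_id_assoc]⟩

theorem trans (h : AIso f f') (h' : AIso f' f'') : AIso f f'' := by
  obtain ⟨a, b, w⟩ := h
  obtain ⟨a', b', w'⟩ := h'
  exact ⟨a ≪≫ a', b ≪≫ b', by simp [reassoc_of% w, w']⟩

theorem map {D : Type*} [Category D] (F : C ⥤ D) (h : AIso f f') : AIso (F.map f) (F.map f') := by
  obtain ⟨a, b, w⟩ := h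
  exact ⟨F.mapIso a, F.mapIso b, by simp [← Functor.map_comp, w]⟩

theorem conj (a : A' ≅ A) (f : A ⟶ B) (b : B ≅ B') : AIso (a.hom ≫ f ≫ b.hom) f :=
  ⟨a, b.symm, by simp⟩

theorem of_eq {f g : A ⟶ B} (h : f = g) : AIso f g := h ▸ refl f

variable [MonoidalCategory C]

theorem whiskerLeft (Z : C) (h : AIso f f') : AIso (Z ◁ f) (Z ◁ f') := h.map (tensorLeft Z)

theorem whiskerRight (Z : C) (h : AIso f f') : AIso (f ▷ Z) (f' ▷ Z) := h.map (tensorRight Z)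

theorem braid [BraidedCategory C] (f : A ⟶ B) (Z : C) : AIso (f ▷ Z) (Z ◁ f) :=
  ⟨β_ A Z, β_ B Z, by simp⟩

theorem assocR (f : A ⟶ B) (Z W : C) : AIso ((f ▷ Z) ▷ W) (f ▷ (Z ⊗ W)) :=
  ⟨α_ A Z W, α_ B Z W, by simp⟩

theorem assocL (Z W : C) (f : A ⟶ B) : AIso (Z ◁ W ◁ f) ((Z ⊗ W) ◁ f) :=
  ⟨(α_ Z W A).symm, (α_ Z W B).symm, by simp⟩

theorem assocM (Z W : C) (f : A ⟶ B) : AIso ((Z ◁ f) ▷ W) (Z ◁ (f ▷ W)) :=
  ⟨α_ Z A W, α_ Z B W, by simp⟩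

theorem whiskerLeft_iso {Z Z' : C} (e : Z ≅ Z') (f : A ⟶ B) : AIso (Z ◁ f) (Z' ◁ f) :=
  ⟨whiskerRightIso e A, whiskerRightIso e B, by simp [whisker_exchange]⟩

theorem whiskerRight_iso {Z Z' : C} (e : Z ≅ Z') (f : A ⟶ B) : AIso (f ▷ Z) (f ▷ Z') :=
  ⟨whiskerLeftIso A e, whiskerLeftIso B e, by simp [whisker_exchange]⟩

end AIso

end AIso

variable {T : Type u} [Category.{v} T] [Preadditive T] [HasZeroObject T]
  [HasShift T ℤ] [∀ n : ℤ, (shiftFunctor T n).Additive] [Pretriangulated T]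

section IsCof

/-- `C` is a cofibre of `f` -/
def IsCof {A B : T} (f : A ⟶ B) (C : T) : Prop := ∃ (g : B ⟶ C) (h : C ⟶ A⟦(1 : ℤ)⟧), Dist f g h

namespace IsCof

variable {A B A' B' C C' : T} {f : A ⟶ B} {f' : A' ⟶ B'}

theorem iso (h : IsCof f C) (h' : IsCof f' C') (e : AIso f f') : Nonempty (C ≅ C') := by
  obtain ⟨g, c, D⟩ := h
  obtain ⟨g', c', D'⟩ := h'
  obtain ⟨a, b, w⟩ := e
  obtain ⟨e, -, -⟩ := exists_iso_of_arrow_iso _ _ D D' (Arrow.isoMk a b w.symm)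
  exact ⟨Triangle.π₃.mapIso e⟩

theorem whiskerLeft [MonoidalCategory T] [SymmetricCategory T] [TensorTriangulated T] (Z : T)
    (h : IsCof f C) : IsCof (Z ◁ f) (Z ⊗ C) := by
  obtain ⟨g, c, D⟩ := h
  exact ⟨_, _, TensorTriangulated.distinguished Z _ D⟩

theorem of_aIso (h : IsCof f C) (e : AIso f f') : IsCof f' C := by
  obtain ⟨C', g', c', D'⟩ := exists_cone f'
  obtain ⟨i⟩ := h.iso ⟨g', c', D'⟩ e
  exact ⟨g' ≫ i.inv, i.hom ≫ c', D'.of_iso₃ i.hom (by simp) rfl⟩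

theorem whiskerRight [MonoidalCategory T] [SymmetricCategory T] [TensorTriangulated T] (Z : T)
    (h : IsCof f C) : IsCof (f ▷ Z) (C ⊗ Z) := by
  obtain ⟨g, c, D⟩ := (h.whiskerLeft Z).of_aIso (AIso.braid f Z).symm
  exact ⟨g ≫ (β_ Z C).hom, (β_ Z C).inv ≫ c, D.of_iso₃ (β_ Z C).inv (by simp) rfl⟩

end IsCof

end IsCof

section main

variable [MonoidalCategory T] [SymmetricCategory T] [TensorTriangulated T]
  (F : SpaceFunctor T)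

/-- the even spheres -/
noncomputable abbrev Ev (k : ℕ) : T := F.S.obj (SphF (2 * k))

/-- products of even spheres -/
theorem nonempty_ev_add (k t : ℕ) : Nonempty (Ev F k ⊗ Ev F t ≅ Ev F (k + t)) := by
  have e : SphF (2 * k) ⊗ SphF (2 * t) ≅ SphF (2 * k + 2 * t) :=
    fcIso (X := SphF (2 * k) ⊗ SphF (2 * t)) (Y := SphF (2 * k + 2 * t)) (sphTensor _ _)
  rw [Ev, Ev, Ev, mul_add]
  exact ⟨Functor.Monoidal.μIso F.S _ _ ≪≫ F.S.mapIso e⟩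

/-- `Y` is realised by an even cell space. -/
def Realized (L Y : T) : Prop :=
  ∃ (X : LC) (n : ℕ) (h : EvSp X n) (t : ℕ),
    Nonempty (F.S.obj ⟨X, h.fc⟩ ⊗ L ≅ Ev F t ⊗ Y)

/-- the suspension spectrum of a product -/
noncomputable def sProd (X Y : FCat) : F.S.obj (X ⊗ Y) ≅ F.S.obj X ⊗ F.S.obj Y :=
  (Functor.Monoidal.μIso F.S X Y).symm

theorem raise {L Y : T} {X : LC} {n : ℕ} (h : EvSp X n) {t : ℕ}
    (e : Nonempty (F.S.obj ⟨X, h.fc⟩ ⊗ L ≅ Ev F t ⊗ Y)) (k : ℕ) :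
    Nonempty (F.S.obj ⟨X ⊗ Sph (2 * k), (EvSp.susp k h).fc⟩ ⊗ L ≅ Ev F (k + t) ⊗ Y) := by
  obtain ⟨e⟩ := e
  obtain ⟨e'⟩ := nonempty_ev_add F k t
  let X' : FCat := ⟨X, h.fc⟩
  exact ⟨whiskerRightIso (sProd F X' (SphF (2 * k)) ≪≫ β_ _ _) L ≪≫ α_ _ _ _ ≪≫
    whiskerLeftIso (Ev F k) e ≪≫ (α_ _ _ _).symm ≪≫ whiskerRightIso e' Y⟩

/-- `S (h ▷ Z)` -/
theorem aIso_map_whiskerRight {X Y : FCat} (f : X ⟶ Y) (Z : FCat) :
    AIso (F.S.map (f ▷ Z)) (F.S.map f ▷ F.S.obj Z) := by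
  refine ⟨sProd F X Z, sProd F Y Z, ?_⟩
  simp [sProd]

/-- fullness, with an even number of suspensions -/
theorem full_even {X Y : FCat} (g : F.S.obj X ⟶ F.S.obj Y) :
    ∃ (b : ℕ) (h : X ⊗ SphF (2 * b) ⟶ Y ⊗ SphF (2 * b)), AIso (F.S.map h) (g ▷ Ev F b) := by
  obtain ⟨N, h, hh⟩ := F.full g
  have e : SphF N ⊗ SphF N ≅ SphF (2 * N) := by
    rw [two_mul]
    exact fcIso (X := SphF N ⊗ SphF N) (Y := SphF (N + N)) (sphTensor _ _)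
  have h1 : AIso (F.S.map h) (g ▷ F.S.obj (SphF N)) := by
    rw [hh]
    exact AIso.conj (Functor.Monoidal.μIso F.S X (SphF N)).symm _
      (Functor.Monoidal.μIso F.S Y (SphF N))
  refine ⟨N, (X ◁ e.inv) ≫ (α_ _ _ _).inv ≫ (h ▷ SphF N) ≫ (α_ _ _ _).hom ≫ (Y ◁ e.hom), ?_⟩
  have h2 := AIso.conj (whiskerLeftIso X e.symm ≪≫ (α_ X (SphF N) (SphF N)).symm) (h ▷ SphF N)
    (α_ Y (SphF N) (SphF N) ≪≫ whiskerLeftIso Y e)
  have h3 := h2.map F.S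
  simp only [Iso.trans_hom, Iso.symm_hom, whiskerLeftIso_hom, Category.assoc] at h3
  refine h3.trans ((aIso_map_whiskerRight F h (SphF N)).trans ?_)
  refine (h1.whiskerRight _).trans ((AIso.assocR g _ _).trans ?_)
  exact AIso.whiskerRight_iso ((sProd F (SphF N) (SphF N)).symm ≪≫ F.S.mapIso e) g

/-- the shifts of `L` as products of spheres with `L` -/
theorem nonempty_sph_tensor {L : T} (a t : ℕ) (k : ℤ) (hk : 2 * k - 1 + 2 * t = 2 * a + 1) :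
    Nonempty (F.S.obj (SphF (2 * a + 1)) ⊗ L ≅ Ev F t ⊗ ((L⟦2 * k⟧)⟦(-1 : ℤ)⟧)) := by
  have e1 : F.S.obj (SphF (2 * a + 1)) ⊗ L ≅ L⟦(2 * a + 1 : ℤ)⟧ :=
    β_ _ _ ≪≫ whiskerLeftIso L (sphIso F (2 * a + 1)) ≪≫ tensorUnitShiftIso L _ ≪≫
      eqToIso (by push_cast; rfl)
  have e2 : Ev F t ⊗ ((L⟦2 * k⟧)⟦(-1 : ℤ)⟧) ≅ ((L⟦2 * k⟧)⟦(-1 : ℤ)⟧)⟦(2 * t : ℤ)⟧ :=
    β_ _ _ ≪≫ whiskerLeftIso _ (sphIso F (2 * t)) ≪≫ tensorUnitShiftIso _ _ ≪≫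
      eqToIso (by push_cast; rfl)
  have e3 : L⟦(2 * a + 1 : ℤ)⟧ ≅ ((L⟦2 * k⟧)⟦(-1 : ℤ)⟧)⟦(2 * t : ℤ)⟧ :=
    (shiftFunctorAdd' T (2 * k - 1) (2 * t) (2 * a + 1) hk).app L ≪≫
      (shiftFunctor T (2 * t : ℤ)).mapIso
        ((shiftFunctorAdd' T (2 * k) (-1) (2 * k - 1) (by ring)).app L)
  exact ⟨e1 ≪≫ e3 ≪≫ e2.symm⟩

theorem Realized.attach {p : ℕ} {L : T} {u : 𝟙_ T ⟶ L} (hL : IsPLoc p L u) {X Y : T} (k : ℤ)
    (g : X ⟶ Y) (q : Y ⟶ L⟦2 * k⟧) (h : L⟦2 * k⟧ ⟶ X⟦(1 : ℤ)⟧) (D : Dist g q h)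
    (hX : Realized F L X) : Realized F L Y := by
  obtain ⟨W, n, hW, t₀, e₀⟩ := hX
  obtain ⟨s, a, hs⟩ : ∃ s a : ℕ, 2 * k - 1 + 2 * ((s + t₀ : ℕ) : ℤ) = 2 * a + 1 := by
    refine ⟨(1 - k).toNat, (k - 1 + ((1 - k).toNat + t₀ : ℕ)).toNat, ?_⟩
    omega
  obtain ⟨e₁⟩ := raise F hW e₀ s
  have hW' : EvSp (W ⊗ Sph (2 * s)) n := EvSp.susp s hW
  let W' : FCat := ⟨W ⊗ Sph (2 * s), hW'.fc⟩
  let t := s + t₀
  have e₁' : F.S.obj W' ⊗ L ≅ Ev F t ⊗ X := e₁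
  obtain ⟨f, c, D'⟩ := Dist.invRot' D
  have hf : IsCof f Y := ⟨g, c, D'⟩
  obtain ⟨e₂⟩ := nonempty_sph_tensor (L := L) F a t k hs
  -- the attaching map
  let φ : F.S.obj (SphF (2 * a + 1)) ⊗ L ⟶ F.S.obj W' ⊗ L := e₂.hom ≫ (Ev F t ◁ f) ≫ e₁'.inv
  have hφ : AIso φ (Ev F t ◁ f) := AIso.conj e₂ _ e₁'.symm
  -- an integral multiple
  obtain ⟨q', hq', g₀, hg₀⟩ : ∃ q' : ℕ, q'.Coprime p ∧
      ∃ g₀ : F.S.obj (SphF (2 * a + 1)) ⟶ F.S.obj W', (q' : ℤ) • φ = g₀ ▷ L := by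
    obtain ⟨q', hq', g₁, hg₁⟩ := hL.fac ((2 * a + 1 : ℕ) : ℤ) (F.S.obj W')
      ((sphIso F (2 * a + 1)).inv ≫ eta u _ ≫ φ)
    refine ⟨q', hq', (sphIso F (2 * a + 1)).hom ≫ g₁, ?_⟩
    apply hL.hom_ext (hL.isIso_eta_tensor _)
    rw [← eta_naturality, Preadditive.comp_zsmul]
    have h1 : (sphIso F (2 * a + 1)).hom ≫
        ((q' : ℤ) • ((sphIso F (2 * a + 1)).inv ≫ eta u _ ≫ φ)) =
        (sphIso F (2 * a + 1)).hom ≫ g₁ ≫ eta u _ := by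
      rw [hg₁]
      rfl
    rw [Preadditive.comp_zsmul, Iso.hom_inv_id_assoc] at h1
    rw [h1, Category.assoc]
  have hφ' : AIso (g₀ ▷ L) (Ev F t ◁ f) := by
    have := hL.isIso_zsmul_tensor (F.S.obj W') hq'
    rw [← hg₀]
    refine AIso.trans ?_ hφ
    refine ⟨Iso.refl _, (asIso ((q' : ℤ) • 𝟙 (F.S.obj W' ⊗ L))).symm, ?_⟩
    rw [Iso.symm_hom, Iso.comp_inv_eq, asIso_hom]
    simp
  -- realisation
  obtain ⟨b, h₀, hh₀⟩ := full_even F g₀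
  have e₃ : Sph (2 * (a + b) + 1) ≅ Sph (2 * a + 1) ⊗ Sph (2 * b) :=
    eqToIso (by congr 1; ring) ≪≫ (sphTensor (2 * a + 1) (2 * b)).symm
  let V : FCat := ⟨W'.obj ⊗ Sph (2 * b), (EvSp.susp b hW').fc⟩
  let h₁ : SphF (2 * (a + b) + 1) ⟶ V := FCat.hom (e₃.hom ≫ h₀.hom)
  have hC : EvSp (LC.cone h₁.hom) (n + 1) := EvSp.cone (a + b) h₁.hom (EvSp.susp b hW')
  refine ⟨LC.cone h₁.hom, n + 1, hC, b + t, ?_⟩
  have c1 : IsCof (F.S.map h₁ ▷ L) (F.S.obj ⟨LC.cone h₁.hom, hC.fc⟩ ⊗ L) := by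
    obtain ⟨c', D''⟩ := exists_coneTriangle F h₁
    exact IsCof.whiskerRight L ⟨_, _, D''⟩
  obtain ⟨e₄⟩ := nonempty_ev_add F b t
  have c2 : IsCof (Ev F (b + t) ◁ f) (Ev F (b + t) ⊗ Y) := hf.whiskerLeft _
  refine c1.iso c2 ?_
  have a1 : AIso (F.S.map h₁) (F.S.map h₀) := by
    have : h₁ = (fcIso (X := SphF (2 * (a + b) + 1)) (Y := SphF (2 * a + 1) ⊗ SphF (2 * b))
      e₃).hom ≫ h₀ ≫ (Iso.refl _).hom := by
      rw [Iso.refl_hom, Category.comp_id]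
      rfl
    rw [this]
    exact (AIso.conj _ _ _).map F.S
  refine ((a1.trans hh₀).whiskerRight L).trans ?_
  refine ((AIso.braid g₀ (Ev F b)).whiskerRight L).trans ?_
  refine (AIso.assocM _ _ _).trans ?_
  refine (hφ'.whiskerLeft _).trans ?_
  exact (AIso.assocL _ _ _).trans (AIso.whiskerLeft_iso e₄ f)

/-- **Realisation by spaces**, one cell at a time. -/
theorem Cells.realized {p : ℕ} {L : T} {u : 𝟙_ T ⟶ L} (hL : IsPLoc p L u) {Y : T}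
    (h : Cells L Y) : Realized F L Y := by
  induction h with
  | zero Y hY =>
    refine ⟨LC.of Empty, 0, EvSp.empty, 0, ?_⟩
    have h1 : IsZero (F.S.obj ⟨LC.of Empty, EvSp.empty.fc⟩ ⊗ L) := by
      have h2 : IsZero (F.S.obj ⟨LC.of Empty, EvSp.empty.fc⟩) :=
        F.isZero (inferInstanceAs (IsEmpty Empty))
      rw [IsZero.iff_id_eq_zero, ← MonoidalCategory.id_whiskerRight, (IsZero.iff_id_eq_zero _).1 h2,
        MonoidalPreadditive.zero_whiskerRight]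
    have h3 : IsZero (Ev F 0 ⊗ Y) := by
      rw [IsZero.iff_id_eq_zero, ← MonoidalCategory.whiskerLeft_id, (IsZero.iff_id_eq_zero _).1 hY,
        MonoidalPreadditive.whiskerLeft_zero]
    exact ⟨h1.iso h3⟩
  | attach k g q h D _ ih => exact ih.attach F hL k g q h D

end main

end Vale.Agent.P093.N.Real
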