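import Vale.Agent.P093.N.VL

/-!
# P093, part N (TT): vanishing lines from finite towers; vanishing lines up to multiples

* `VL.of_towers` : a vanishing line from towers of finite length which may depend on the length, and
  start at an object of which `X` is a retract.
* `U.VLS S D b X` : vanishing lines up to multiples in the multiplicative set `S` of integers
  (`S = ⊥` is `VL`, `S` = integers prime to `p` is the `p`-local version), closed under shifts,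
  triangles and retracts up to multiples in `S`.
-/

open CategoryTheory MonoidalCategory Limits Pretriangulated

set_option linter.unusedSectionVars false

universe v u

namespace Vale.Agent.P093.N.TT

open Vale.Agent.P251.T Vale.Agent.P251.S

variable {T : Type u} [Category.{v} T] [Preadditive T] [HasZeroObject T]
    [HasShift T ℤ] [∀ n : ℤ, (shiftFunctor T n).Additive] [Pretriangulated T]
    [MonoidalCategory T] [SymmetricCategory T] [TensorTriangulated T]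

namespace UTri

variable {U : UTri T}

/-- **The tower lemma**, for a tower of finite length. -/
theorem tower_le (F M : ℕ → T) (t : ∀ s, F (s + 1) ⟶ F s) (q : ∀ s, F s ⟶ M s)
    (d : ∀ s, M s ⟶ (F (s + 1))⟦(1 : ℤ)⟧) (s : ℕ)
    (hd : ∀ i ≤ s, Triangle.mk (t i) (q i) (d i) ∈ distTriang T)
    (ht : ∀ i ≤ s, U.Null (t i)) (hM : ∀ i ≤ s, U.Inj (M i)) :
    ∃ (a : U.I ⊗ U.Q s (F 0) ⟶ F (s + 1)) (b : F (s + 1) ⟶ U.Q s (F 0)),
      a ≫ b = U.ε (U.Q s (F 0)) := by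
  have key : ∀ i ≤ s, ∃ (α : U.Q i (F 0) ⟶ F i) (β : F i ⟶ U.Q i (F 0)),
      U.ε (U.Q i (F 0)) ≫ (α ≫ β - 𝟙 _) = 0 := by
    intro i hi
    induction i with
    | zero =>
      refine ⟨𝟙 (F 0), 𝟙 (F 0), ?_⟩
      change U.ε (F 0) ≫ (𝟙 (F 0) ≫ 𝟙 (F 0) - 𝟙 (F 0)) = 0
      rw [Category.comp_id, sub_self, comp_zero]
    | succ i ih =>
      obtain ⟨α, β, h⟩ := ih (by omega)
      obtain ⟨α', β', h', -⟩ := tower_step (hd i (by omega)) (ht i (by omega))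
        (hM i (by omega)) α β h
      exact ⟨α', β', h'⟩
  obtain ⟨α, β, h⟩ := key s le_rfl
  obtain ⟨α', β', -, b, hb⟩ := tower_step (hd s le_rfl) (ht s le_rfl) (hM s le_rfl) α β h
  exact ⟨α', b, hb⟩

variable {D : ℤ → T → Prop} {b : ℤ}

/-- A vanishing line from towers of finite length. -/
theorem VL.of_towers {X : T} (c : ℤ)
    (H : ∀ s : ℕ, ∃ (F M : ℕ → T) (t : ∀ s, F (s + 1) ⟶ F s) (q : ∀ s, F s ⟶ M s)
      (d : ∀ s, M s ⟶ (F (s + 1))⟦(1 : ℤ)⟧) (i : X ⟶ F 0) (r : F 0 ⟶ X),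
      (∀ i ≤ s, Triangle.mk (t i) (q i) (d i) ∈ distTriang T) ∧
      (∀ i ≤ s, U.Null (t i)) ∧ (∀ i ≤ s, U.Inj (M i)) ∧ i ≫ r = 𝟙 X ∧
      ∀ (n : ℤ) (W : T), D n W → n + c < b * s → ∀ f : W ⟶ F (s + 1), f = 0) :
    U.VL D b X := by
  refine ⟨1, c, fun s n W hW hn g hg => ?_⟩
  obtain ⟨F, M, t, q, d, i, r, hd, ht, hM, hir, hF⟩ := H s
  have h1 : g ≫ U.Qm s i = 0 := by
    obtain ⟨g', hg'⟩ := (AF_one_iff.1 (hg.comp_right (U.Qm s i))).lift
    obtain ⟨x, y, hxy⟩ := tower_le F M t q d s hd ht hM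
    rw [← hg', ← hxy, ← Category.assoc, hF n W hW hn (g' ≫ x), zero_comp]
  rw [← Category.comp_id g, ← Qm_id, ← hir, Qm_comp, ← Category.assoc, h1, zero_comp]

/-! ### additivity of `Qm` -/

lemma Qm_zsmul (s : ℕ) {X Y : T} (N : ℤ) (f : X ⟶ Y) : U.Qm s (N • f) = N • U.Qm s f := by
  induction s with
  | zero => rfl
  | succ s ih =>
    change U.I ◁ U.Qm s (N • f) = N • (U.I ◁ U.Qm s f)
    rw [ih]
    exact (tensorLeft U.I).map_zsmul

/-! ### vanishing lines up to multiples -/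

/-- The map `f` is killed by an element of `S`. -/
def Tors (S : Submonoid ℤ) {X Y : T} (f : X ⟶ Y) : Prop := ∃ N ∈ S, N • f = 0

lemma Tors.comp_left {S : Submonoid ℤ} {X Y Z : T} {f : X ⟶ Y} (h : Tors S f) (g : Z ⟶ X) :
    Tors S (g ≫ f) := by
  obtain ⟨N, hN, h⟩ := h
  exact ⟨N, hN, by rw [← Preadditive.comp_zsmul, h, comp_zero]⟩

lemma Tors.comp_right {S : Submonoid ℤ} {X Y Z : T} {f : X ⟶ Y} (h : Tors S f) (g : Y ⟶ Z) :
    Tors S (f ≫ g) := by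
  obtain ⟨N, hN, h⟩ := h
  exact ⟨N, hN, by rw [← Preadditive.zsmul_comp, h, zero_comp]⟩

lemma tors_zero {S : Submonoid ℤ} {X Y : T} : Tors S (0 : X ⟶ Y) :=
  ⟨1, S.one_mem, by rw [one_smul]⟩

lemma Tors.of_zsmul {S : Submonoid ℤ} {X Y : T} {f : X ⟶ Y} {N : ℤ} (hN : N ∈ S)
    (h : Tors S (N • f)) : Tors S f := by
  obtain ⟨M, hM, h⟩ := h
  exact ⟨M * N, S.mul_mem hM hN, by rw [mul_smul, h]⟩

lemma tors_shift_iff {S : Submonoid ℤ} {X Y : T} {f : X ⟶ Y} :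
    Tors S (f⟦(1 : ℤ)⟧') ↔ Tors S f := by
  constructor
  · rintro ⟨N, hN, h⟩
    refine ⟨N, hN, ?_⟩
    apply (shiftFunctor T (1 : ℤ)).map_injective
    rw [Functor.map_zsmul, h, Functor.map_zero]
  · rintro ⟨N, hN, h⟩
    exact ⟨N, hN, by rw [← Functor.map_zsmul, h, Functor.map_zero]⟩

/-- The class of objects with a vanishing line of slope `b`, up to multiples in `S`. -/
def VLS (U : UTri T) (S : Submonoid ℤ) (D : ℤ → T → Prop) (b : ℤ) (X : T) : Prop :=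
  ∃ (r : ℕ) (c : ℤ), ∀ (s : ℕ) (n : ℤ) (W : T), D n W → n + c < b * s →
    ∀ g : W ⟶ U.Q s X, U.AF r g → Tors S g

variable {S : Submonoid ℤ}

lemma VL.vls {X : T} (h : U.VL D b X) : U.VLS S D b X := by
  obtain ⟨r, c, h⟩ := h
  refine ⟨r, c, fun s n W hW hn g hg => ?_⟩
  rw [h s n W hW hn g hg]
  exact tors_zero

lemma VLS.mono {S' : Submonoid ℤ} (hS : S ≤ S') {X : T} (h : U.VLS S D b X) :
    U.VLS S' D b X := by
  obtain ⟨r, c, h⟩ := h
  refine ⟨r, c, fun s n W hW hn g hg => ?_⟩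
  obtain ⟨N, hN, h'⟩ := h s n W hW hn g hg
  exact ⟨N, hS hN, h'⟩

lemma VLS.zero {X : T} (hX : IsZero X) : U.VLS S D b X := (VL.zero hX).vls

/-- retracts up to multiples in `S` -/
lemma VLS.retract {X Y : T} (hX : U.VLS S D b X) (i : Y ⟶ X) (p : X ⟶ Y) {N : ℤ} (hN : N ∈ S)
    (hip : i ≫ p = N • 𝟙 Y) : U.VLS S D b Y := by
  obtain ⟨r, c, h⟩ := hX
  refine ⟨r, c, fun s n W hW hn g hg => ?_⟩
  have h1 : Tors S (g ≫ U.Qm s i) := h s n W hW hn _ (hg.comp_right _)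
  refine Tors.of_zsmul hN ?_
  have h2 : N • g = (g ≫ U.Qm s i) ≫ U.Qm s p := by
    rw [Category.assoc, ← Qm_comp, hip, Qm_zsmul, Qm_id, Preadditive.comp_zsmul,
      Category.comp_id]
  rw [h2]
  exact h1.comp_right _

lemma VLS.of_iso {X Y : T} (hX : U.VLS S D b X) (e : X ≅ Y) : U.VLS S D b Y :=
  hX.retract e.inv e.hom S.one_mem (by rw [e.inv_hom_id, one_smul])

lemma VLS.ext {X Y Z : T} (hb : 0 ≤ b) (hX : U.VLS S D b X) (hZ : U.VLS S D b Z) {f : X ⟶ Y}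
    {g : Y ⟶ Z} {h : Z ⟶ X⟦(1 : ℤ)⟧} (hΔ : Triangle.mk f g h ∈ distTriang T) :
    U.VLS S D b Y := by
  obtain ⟨r, c, h1⟩ := hX
  obtain ⟨r', c', h2⟩ := hZ
  refine ⟨r + r', max c c', fun s n W hW hn a ha => ?_⟩
  obtain ⟨a', ha', rfl⟩ := ha.lift_split
  obtain ⟨N, hN, h3⟩ : Tors S (a' ≫ U.Qm (s + r) g) := by
    refine h2 (s + r) n W hW ?_ _ (ha'.comp_right _)
    have : (b * s : ℤ) ≤ b * ((s + r : ℕ) : ℤ) := by
      push_cast
      nlinarith [mul_nonneg hb (Int.natCast_nonneg r)]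
    have := le_max_right c c'
    linarith
  obtain ⟨h', hh'⟩ := U.Q_dist (s + r) hΔ
  obtain ⟨a'', ha''⟩ := ex₂ hh' (N • a') (by rw [Preadditive.zsmul_comp, h3])
  have h4 : Tors S (a'' ≫ U.pr s r X) := by
    refine h1 s n W hW ?_ _ ((AF_pr s r X).comp_left _)
    have := le_max_left c c'
    linarith
  refine Tors.of_zsmul hN ?_
  have h5 : N • (a' ≫ U.pr s r Y) = (a'' ≫ U.pr s r X) ≫ U.Qm s f := by
    rw [← Preadditive.zsmul_comp, ha'', Category.assoc, Category.assoc, pr_natural]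
  rw [h5]
  exact h4.comp_right _

lemma VLS.shift {X : T} (hD : ∀ n W, D n W → D (n - 1) (W⟦(-1 : ℤ)⟧)) (hX : U.VLS S D b X) :
    U.VLS S D b (X⟦(1 : ℤ)⟧) := by
  obtain ⟨r, c, h⟩ := hX
  refine ⟨r, c + 1, fun s n W hW hn g hg => ?_⟩
  obtain ⟨e, g', hg'⟩ := exists_unshift (1 : ℤ) (g ≫ (U.Qsh s X).inv)
  have h1 : Tors S g' := by
    refine h s (n - 1) _ (hD n W hW) (by linarith) g' ?_
    rw [← AF_shift_iff]
    have h2 : g'⟦(1 : ℤ)⟧' = e.inv ≫ g ≫ (U.Qsh s X).inv := by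
      rw [hg', Iso.inv_hom_id_assoc]
    rw [h2]
    exact (hg.comp_right _).comp_left _
  have h3 : g = (e.hom ≫ g'⟦(1 : ℤ)⟧') ≫ (U.Qsh s X).hom := by
    rw [← hg', Category.assoc, Iso.inv_hom_id, Category.comp_id]
  rw [h3]
  exact ((tors_shift_iff.2 h1).comp_left _).comp_right _

lemma VLS.of_shift {X : T} (hD : ∀ n W, D n W → D (n + 1) (W⟦(1 : ℤ)⟧))
    (hX : U.VLS S D b (X⟦(1 : ℤ)⟧)) : U.VLS S D b X := by
  obtain ⟨r, c, h⟩ := hX
  refine ⟨r, c + 1, fun s n W hW hn g hg => ?_⟩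
  have h1 : Tors S (g⟦(1 : ℤ)⟧' ≫ (U.Qsh s X).hom) :=
    h s (n + 1) _ (hD n W hW) (by linarith) _ ((AF_shift_iff.2 hg).comp_right _)
  have h2 : Tors S ((g⟦(1 : ℤ)⟧' ≫ (U.Qsh s X).hom) ≫ (U.Qsh s X).inv) := h1.comp_right _
  rw [Category.assoc, Iso.hom_inv_id, Category.comp_id] at h2
  exact tors_shift_iff.1 h2

/-- A class of objects is thick up to multiples in `S`. -/
structure IsThickS (S : Submonoid ℤ) (P : T → Prop) : Prop where
  zero : ∀ {X : T}, IsZero X → P X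
  shift : ∀ {X : T}, P X → P (X⟦(1 : ℤ)⟧)
  of_shift : ∀ {X : T}, P (X⟦(1 : ℤ)⟧) → P X
  ext : ∀ {X Y Z : T} {f : X ⟶ Y} {g : Y ⟶ Z} {h : Z ⟶ X⟦(1 : ℤ)⟧},
    Triangle.mk f g h ∈ distTriang T → P X → P Z → P Y
  retract : ∀ {X Y : T} (i : Y ⟶ X) (p : X ⟶ Y) (N : ℤ), N ∈ S → i ≫ p = N • 𝟙 Y → P X → P Y

/-- The vanishing line classes are thick up to multiples in `S`. -/
theorem VLS.isThickS (hb : 0 ≤ b) (hD : ∀ n W, D n W → D (n + 1) (W⟦(1 : ℤ)⟧))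
    (hD' : ∀ n W, D n W → D (n - 1) (W⟦(-1 : ℤ)⟧)) : IsThickS S (U.VLS S D b) where
  zero := VLS.zero
  shift h := h.shift hD'
  of_shift h := h.of_shift hD
  ext hΔ hX hZ := VLS.ext hb hX hZ hΔ
  retract i p _ hN hip h := h.retract i p hN hip

/-- transfer along a map `j : X ⟶ X'` whose kernel on maps from test objects is `S`-torsion
(for example `X ⟶ X_(p)`). -/
lemma VLS.of_map {X X' : T} (j : X ⟶ X')
    (hj : ∀ (s : ℕ) (n : ℤ) (W : T), D n W → ∀ g : W ⟶ U.Q s X, Tors S (g ≫ U.Qm s j) →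
      Tors S g) (h : U.VLS S D b X') : U.VLS S D b X := by
  obtain ⟨r, c, h⟩ := h
  exact ⟨r, c, fun s n W hW hn g hg => hj s n W hW g (h s n W hW hn _ (hg.comp_right _))⟩

/-- the isomorphism `U.Q s X ⊗ K ≅ U.Q s (X ⊗ K)` -/
def Qtensor (U : UTri T) : ∀ (s : ℕ) (X K : T), U.Q s X ⊗ K ≅ U.Q s (X ⊗ K)
  | 0, _, _ => Iso.refl _
  | s + 1, X, K => α_ U.I (U.Q s X) K ≪≫ whiskerLeftIso U.I (Qtensor U s X K)

/-- **descent** along a tensor factor `K` such that `- ⊗ K` is faithful up to `S`-torsion. -/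
lemma VLS.of_tensor {X K : T} {d : ℤ} (hDK : ∀ n W, D n W → D (n + d) (W ⊗ K))
    (hK : ∀ (W Z : T) (y : W ⟶ Z), y ▷ K = 0 → Tors S y)
    (h : U.VLS S D b (X ⊗ K)) : U.VLS S D b X := by
  obtain ⟨r, c, h⟩ := h
  refine ⟨r, c + d, fun s n W hW hn g hg => ?_⟩
  have h1 : Tors S ((g ▷ K) ≫ (U.Qtensor s X K).hom) :=
    h s (n + d) _ (hDK n W hW) (by linarith) _ ((hg.whiskerRight K).comp_right _)
  have h2 : Tors S (((g ▷ K) ≫ (U.Qtensor s X K).hom) ≫ (U.Qtensor s X K).inv) :=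
    h1.comp_right _
  rw [Category.assoc, Iso.hom_inv_id, Category.comp_id] at h2
  obtain ⟨N, hN, h3⟩ := h2
  refine Tors.of_zsmul hN (hK _ _ _ ?_)
  rw [← h3]
  exact (tensorRight K).map_zsmul

/-- descent to the unit -/
lemma VLS.one_of_tensor {K : T} {d : ℤ} (hDK : ∀ n W, D n W → D (n + d) (W ⊗ K))
    (hK : ∀ (W Z : T) (y : W ⟶ Z), y ▷ K = 0 → Tors S y)
    (h : U.VLS S D b K) : U.VLS S D b (𝟙_ T) :=
  VLS.of_tensor hDK hK (h.of_iso (λ_ K).symm)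

/-- The use of a vanishing line. -/
theorem VLS.comp {X : T} (hX : U.VLS S D b X) : ∃ (r : ℕ) (c : ℤ), ∀ (s : ℕ) (n : ℤ)
    (K Y : T), D n K → n + c < b * s → ∀ (g : K ⟶ Y), U.AF (s + r) g → ∀ ι : Y ⟶ X,
      Tors S (g ≫ ι) := by
  obtain ⟨r, c, h⟩ := hX
  refine ⟨r, c, fun s n K Y hK hn g hg ι => ?_⟩
  obtain ⟨a, ha, hab⟩ := AF.lift_split (s := 0) (hg.comp_right ι)
  have h1 : Tors S a := h (0 + s) n K hK (by simpa using hn) a ha
  rw [← hab]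
  exact h1.comp_right _

end UTri

end Vale.Agent.P093.N.TT
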