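import Vale.Agent.P251.M.BTInst
import Vale.Agent.P251.G.GrCofib
import Vale.Agent.P251.Q.CPn
import Vale.Agent.P093.N3W.Stage

/-!
# P093, part N: the splitting of projective space

`S : SpaceFunctor T`, `R` a commutative monoid of `T`.

* `exists_split`: the cofibre sequence `Gr 0 I ⟶ Gr 1 (I ⊕ Unit) ⟶ Th 1 I` splits in `T`;
* `chi`, `sg`: the collapse `F (Gr 1 (Fin (N + 1))) ⟶ F (Th 1 (Fin N))` and a section of it, with
  `chi_tj`, `sg_chi`, `sg_aug`, `tot`;
* `wsplitBU c : WSplit (buData S R c)` and `wsplit C : WSplit (buDataK C)`.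
-/

set_option linter.unusedSectionVars false
set_option linter.style.haveILetI false

open CategoryTheory MonoidalCategory Limits Pretriangulated Topology OnePoint Matrix

universe v u

noncomputable section

namespace Vale.Agent.P093.N.WGeo

open Vale.Agent.P251.M Vale.Agent.P251.G Vale.Agent.P251.G.LC Vale.Agent.P251.I Vale.Agent.P251.T
open Vale.Agent.P251

/-! ### Geometry -/

section geometry

variable {I : Type} [Fintype I] [DecidableEq I]

/-- the base point -/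
theorem gunit_addOneHom : GS.gunit I ≫ Gr.addOneHom (n := 0) (I := I) =
    GS.pt1 ≫ GS.gmap (injMat (Sum.inr : Unit → I ⊕ Unit)) (injMat_isom Sum.inr_injective) := by
  apply LC.hom_ext
  rintro ⟨⟩
  rw [app_comp, app_comp]
  refine (app_addOneHom (GS.gzeroPt I)).trans ?_
  refine congrArg (fun Q : Gr 1 (I ⊕ Unit) => (Q : OnePoint (Gr 1 (I ⊕ Unit)))) (Gr.ext ?_)
  exact (injMat_inr_conj (I := I) (1 : Matrix Unit Unit ℂ)).symm

theorem gaug_gunit_retr : GS.gaug 1 (I ⊕ Unit) ≫ GS.gunit I = Q.Gr.retr I := by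
  apply LC.hom_ext
  intro x
  rfl

instance isFC_grO (n : ℕ) : IsFC (LC.of (Gr n I)) := isFC_gr n I

end geometry

/-! ### The splitting in `T` -/

section triangle

variable {T : Type u} [Category.{v} T] [Preadditive T] [HasZeroObject T]
    [HasShift T ℤ] [∀ n : ℤ, (shiftFunctor T n).Additive] [Pretriangulated T]
    [MonoidalCategory T] [SymmetricCategory T] [TensorTriangulated T] (S : SpaceFunctor T)
variable (I : Type) [Fintype I] [DecidableEq I]

instance isFC_cofAddOne : IsFC (cof (Gr.addOneHom (n := 0) (I := I))) :=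
  ⟨FC.cof Gr.cofib_addOneHom IsFC.out IsFC.out⟩

theorem projTri : ∃ δ : ob S.S (ThO 1 I) ⟶ (ob S.S (GrO 0 I))⟦(1 : ℤ)⟧,
    Triangle.mk (mp S.S (Gr.addOneHom (n := 0) (I := I))) (mp S.S (Gr.collapse (n := 1) (I := I)))
      δ ∈ distTriang T := by
  have h := S.cof_distinguished (A := ⟨GrO 0 I, IsFC.out⟩) (B := ⟨GrO 1 (I ⊕ Unit), IsFC.out⟩)
    (FCat.hom (Gr.addOneHom (n := 0) (I := I))) Gr.cofib_addOneHom
  let e : ob S.S (cof (Gr.addOneHom (n := 0) (I := I))) ≅ ob S.S (ThO 1 I) :=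
    mpIso S.S (Gr.cofAddOne (n := 0) (I := I))
  refine ⟨e.inv ≫ S.cofδ (A := ⟨GrO 0 I, IsFC.out⟩) (B := ⟨GrO 1 (I ⊕ Unit), IsFC.out⟩)
    (FCat.hom (Gr.addOneHom (n := 0) (I := I))) Gr.cofib_addOneHom, ?_⟩
  refine dist_of_iso₃ h e ?_ ?_
  · have h1 := mp_comp S.S (cofMap (Gr.addOneHom (n := 0) (I := I)))
      (Gr.cofAddOne (n := 0) (I := I)).hom
    rw [Gr.cofMap_cofAddOne] at h1
    exact h1.symm
  · exact e.hom_inv_id_assoc _

theorem addOneHom_retr' : mp S.S (Gr.addOneHom (n := 0) (I := I)) ≫ mp S.S (Q.Gr.retr I) =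
    𝟙 _ := by
  rw [← mp_comp, Q.addOneHom_retr, mp_id]

/-- The cofibre sequence of projective space splits. -/
theorem exists_split : ∃ s : ob S.S (ThO 1 I) ⟶ ob S.S (GrO 1 (I ⊕ Unit)),
    s ≫ mp S.S (Gr.collapse (n := 1) (I := I)) = 𝟙 _ ∧
    s ≫ mp S.S (Q.Gr.retr I) = 0 ∧
    mp S.S (Q.Gr.retr I) ≫ mp S.S (Gr.addOneHom (n := 0) (I := I)) +
      mp S.S (Gr.collapse (n := 1) (I := I)) ≫ s = 𝟙 _ := by
  obtain ⟨δ, hδ⟩ := projTri S I
  have hr := addOneHom_retr' S I
  set a := mp S.S (Gr.addOneHom (n := 0) (I := I)) with ha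
  set c := mp S.S (Gr.collapse (n := 1) (I := I)) with hc
  set r := mp S.S (Q.Gr.retr I) with hr0
  have hac : a ≫ c = 0 := comp_distTriang_mor_zero₁₂ _ hδ
  have h31 : δ ≫ a⟦(1 : ℤ)⟧' = 0 := comp_distTriang_mor_zero₃₁ _ hδ
  have hδ0 : δ = 0 := by
    have h1 : δ ≫ a⟦(1 : ℤ)⟧' ≫ r⟦(1 : ℤ)⟧' = δ := by
      rw [← Functor.map_comp, hr, CategoryTheory.Functor.map_id, Category.comp_id]
    rw [← h1, reassoc_of% h31, zero_comp]
  have hepi : Epi c := by
    have := (Triangle.mor₃_eq_zero_iff_epi₂ _ hδ).1 hδ0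
    exact this
  obtain ⟨s, hs⟩ : ∃ s, 𝟙 _ - r ≫ a = c ≫ s :=
    Triangle.yoneda_exact₂ _ hδ (𝟙 _ - r ≫ a) (by
      change a ≫ (𝟙 _ - r ≫ a) = 0
      rw [Preadditive.comp_sub, reassoc_of% hr, Category.comp_id, sub_self])
  refine ⟨s, ?_, ?_, ?_⟩
  · rw [← cancel_epi c, ← Category.assoc, ← hs, Preadditive.sub_comp, Category.assoc, hac,
      comp_zero, sub_zero, Category.id_comp, Category.comp_id]
  · rw [← cancel_epi c, ← Category.assoc, ← hs, Preadditive.sub_comp, Category.assoc, hr,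
      Category.id_comp, Category.comp_id, sub_self, comp_zero]
  · rw [← hs]
    abel

end triangle

/-! ### General functors -/

section general

variable {D : Type u} [Category.{v} D] [MonoidalCategory D] [SymmetricCategory D]
variable (F : FCat ⥤ D) [F.Braided] [HInv F]
variable {I : Type} [Fintype I] [DecidableEq I]

theorem gaug_eq : GS.gaug 1 (I ⊕ Unit) = Q.Gr.retr I ≫ GS.gaug 0 I := by
  rw [← gaug_gunit_retr, Category.assoc, GS.gunit_gaug, Category.comp_id]

/-- the augmentation and the retraction -/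
theorem retr_aug : mp F (Q.Gr.retr I) ≫ aug F 0 I = aug F 1 (I ⊕ Unit) := by
  rw [aug, aug, ← mp_comp_assoc, ← gaug_eq]

/-- the base point -/
theorem aug_pt1_gen (h : 1 ≤ Fintype.card (I ⊕ Unit)) : aug F 1 (I ⊕ Unit) ≫ pt1 F h =
    mp F (Q.Gr.retr I) ≫ mp F (Gr.addOneHom (n := 0) (I := I)) := by
  have h1 : Fintype.card Unit ≤ Fintype.card (I ⊕ Unit) := by simp
  have e1 : gj F 1 h1 = mp F (GS.gmap (injMat (Sum.inr : Unit → I ⊕ Unit))
      (injMat_isom Sum.inr_injective)) := (mp_gmap F _ _ h1).symm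
  rw [aug, pt1, e1, Category.assoc, Iso.inv_hom_id_assoc, ← mp_comp, ← mp_comp, ← mp_comp,
    ← gunit_addOneHom, ← gaug_gunit_retr, Category.assoc]

/-- the collapse and the zero section -/
theorem collapse_tj (h : Fintype.card I ≤ Fintype.card (I ⊕ Unit)) :
    mp F (Gr.collapse (n := 1) (I := I)) ≫ tj F 1 h = zr F 1 (I ⊕ Unit) := by
  have e1 : mp F (Th.inj (n := 1) (Sum.inl : I → I ⊕ Unit) Sum.inl_injective) = tj F 1 h :=
    mp_tmap F _ _ h
  rw [← e1, ← mp_comp, ← mp_eq F Gr.zeroHom_homotopic, zeroHom_eq_z, zr]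

/-- the collapse of projective space -/
def chi (N : ℕ) : ob F (GrO 1 (Fin (N + 1))) ⟶ ob F (ThO 1 (Fin N)) :=
  gj F 1 (I := Fin (N + 1)) (J := Fin N ⊕ Unit) (by simp) ≫
    mp F (Gr.collapse (n := 1) (I := Fin N))

theorem chi_tj (N : ℕ) (h : Fintype.card (Fin N) ≤ Fintype.card (Fin (N + 1))) :
    chi F N ≫ tj F 1 h = zr F 1 (Fin (N + 1)) := by
  have h1 : Fintype.card (Fin N) ≤ Fintype.card (Fin N ⊕ Unit) := by simp
  have h2 : Fintype.card (Fin N ⊕ Unit) ≤ Fintype.card (Fin (N + 1)) := by simp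
  rw [← tj_tj F h1 h2, chi, Category.assoc, ← Category.assoc (mp F _), collapse_tj, zr_tj,
    gj_gj_assoc, gj_refl, Category.id_comp]

theorem chi_th (N : ℕ) : (show (gF F 1).obj (N + 1) ⟶ (thF F 1).obj N from chi F N) ≫
    (thF F 1).map (homOfLE (Nat.le_succ N)) = (zF F 1).app (N + 1) :=
  chi_tj F N _

/-- the base point of projective space, as a map to the `N`-th stage -/
theorem aug_i (N : ℕ) (h : 1 ≤ Fintype.card (Fin (N + 1)))
    (h1 : Fintype.card (Fin (N + 1)) ≤ Fintype.card (Fin N ⊕ Unit))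
    (h2 : Fintype.card (Fin N ⊕ Unit) ≤ Fintype.card (Fin (N + 1))) :
    aug F 1 (Fin (N + 1)) ≫ pt1 F h = gj F 1 h1 ≫
      (mp F (Q.Gr.retr (Fin N)) ≫ mp F (Gr.addOneHom (n := 0) (I := Fin N))) ≫ gj F 1 h2 := by
  have h3 : 1 ≤ Fintype.card (Fin N ⊕ Unit) := by simp
  rw [← aug_pt1_gen F h3, Category.assoc, pt1_gj, gj_aug_assoc]

end general

/-! ### Free modules -/

section free

variable {T : Type u} [Category.{v} T] [Preadditive T] [HasZeroObject T]
    [HasShift T ℤ] [∀ n : ℤ, (shiftFunctor T n).Additive] [Pretriangulated T]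
    [MonoidalCategory T] [SymmetricCategory T] [TensorTriangulated T] (S : SpaceFunctor T)
    (R : T) [MonObj R] [IsCommMonObj R]

/-- the section of the collapse over `R` -/
def sg (N : ℕ) : ob (FR S R) (ThO 1 (Fin N)) ⟶ ob (FR S R) (GrO 1 (Fin (N + 1))) :=
  (show ob (FR S R) (ThO 1 (Fin N)) ⟶ ob (FR S R) (GrO 1 (Fin N ⊕ Unit)) from
    (FM.free R).map (exists_split S (Fin N)).choose) ≫
    gj (FR S R) 1 (I := Fin N ⊕ Unit) (J := Fin (N + 1)) (by simp)

theorem sg_chi (N : ℕ) : sg S R N ≫ chi (FR S R) N = 𝟙 _ := by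
  have h := (exists_split S (Fin N)).choose_spec.1
  have h2 := congrArg (FM.free R).map h
  rw [Functor.map_comp, ← mp_FR] at h2
  rw [sg, chi, Category.assoc, gj_gj_assoc, gj_refl, Category.id_comp]
  exact h2.trans ((FM.free R).map_id _)

theorem sg_aug (N : ℕ) : sg S R N ≫ aug (FR S R) 1 (Fin (N + 1)) = 0 := by
  have h := (exists_split S (Fin N)).choose_spec.2.1
  have h2 := congrArg (FM.free R).map h
  rw [Functor.map_comp, ← mp_FR, Functor.map_zero] at h2
  rw [sg, Category.assoc, gj_aug, ← retr_aug, ← Category.assoc]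
  exact (congrArg (· ≫ aug (FR S R) 0 (Fin N)) h2).trans zero_comp

theorem tot (N : ℕ) (h : 1 ≤ Fintype.card (Fin (N + 1))) :
    aug (FR S R) 1 (Fin (N + 1)) ≫ pt1 (FR S R) h + chi (FR S R) N ≫ sg S R N =
      𝟙 (ob (FR S R) (GrO 1 (Fin (N + 1)))) := by
  have h0 := (exists_split S (Fin N)).choose_spec.2.2
  have h1 : Fintype.card (Fin (N + 1)) ≤ Fintype.card (Fin N ⊕ Unit) := by simp
  have h2 : Fintype.card (Fin N ⊕ Unit) ≤ Fintype.card (Fin (N + 1)) := by simp
  have e : ∀ (a b : ob (FR S R) (GrO 1 (Fin N ⊕ Unit)) ⟶ ob (FR S R) (GrO 1 (Fin N ⊕ Unit))),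
      a + b = 𝟙 _ → gj (FR S R) 1 h1 ≫ a ≫ gj (FR S R) 1 h2 +
        gj (FR S R) 1 h1 ≫ b ≫ gj (FR S R) 1 h2 = 𝟙 (ob (FR S R) (GrO 1 (Fin (N + 1)))) := by
    intro a b hab
    rw [← Preadditive.comp_add, ← Preadditive.add_comp, hab, Category.id_comp, gj_gj, gj_refl]
  have e0 := congrArg (FM.free R).map h0
  rw [Functor.map_add, Functor.map_comp, Functor.map_comp, ← mp_FR, ← mp_FR, ← mp_FR] at e0
  have e2 := e _ _ (e0.trans ((FM.free R).map_id _))
  rw [aug_i (FR S R) N h h1 h2]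
  refine Eq.trans ?_ e2
  congr 1
  simp only [sg, chi, Category.assoc]

theorem g_zero : IsZero ((gF (FR S R) 1).obj 0) := by
  have h : IsZero (ob S.S (GrO 1 (Fin 0))) :=
    S.isZero (inferInstanceAs (IsEmpty (Gr (0 + 1) (Fin 0))))
  exact (FM.free R).map_isZero h

/-- The splitting of projective space over `R`. -/
def wsplitBU {t : ThomStr (FR S R)} {A : SphD (FM R)} (c : SphCompat t A) :
    N3W.WSplit (buData S R c) where
  i N := pt1 (FR S R) (I := Fin (N + 1)) (by simp)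
  χ N := chi (FR S R) N
  σ N := sg S R N
  i_eq N := (pt1_gj (FR S R) (I := Fin 1) (J := Fin (N + 1)) (by simp) (by simp)).symm
  σ_χ N := sg_chi S R N
  σ_aug N := sg_aug S R N
  tot N := tot S R N _
  χ_th N := chi_th (FR S R) N
  g_zero f g := (g_zero S R).eq_of_src f g

end free

/-- The splitting of projective space, for the data of a commutative monoid with Thom classes. -/
def wsplit {T : Type u} [Category.{v} T] [Preadditive T] [HasZeroObject T]
    [HasShift T ℤ] [∀ n : ℤ, (shiftFunctor T n).Additive] [Pretriangulated T]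
    [MonoidalCategory T] [SymmetricCategory T] [TensorTriangulated T]
    {S : SpaceFunctor T} {E : EvenSpheres T} {e : S.S.obj CCF ≅ E.L}
    {K : T} [MonObj K] [IsCommMonObj K] (C : ThomSys.Cls (thomSys S E e) K) :
    N3W.WSplit (buDataK C) :=
  wsplitBU S K (compatK C)

end Vale.Agent.P093.N.WGeo
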