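import Vale.Agent.P093.N.Nak3
import Vale.Agent.P093.N.YSplitAlg

/-!
# P093, block N3, T-side end: `R`-bases of retracts

`R` a commutative monoid, `χ : π_{2*} R → F` a homomorphism to a field such that `π_{<0} R = 0` (even
part), `χ` is onto in degree `0` and the elements of degree `0` outside of the kernel of `χ` are
units.

* `RBasis.exists_retract` : `b` an `R`-basis of `X` (bounded below, finite in each degree), `Y` a
  retract of `X` with `r : X ⟶ Y`. Then the images `w_j ≫ R ◁ r` of some of the elements of the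
  basis form an `R`-basis of `Y`.
-/

open CategoryTheory MonoidalCategory MonObj Limits Pretriangulated

set_option linter.unusedSectionVars false

universe v u

noncomputable section

namespace Vale.Agent.P093.N.YSplit

open Vale.Agent.P251.S Vale.Agent.P251.T Vale.Agent.P251.M Vale.Agent.P251.M.EvenSpheres
  Vale.Agent.P251.X Vale.Agent.P093.Nak

section Stable

variable {T : Type u} [Category.{v} T] [Preadditive T] [HasZeroObject T]
    [HasShift T ℤ] [∀ n : ℤ, (shiftFunctor T n).Additive] [Pretriangulated T] [IsTriangulated T]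
    [MonoidalCategory T] [SymmetricCategory T] [TensorTriangulated T] [MonoidalClosed T]
    [HasCoproducts.{0} T] [HasProducts.{0} T] [StableCat T] {E : EvenSpheres T}
    {R : T} [MonObj R] [IsCommMonObj R]

/-- The images of a part of a basis of `X` under a split epimorphism `r : X ⟶ Y`, such that the other
elements can be changed to elements of the kernel. -/
theorem isIso_of_split {X Y : T} {J K : Type} (kJ : J → ℤ) (kK : K → ℤ)
    (w : ∀ j, E.S (kJ j) ⟶ R ⊗ X) (w' : ∀ k, E.S (kK k) ⟶ R ⊗ X) (s : Y ⟶ X) (r : X ⟶ Y)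
    (hsr : s ≫ r = 𝟙 Y) (hw' : ∀ k, w' k ≫ R ◁ r = 0)
    (hw : ∀ j, w j ≫ R ◁ (r ≫ s) = w j)
    (h : IsIso (lin (ModStr.free R X) (Sigma.desc fun x : J ⊕ K =>
      (Sum.rec w w' x : E.S (Sum.rec kJ kK x : ℤ) ⟶ R ⊗ X)))) :
    IsIso (lin (ModStr.free R Y) (Sigma.desc fun j => w j ≫ R ◁ r)) := by
  classical
  let S : J ⊕ K → T := fun x => E.S (Sum.rec kJ kK x : ℤ)
  let ww : ∀ x : J ⊕ K, S x ⟶ R ⊗ X := fun x => Sum.rec w w' x
  let ι : (∐ fun j => E.S (kJ j)) ⟶ ∐ S := Sigma.desc fun j => Sigma.ι S (Sum.inl j)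
  let π : ∐ S ⟶ (∐ fun j => E.S (kJ j)) := Sigma.desc fun x =>
    match x with
    | Sum.inl j => Sigma.ι (fun j => E.S (kJ j)) j
    | Sum.inr _ => 0
  have hιπ : ι ≫ π = 𝟙 _ := by
    refine Sigma.hom_ext _ _ fun j => ?_
    rw [Sigma.ι_desc_assoc, Sigma.ι_desc, Category.comp_id]
  have h' : IsIso (lin (ModStr.free R X) (Sigma.desc ww)) := h
  set Φ := lin (ModStr.free R X) (Sigma.desc ww) with hΦ
  have e1 : lin (ModStr.free R Y) (Sigma.desc fun j => w j ≫ R ◁ r) ≫ R ◁ s = R ◁ ι ≫ Φ := by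
    rw [lin_comp _ (ModStr.free R X) _ _ (isLinear_whiskerLeft s), hΦ, whiskerLeft_lin]
    congr 1
    refine Sigma.hom_ext _ _ fun j => ?_
    rw [Sigma.ι_desc_assoc, Category.assoc, ← MonoidalCategory.whiskerLeft_comp, hw,
      Sigma.ι_desc_assoc, Sigma.ι_desc]
  have e2 : Φ ≫ R ◁ r = R ◁ π ≫ lin (ModStr.free R Y) (Sigma.desc fun j => w j ≫ R ◁ r) := by
    rw [hΦ, lin_comp _ (ModStr.free R Y) _ _ (isLinear_whiskerLeft r), whiskerLeft_lin]
    congr 1
    refine Sigma.hom_ext _ _ fun x => ?_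
    rcases x with j | k
    · rw [Sigma.ι_desc_assoc, Sigma.ι_desc_assoc, Sigma.ι_desc]
    · rw [Sigma.ι_desc_assoc, Sigma.ι_desc_assoc, zero_comp]
      exact hw' k
  refine ⟨R ◁ s ≫ inv Φ ≫ R ◁ π, ?_, ?_⟩
  · rw [reassoc_of% e1, IsIso.hom_inv_id_assoc, ← MonoidalCategory.whiskerLeft_comp, hιπ,
      MonoidalCategory.whiskerLeft_id]
  · rw [Category.assoc, Category.assoc, ← e2, IsIso.inv_hom_id_assoc,
      ← MonoidalCategory.whiskerLeft_comp, hsr, MonoidalCategory.whiskerLeft_id]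

variable {F : Type*} [Field F] (χ : HRing E R →+* F)

/-- **`R`-bases of retracts.** -/
theorem _root_.Vale.Agent.P093.Nak.RBasis.exists_retract
    (hS : ∀ n, IsSphere (E.S n))
    (hneg : ∀ n < 0, ∀ a : E.S n ⟶ R, a = 0)
    (hloc : ∀ a : E.S 0 ⟶ R, χ (HRing.of E R 0 a) ≠ 0 → IsUnit (HRing.of E R 0 a))
    (hsurj : ∀ y : F, ∃ a : E.S 0 ⟶ R, χ (HRing.of E R 0 a) = y)
    {X Y : T} {I : Type} (b : RBasis E R X I) (hb : b.FinType) (s : Y ⟶ X) (r : X ⟶ Y)
    (hsr : s ≫ r = 𝟙 Y) :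
    ∃ J : Set I, IsIso (Sigma.desc fun j : J => lin (ModStr.free R Y) (b.w j ≫ R ◁ r)) := by
  let B := b.basis hS
  let e : MP E R X →ₗ[HRing E R] MP E R X := MP.map E R (r ≫ s)
  have hee : ∀ x, e (e x) = e x := by
    intro x
    have h1 : e.comp e = e := by
      change (MP.map E R (r ≫ s)).comp (MP.map E R (r ≫ s)) = MP.map E R (r ≫ s)
      rw [← MP.map_comp]
      congr 1
      rw [Category.assoc, reassoc_of% hsr]
    exact LinearMap.congr_fun h1 x
  have heB : ∀ j, e (B j) = MP.of E R X (b.k j) (b.w j ≫ R ◁ (r ≫ s)) := by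
    intro j
    change MP.map E R (r ≫ s) (b.basis hS j) = _
    rw [RBasis.basis_apply, MP.map_of]
  have hhom : ∀ j i, B.repr (e (B j)) i =
      HRing.of E R (b.k j - b.k i) ((B.repr (e (B j)) i) (b.k j - b.k i)) := by
    intro j i
    rw [heB]
    exact b.repr_of hS _ i
  have hhigh : ∀ i j, b.k j < b.k i → B.repr (e (B j)) i = 0 := by
    intro i j hij
    rw [hhom]
    exact (congrArg (HRing.of E R (b.k j - b.k i)) (hneg (b.k j - b.k i) (by omega) _)).trans
      ((DirectSum.of (E.Gr R) _).map_zero)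
  have h0 : ∀ i j, b.k i = b.k j → B.repr (e (B j)) i ∈ deg0 E R := by
    intro i j hij
    rw [hhom]
    exact of_mem_deg0' (by omega) _
  obtain ⟨J, K, c, hc1, hc2⟩ := exists_split_basis χ (deg0 E R)
    (by
      rintro _ ⟨a, rfl⟩ ha
      exact hloc a ha)
    (fun y => by
      obtain ⟨a, ha⟩ := hsurj y
      exact ⟨_, ⟨a, rfl⟩, ha⟩) B b.k hb.1 hb.2 e hee hhigh h0
  refine ⟨J, ?_⟩
  let kk : J ⊕ K → ℤ := fun x => Sum.rec (fun j : J => b.k j) (fun k : K => b.k k) x
  let ww : ∀ x : J ⊕ K, E.S (kk x) ⟶ R ⊗ X := fun x =>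
    Sum.rec (motive := fun x => E.S (kk x) ⟶ R ⊗ X)
      (fun j : J => b.w j ≫ R ◁ (r ≫ s)) (fun k : K => b.w k - b.w k ≫ R ◁ (r ≫ s)) x
  have hww : ∀ x, c x = MP.of E R X (kk x) (ww x) := by
    rintro (j | k)
    · rw [hc1, heB]
    · rw [hc2, heB]
      change b.basis hS k - _ = _
      rw [RBasis.basis_apply]
      exact (map_sub (MP.of E R X (b.k k)) _ _).symm
  have hc := (RBasis.ofBasis b hS kk ww c hww).isIso'
  rw [isIso_desc_iff]
  have h1 := isIso_of_split (fun j : J => b.k j) (fun k : K => b.k k)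
    (fun j : J => b.w j ≫ R ◁ (r ≫ s)) (fun k : K => b.w k - b.w k ≫ R ◁ (r ≫ s)) s r hsr
    (fun k => by
      rw [Preadditive.sub_comp, Category.assoc, ← MonoidalCategory.whiskerLeft_comp,
        Category.assoc, hsr, Category.comp_id, sub_self])
    (fun j => by
      rw [Category.assoc, ← MonoidalCategory.whiskerLeft_comp, Category.assoc,
        reassoc_of% hsr]) hc
  have h2 : (fun j : J => (b.w j ≫ R ◁ (r ≫ s)) ≫ R ◁ r) = fun j : J => b.w j ≫ R ◁ r := by
    funext j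
    rw [Category.assoc, ← MonoidalCategory.whiskerLeft_comp, Category.assoc, hsr,
      Category.comp_id]
  rwa [h2] at h1

end Stable

end Vale.Agent.P093.N.YSplit
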